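import Vale.Agent.P087.Split

/-! Free Appell polynomials, by recursion on the length of the index word. -/

namespace Vale.Agent.P087

variable {ι : Type} {A : Type*} [Ring A] [Algebra ℂ A]

section
variable [DecidableEq ι]

/-- The recursion defining `(G v, P v)`, truncated after `n` steps. -/
noncomputable def appellAux (τ : A → ℂ) (ξ : ι → A) : ℕ → List ι → ℂ × A
  | 0, _ => (1, 1)
  | n + 1, v =>
    let G : ℂ := (if v = [] then 1 else 0) -
      sumSplit v (fun g i r => (appellAux τ ξ n g).1 * τ (ξ i * (appellAux τ ξ n r).2))
    (G, G • (1 : A) +
      sumSplit v (fun g i r => (appellAux τ ξ n g).1 • (ξ i * (appellAux τ ξ n r).2)))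

lemma appellAux_stable (τ : A → ℂ) (ξ : ι → A) :
    ∀ (n m : ℕ) (v : List ι), v.length ≤ n → v.length ≤ m →
      appellAux τ ξ n v = appellAux τ ξ m v := by
  intro n
  induction n with
  | zero =>
    intro m v hn _
    have hv : v = [] := List.length_eq_zero_iff.1 (Nat.le_zero.1 hn)
    subst hv
    cases m <;> simp [appellAux]
  | succ n ih =>
    intro m v hn hm
    cases m with
    | zero =>
      have hv : v = [] := List.length_eq_zero_iff.1 (Nat.le_zero.1 hm)
      subst hv
      simp [appellAux]
    | succ m =>
      have key : ∀ g i r, g ++ i :: r = v →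
          appellAux τ ξ n g = appellAux τ ξ m g ∧ appellAux τ ξ n r = appellAux τ ξ m r := by
        intro g i r h
        have hl := congrArg List.length h
        simp only [List.length_append, List.length_cons] at hl
        exact ⟨ih m g (by omega) (by omega), ih m r (by omega) (by omega)⟩
      simp only [appellAux]
      rw [sumSplit_congr (fun g i r h => by rw [(key g i r h).1, (key g i r h).2]),
        sumSplit_congr (f := fun g i r => (appellAux τ ξ n g).1 • (ξ i * (appellAux τ ξ n r).2))
          (fun g i r h => by rw [(key g i r h).1, (key g i r h).2])]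

/-- The coefficient `G v`. -/
noncomputable def appellG (τ : A → ℂ) (ξ : ι → A) (v : List ι) : ℂ :=
  (appellAux τ ξ v.length v).1

/-- The free Appell polynomial `P v`. -/
noncomputable def appellP (τ : A → ℂ) (ξ : ι → A) (v : List ι) : A :=
  (appellAux τ ξ v.length v).2

lemma appell_eq (τ : A → ℂ) (ξ : ι → A) (v : List ι) :
    appellAux τ ξ v.length v =
      (((if v = [] then 1 else 0) -
          sumSplit v (fun g i r => appellG τ ξ g * τ (ξ i * appellP τ ξ r))),
        ((if v = [] then 1 else 0) -
          sumSplit v (fun g i r => appellG τ ξ g * τ (ξ i * appellP τ ξ r))) • (1 : A) +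
          sumSplit v (fun g i r => appellG τ ξ g • (ξ i * appellP τ ξ r))) := by
  rw [appellAux_stable τ ξ v.length (v.length + 1) v le_rfl (Nat.le_succ _)]
  have key : ∀ g i r, g ++ i :: r = v →
      appellAux τ ξ v.length g = appellAux τ ξ g.length g ∧
        appellAux τ ξ v.length r = appellAux τ ξ r.length r := by
    intro g i r h
    have hl := congrArg List.length h
    simp only [List.length_append, List.length_cons] at hl
    exact ⟨appellAux_stable τ ξ _ _ g (by omega) le_rfl,
      appellAux_stable τ ξ _ _ r (by omega) le_rfl⟩
  simp only [appellAux, appellG, appellP]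
  rw [sumSplit_congr (fun g i r h => by rw [(key g i r h).1, (key g i r h).2]),
    sumSplit_congr
      (f := fun g i r => (appellAux τ ξ v.length g).1 • (ξ i * (appellAux τ ξ v.length r).2))
      (fun g i r h => by rw [(key g i r h).1, (key g i r h).2])]

lemma appellG_eq (τ : A → ℂ) (ξ : ι → A) (v : List ι) :
    appellG τ ξ v = (if v = [] then 1 else 0) -
      sumSplit v (fun g i r => appellG τ ξ g * τ (ξ i * appellP τ ξ r)) := by
  conv_lhs => rw [appellG, appell_eq]

lemma appellP_eq (τ : A → ℂ) (ξ : ι → A) (v : List ι) :
    appellP τ ξ v = appellG τ ξ v • (1 : A) +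
      sumSplit v (fun g i r => appellG τ ξ g • (ξ i * appellP τ ξ r)) := by
  conv_lhs => rw [appellP, appell_eq]
  rw [appellG_eq]

lemma appellG_nil (τ : A → ℂ) (ξ : ι → A) : appellG τ ξ [] = 1 := by
  rw [appellG_eq]; simp

lemma appellP_nil (τ : A → ℂ) (ξ : ι → A) : appellP τ ξ [] = 1 := by
  rw [appellP_eq, appellG_nil]; simp

/-- The recursion defining the coefficients of the shifted polynomials. -/
noncomputable def shiftedGAux (G : List ι → ℂ) : ℕ → List ι → ℂ
  | 0, v => G v
  | n + 1, v => G v - sumPair v (fun g _ r => shiftedGAux G n g * G r)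

lemma shiftedGAux_stable (G : List ι → ℂ) :
    ∀ (n m : ℕ) (v : List ι), v.length ≤ n → v.length ≤ m →
      shiftedGAux G n v = shiftedGAux G m v := by
  intro n
  induction n with
  | zero =>
    intro m v hn _
    have hv : v = [] := List.length_eq_zero_iff.1 (Nat.le_zero.1 hn)
    subst hv
    cases m <;> simp [shiftedGAux, sumPair]
  | succ n ih =>
    intro m v hn hm
    cases m with
    | zero =>
      have hv : v = [] := List.length_eq_zero_iff.1 (Nat.le_zero.1 hm)
      subst hv
      simp [shiftedGAux, sumPair]
    | succ m =>
      simp only [shiftedGAux]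
      rw [sumPair_congr (fun g i r h => ?_)]
      have hl := congrArg List.length h
      simp only [List.length_append, List.length_cons] at hl
      rw [ih m g (by omega) (by omega)]

/-- The coefficient of the shifted polynomials. -/
noncomputable def shiftedG (G : List ι → ℂ) (v : List ι) : ℂ := shiftedGAux G v.length v

lemma shiftedG_eq (G : List ι → ℂ) (v : List ι) :
    G v = shiftedG G v + sumPair v (fun g _ r => shiftedG G g * G r) := by
  have h : shiftedG G v = G v - sumPair v (fun g _ r => shiftedG G g * G r) := by
    rw [shiftedG, shiftedGAux_stable G v.length (v.length + 1) v le_rfl (Nat.le_succ _)]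
    simp only [shiftedGAux]
    rw [sumPair_congr (fun g i r hh => ?_)]
    have hl := congrArg List.length hh
    simp only [List.length_append, List.length_cons] at hl
    rw [shiftedGAux_stable G v.length g.length g (by omega) le_rfl]
    rfl
  rw [h]; ring

lemma shiftedG_nil (G : List ι → ℂ) : shiftedG G [] = G [] := rfl

/-- `Π v = C v + ∑ C g T_i Π r` over the decompositions `v = g ++ i :: r`, truncated. -/
noncomputable def polyAux (C : List ι → ℂ) (T : ι → A) : ℕ → List ι → A
  | 0, v => C v • (1 : A)
  | n + 1, v => C v • (1 : A) + sumSplit v (fun g i r => C g • (T i * polyAux C T n r))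

omit [DecidableEq ι] in
lemma polyAux_stable (C : List ι → ℂ) (T : ι → A) :
    ∀ (n m : ℕ) (v : List ι), v.length ≤ n → v.length ≤ m →
      polyAux C T n v = polyAux C T m v := by
  intro n
  induction n with
  | zero =>
    intro m v hn _
    have hv : v = [] := List.length_eq_zero_iff.1 (Nat.le_zero.1 hn)
    subst hv
    cases m <;> simp [polyAux]
  | succ n ih =>
    intro m v hn hm
    cases m with
    | zero =>
      have hv : v = [] := List.length_eq_zero_iff.1 (Nat.le_zero.1 hm)
      subst hv
      simp [polyAux]
    | succ m =>
      simp only [polyAux]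
      rw [sumSplit_congr (fun g i r h => ?_)]
      have hl := congrArg List.length h
      simp only [List.length_append, List.length_cons] at hl
      rw [ih m r (by omega) (by omega)]

/-- The polynomials attached to coefficients `C`. -/
noncomputable def polyC (C : List ι → ℂ) (T : ι → A) (v : List ι) : A := polyAux C T v.length v

omit [DecidableEq ι] in
lemma polyC_eq (C : List ι → ℂ) (T : ι → A) (v : List ι) :
    polyC C T v = C v • (1 : A) + sumSplit v (fun g i r => C g • (T i * polyC C T r)) := by
  rw [polyC, polyAux_stable C T v.length (v.length + 1) v le_rfl (Nat.le_succ _)]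
  simp only [polyAux]
  rw [sumSplit_congr (fun g i r h => ?_)]
  have hl := congrArg List.length h
  simp only [List.length_append, List.length_cons] at hl
  rw [polyAux_stable C T v.length r.length r (by omega) le_rfl]
  rfl

omit [DecidableEq ι] in
lemma polyC_nil (C : List ι → ℂ) (T : ι → A) : polyC C T [] = C [] • (1 : A) := rfl

/-- The derivation formula for `d Π v - Π v d`. -/
lemma comm_polyC (C : List ι → ℂ) (hC : C [] = 1) (T : ι → A) (d Q : A) (j : ι)
    (hd : ∀ i, d * T i - T i * d = if j = i then Q else 0) :
    ∀ (n : ℕ) (v : List ι), v.length ≤ n →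
      d * polyC C T v - polyC C T v * d =
        sumSplit v (fun p k s => if k = j then polyC C T p * (Q * polyC C T s) else 0) := by
  intro n
  induction n with
  | zero =>
    intro v hv
    have hv : v = [] := List.length_eq_zero_iff.1 (Nat.le_zero.1 hv)
    subst hv
    simp [polyC_nil, hC]
  | succ n ih =>
    intro v hv
    conv_lhs => rw [polyC_eq]
    rw [mul_add, add_mul, mul_sumSplit, sumSplit_mul]
    have h1 : d * (C v • (1 : A)) = (C v • (1 : A)) * d := by
      rw [mul_smul_comm, smul_mul_assoc, mul_one, one_mul]
    rw [h1, add_sub_add_left_eq_sub, ← sumSplit_sub]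
    have h2 : sumSplit v
        (fun g i r => d * (C g • (T i * polyC C T r)) - C g • (T i * polyC C T r) * d) =
        sumSplit v (fun g i r => (if i = j then (C g • (1 : A)) * (Q * polyC C T r) else 0) +
          sumSplit r (fun p k s => if k = j then
            C g • (T i * polyC C T p) * (Q * polyC C T s) else 0)) := by
      refine sumSplit_congr fun g i r h => ?_
      have hl := congrArg List.length h
      simp only [List.length_append, List.length_cons] at hl
      have hsum : sumSplit r (fun p k s => if k = j then
            C g • (T i * polyC C T p) * (Q * polyC C T s) else 0) =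
          (C g • T i) * (d * polyC C T r - polyC C T r * d) := by
        rw [ih r (by omega), mul_sumSplit]
        refine sumSplit_congr fun p k s _ => ?_
        by_cases hk : k = j
        · simp only [if_pos hk, smul_mul_assoc, mul_assoc]
        · simp only [if_neg hk, mul_zero]
      rw [hsum]
      have hdi := hd i
      by_cases hi : i = j
      · rw [if_pos hi]
        rw [if_pos hi.symm] at hdi
        rw [← hdi]
        simp only [smul_mul_assoc, mul_smul_comm, one_mul, mul_sub, sub_mul, mul_assoc, smul_sub]
        abel
      · rw [if_neg hi]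
        rw [if_neg (Ne.symm hi), sub_eq_zero] at hdi
        simp only [smul_mul_assoc, mul_smul_comm, mul_sub, mul_assoc, zero_add]
        rw [← mul_assoc d, hdi, mul_assoc]
    rw [h2, sumSplit_add, sumSplit_sumSplit, ← sumSplit_add]
    refine sumSplit_congr fun p k s _ => ?_
    by_cases hk : k = j
    · simp only [if_pos hk]
      rw [← sumSplit_mul, ← add_mul, ← polyC_eq]
    · simp only [if_neg hk, sumSplit_zero, add_zero]

end

end Vale.Agent.P087
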