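import Vale.Agent.P087.Defs

/-! The chart of self-adjoint matrices, and Gaussian bounds on Euclidean balls. -/

open scoped InnerProductSpace ENNReal
open MeasureTheory

namespace Vale.Agent.P087

set_option linter.unusedSectionVars false
set_option linter.unusedTactic false
set_option linter.unreachableTactic false
set_option linter.unnecessarySeqFocus false

variable {k : ℕ}

lemma hermMatrix_apply (x : EuclideanSpace ℝ (Fin k × Fin k)) (i j : Fin k) :
    hermMatrix x i j = if i = j then (x (i, i) : ℂ)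
      else if i < j then ((x (i, j) : ℂ) + Complex.I * (x (j, i) : ℂ)) / (Real.sqrt 2 : ℂ)
      else ((x (j, i) : ℂ) - Complex.I * (x (i, j) : ℂ)) / (Real.sqrt 2 : ℂ) := rfl

lemma hermMatrix_conj (x : EuclideanSpace ℝ (Fin k × Fin k)) (i j : Fin k) :
    (starRingEnd ℂ) (hermMatrix x j i) = hermMatrix x i j := by
  rw [hermMatrix_apply, hermMatrix_apply]
  rcases lt_trichotomy i j with h | h | h
  · simp [h.ne, h.ne', h, h.le.not_gt, Complex.conj_ofReal]
  · subst h; simp [Complex.conj_ofReal]
  · simp [h.ne, h.ne', h, h.le.not_gt, Complex.conj_ofReal]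
    ring

lemma hermMatrix_isHermitian (x : EuclideanSpace ℝ (Fin k × Fin k)) :
    (hermMatrix x).conjTranspose = hermMatrix x := by
  ext i j
  exact hermMatrix_conj x i j

lemma star_hermMatrix (x : EuclideanSpace ℝ (Fin k × Fin k)) :
    star (hermMatrix x) = hermMatrix x := hermMatrix_isHermitian x

lemma norm_sq_hermMatrix (x : EuclideanSpace ℝ (Fin k × Fin k)) (i j : Fin k) :
    ‖hermMatrix x i j‖ ^ 2 = (x (i, j) ^ 2 + x (j, i) ^ 2) / 2 := by
  rw [hermMatrix_apply, ← Complex.normSq_eq_norm_sq]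
  have h2 : Complex.normSq (Real.sqrt 2 : ℂ) = 2 := by
    rw [Complex.normSq_ofReal, Real.mul_self_sqrt zero_le_two]
  rcases lt_trichotomy i j with h | h | h
  · rw [if_neg h.ne, if_pos h, Complex.normSq_div, h2]
    simp [Complex.normSq_apply]
    ring
  · subst h; simp [Complex.normSq_apply]; ring
  · rw [if_neg h.ne', if_neg h.le.not_gt, Complex.normSq_div, h2]
    simp [Complex.normSq_apply]
    ring

lemma sum_norm_sq_hermMatrix (x : EuclideanSpace ℝ (Fin k × Fin k)) :
    ∑ i, ∑ j, ‖hermMatrix x i j‖ ^ 2 = ‖x‖ ^ 2 := by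
  rw [EuclideanSpace.norm_sq_eq, Fintype.sum_prod_type]
  simp only [norm_sq_hermMatrix, ← Finset.sum_div, Finset.sum_add_distrib]
  rw [Finset.sum_comm (f := fun i j => x (j, i) ^ 2)]
  simp [Real.norm_eq_abs]

lemma hermMatrix_sub (x y : EuclideanSpace ℝ (Fin k × Fin k)) :
    hermMatrix (x - y) = hermMatrix x - hermMatrix y := by
  ext i j
  simp only [hermMatrix_apply, Matrix.sub_apply, PiLp.sub_apply, Complex.ofReal_sub]
  split_ifs <;> ring

lemma hermMatrix_add (x y : EuclideanSpace ℝ (Fin k × Fin k)) :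
    hermMatrix (x + y) = hermMatrix x + hermMatrix y := by
  ext i j
  simp only [hermMatrix_apply, Matrix.add_apply, PiLp.add_apply, Complex.ofReal_add]
  split_ifs <;> ring

lemma hermMatrix_smul (c : ℝ) (x : EuclideanSpace ℝ (Fin k × Fin k)) :
    hermMatrix (c • x) = (c : ℂ) • hermMatrix x := by
  ext i j
  simp only [hermMatrix_apply, Matrix.smul_apply, PiLp.smul_apply, smul_eq_mul, Complex.ofReal_mul]
  split_ifs <;> ring

/-- The coordinates of the self-adjoint part of a matrix. -/
noncomputable def vecHerm (M : Matrix (Fin k) (Fin k) ℂ) : EuclideanSpace ℝ (Fin k × Fin k) :=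
  WithLp.toLp 2 fun p =>
    if p.1 = p.2 then (M p.1 p.1).re
    else if p.1 < p.2 then Real.sqrt 2 * ((M p.1 p.2).re + (M p.2 p.1).re) / 2
    else Real.sqrt 2 * ((M p.2 p.1).im - (M p.1 p.2).im) / 2

lemma hermMatrix_vecHerm (M : Matrix (Fin k) (Fin k) ℂ) (i j : Fin k) :
    hermMatrix (vecHerm M) i j = (M i j + (starRingEnd ℂ) (M j i)) / 2 := by
  have hs : (Real.sqrt 2 : ℂ) ≠ 0 :=
    Complex.ofReal_ne_zero.2 (Real.sqrt_pos.2 two_pos).ne'
  rw [hermMatrix_apply]
  rcases lt_trichotomy i j with h | h | h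
  · simp only [vecHerm, if_neg h.ne, if_neg h.ne', if_pos h, if_neg h.le.not_gt]
    push_cast
    apply Complex.ext <;> field_simp <;> simp <;> ring
  · subst h
    simp only [vecHerm, if_true]
    apply Complex.ext <;> simp <;> ring
  · simp only [vecHerm, if_neg h.ne, if_neg h.ne', if_pos h, if_neg h.le.not_gt]
    push_cast
    apply Complex.ext <;> field_simp <;> simp <;> ring

lemma hermMatrix_surjective {M : Matrix (Fin k) (Fin k) ℂ} (hM : M.conjTranspose = M) :
    hermMatrix (vecHerm M) = M := by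
  ext i j
  rw [hermMatrix_vecHerm]
  have : (starRingEnd ℂ) (M j i) = M i j := congrFun (congrFun hM i) j
  rw [this]; ring

lemma norm_sub_vecHerm_sq_le (x : EuclideanSpace ℝ (Fin k × Fin k)) (M : Matrix (Fin k) (Fin k) ℂ) :
    ‖x - vecHerm M‖ ^ 2 ≤ ∑ i, ∑ j, ‖hermMatrix x i j - M i j‖ ^ 2 := by
  rw [← sum_norm_sq_hermMatrix, hermMatrix_sub]
  have h : ∀ i j, ‖(hermMatrix x - hermMatrix (vecHerm M)) i j‖ ^ 2 ≤
      (‖hermMatrix x i j - M i j‖ ^ 2 + ‖hermMatrix x j i - M j i‖ ^ 2) / 2 := by
    intro i j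
    rw [Matrix.sub_apply, hermMatrix_vecHerm,
      show hermMatrix x i j - (M i j + (starRingEnd ℂ) (M j i)) / 2 =
        ((hermMatrix x i j - M i j) + (starRingEnd ℂ) (hermMatrix x j i - M j i)) / 2 by
        rw [map_sub, hermMatrix_conj]; ring,
      norm_div, Complex.norm_ofNat, div_pow]
    have h1 := norm_add_le (hermMatrix x i j - M i j)
      ((starRingEnd ℂ) (hermMatrix x j i - M j i))
    rw [RCLike.norm_conj] at h1
    have h2 := pow_le_pow_left₀ (norm_nonneg _) h1 2
    nlinarith [sq_nonneg (‖hermMatrix x i j - M i j‖ - ‖hermMatrix x j i - M j i‖)]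
  refine (Finset.sum_le_sum fun i _ => Finset.sum_le_sum fun j _ => h i j).trans (le_of_eq ?_)
  simp only [← Finset.sum_div, Finset.sum_add_distrib]
  rw [Finset.sum_comm (f := fun i j => ‖hermMatrix x j i - M j i‖ ^ 2)]
  ring

lemma sum_norm_sq_eq_trace (M : Matrix (Fin k) (Fin k) ℂ) :
    ∑ i, ∑ j, ‖M i j‖ ^ 2 = ((M.conjTranspose * M).trace).re := by
  rw [Finset.sum_comm]
  simp only [Matrix.trace, Matrix.diag, Matrix.mul_apply, Matrix.conjTranspose_apply,
    Complex.re_sum]
  refine Finset.sum_congr rfl fun j _ => Finset.sum_congr rfl fun i _ => ?_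
  rw [Complex.star_def, Complex.conj_mul']
  norm_cast

lemma continuous_hermMatrix :
    Continuous (hermMatrix : EuclideanSpace ℝ (Fin k × Fin k) → Matrix (Fin k) (Fin k) ℂ) := by
  refine continuous_matrix fun i j => ?_
  simp only [hermMatrix_apply]
  split_ifs <;> fun_prop

lemma continuous_vecHerm :
    Continuous (vecHerm : Matrix (Fin k) (Fin k) ℂ → EuclideanSpace ℝ (Fin k × Fin k)) := by
  refine (PiLp.continuous_toLp 2 _).comp (continuous_pi fun p => ?_)
  split_ifs <;> fun_prop

/-- Gaussian bound for the volume of a Euclidean ball. -/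
lemma volume_closedBall_le {ι : Type} [Fintype ι] [Nonempty ι] (c : EuclideanSpace ℝ ι) {r : ℝ}
    (hr : 0 < r) :
    volume (Metric.closedBall c r) ≤
      ENNReal.ofReal ((2 * Real.pi * Real.exp 1 * r ^ 2 / (Fintype.card ι : ℝ)) ^
        ((Fintype.card ι : ℝ) / 2)) := by
  set N : ℝ := (Fintype.card ι : ℝ)
  have hN : 0 < N := Nat.cast_pos.2 Fintype.card_pos
  set b : ℝ := N / (2 * r ^ 2)
  have hb : 0 < b := by positivity
  have hint : Integrable (fun x : EuclideanSpace ℝ ι => Real.exp (-b * ‖x‖ ^ 2)) := by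
    have := GaussianFourier.integrable_cexp_neg_mul_sq_norm_add (V := EuclideanSpace ℝ ι)
      (b := (b : ℂ)) (by simpa using hb) 0 0
    have h2 := this.norm
    refine h2.congr (Filter.Eventually.of_forall fun x => ?_)
    simp [Complex.norm_exp, ← Complex.ofReal_pow]
  have key : volume (Metric.closedBall (0 : EuclideanSpace ℝ ι) r) ≤
      ENNReal.ofReal (Real.exp (b * r ^ 2) * ∫ x : EuclideanSpace ℝ ι, Real.exp (-b * ‖x‖ ^ 2)) := by
    rw [← integral_const_mul,
      ofReal_integral_eq_lintegral_ofReal (hint.const_mul _)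
        (Filter.Eventually.of_forall fun x => by positivity),
      ← lintegral_indicator_one measurableSet_closedBall]
    refine lintegral_mono fun x => ?_
    by_cases hx : x ∈ Metric.closedBall (0 : EuclideanSpace ℝ ι) r
    · rw [Set.indicator_of_mem hx, Pi.one_apply, ← Real.exp_add, ENNReal.one_le_ofReal]
      rw [Metric.mem_closedBall, dist_zero_right] at hx
      refine Real.one_le_exp ?_
      have := mul_le_mul_of_nonneg_left (pow_le_pow_left₀ (norm_nonneg x) hx 2) hb.le
      linarith
    · rw [Set.indicator_of_notMem hx]; exact bot_le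
  rw [EuclideanSpace.volume_closedBall]
  rw [EuclideanSpace.volume_closedBall] at key
  refine key.trans (le_of_eq (congrArg _ ?_))
  rw [GaussianFourier.integral_rexp_neg_mul_sq_norm hb, finrank_euclideanSpace]
  have e1 : b * r ^ 2 = N / 2 := by simp only [b]; field_simp
  rw [e1, show Real.exp (N / 2) = Real.exp 1 ^ (N / 2) by
      rw [← Real.exp_mul, one_mul],
    ← Real.mul_rpow (Real.exp_pos 1).le (by positivity)]
  congr 1
  simp only [b]
  field_simp

end Vale.Agent.P087
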