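import Mathlib

/-! Definitions for Voiculescu's two free entropies. -/

open scoped InnerProductSpace ENNReal
open MeasureTheory Filter

namespace Vale.Agent.P087

variable {ι : Type} {H : Type} [NormedAddCommGroup H] [InnerProductSpace ℂ H]

/-- Evaluation of a noncommutative monomial, given as a list of indices. -/
def wordEval (X : ι → H →L[ℂ] H) (w : List ι) : H →L[ℂ] H := (w.map X).prod

/-- The vector state of `Ω`. -/
noncomputable def vecState (Ω : H) (T : H →L[ℂ] H) : ℂ := inner ℂ Ω (T Ω)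

/-- The vector state of `Ω` is a faithful tracial state on `M`
(it is automatically normal, being a vector state). -/
def IsFaithfulTracialState [CompleteSpace H] (M : VonNeumannAlgebra H) (Ω : H) : Prop :=
  ‖Ω‖ = 1 ∧
  (∀ A ∈ M, ∀ B ∈ M, vecState Ω (A * B) = vecState Ω (B * A)) ∧
  (∀ A ∈ M, vecState Ω (star A * A) = 0 → A = 0)

/-- The algebras entering freeness: the one generated by the whole tuple `X` (index `none`) and
the one generated by each single `S j` (index `some j`). -/
def freenessAlgebra (X S : ι → H →L[ℂ] H) : Option ι → Subalgebra ℂ (H →L[ℂ] H)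
  | none => Algebra.adjoin ℂ (Set.range X)
  | some j => Algebra.adjoin ℂ {S j}

/-- `S` is a free family of semicircular elements of variance `1`, free from the tuple `X`:
each `S j` has the moments of the semicircle law (Catalan numbers) and alternating products
of centred elements of the algebras `alg(X)`, `alg(S j)` have trace zero. -/
def IsFreeSemicircularFamily (Ω : H) (X S : ι → H →L[ℂ] H) : Prop :=
  (∀ j, ∀ p : ℕ, vecState Ω (S j ^ p) = if Even p then (catalan (p / 2) : ℂ) else 0) ∧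
  ∀ l : List (Option ι × (H →L[ℂ] H)), l ≠ [] →
    (∀ a ∈ l, a.2 ∈ freenessAlgebra X S a.1 ∧ vecState Ω a.2 = 0) →
    l.IsChain (fun a b => a.1 ≠ b.1) → vecState Ω (l.map Prod.snd).prod = 0

/-! ### Microstates free entropy -/

/-- The self-adjoint matrix with real coordinates `x`; this is a linear isometry from
Euclidean space of dimension `k ^ 2` onto the self-adjoint matrices with inner product
`Tr (A B)`. -/
noncomputable def hermMatrix {k : ℕ} (x : EuclideanSpace ℝ (Fin k × Fin k)) :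
    Matrix (Fin k) (Fin k) ℂ :=
  Matrix.of fun i j =>
    if i = j then (x (i, i) : ℂ)
    else if i < j then ((x (i, j) : ℂ) + Complex.I * (x (j, i) : ℂ)) / (Real.sqrt 2 : ℂ)
    else ((x (j, i) : ℂ) - Complex.I * (x (i, j) : ℂ)) / (Real.sqrt 2 : ℂ)

/-- The set of matricial microstates `Γ_R(X; m, k, δ)`, in the coordinates of `hermMatrix`. -/
noncomputable def microstates (Ω : H) (X : ι → H →L[ℂ] H) (R : ℝ) (m : ℕ) (δ : ℝ) (k : ℕ) :
    Set (ι → EuclideanSpace ℝ (Fin k × Fin k)) :=
  {A | (∀ j, ‖Matrix.toEuclideanCLM (𝕜 := ℂ) (hermMatrix (A j))‖ ≤ R) ∧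
    ∀ w : List ι, 1 ≤ w.length → w.length ≤ m →
      ‖((w.map fun j => hermMatrix (A j)).prod).trace / (k : ℂ) -
        vecState Ω (wordEval X w)‖ < δ}

/-- The normalised logarithmic volume of a microstate set. -/
noncomputable def microstatesLogVol [Fintype ι] (Ω : H) (X : ι → H →L[ℂ] H) (R : ℝ) (m : ℕ)
    (δ : ℝ) (k : ℕ) : EReal :=
  ((((k : ℝ) ^ 2)⁻¹ : ℝ) : EReal) * ENNReal.log (volume (microstates Ω X R m δ k)) +
    (((Fintype.card ι : ℝ) / 2 * Real.log k : ℝ) : EReal)

/-- Voiculescu's microstates free entropy. -/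
noncomputable def chi [Fintype ι] (Ω : H) (X : ι → H →L[ℂ] H) : EReal :=
  ⨆ (R : ℝ) (_ : 0 < R), ⨅ (m : ℕ), ⨅ (δ : ℝ) (_ : 0 < δ),
    Filter.limsup (fun k => microstatesLogVol Ω X R m δ k) atTop

/-! ### Nonmicrostates free entropy -/

/-- `(τ ⊗ τ)(∂_j w)` for the monomial `w`. -/
noncomputable def freeDiffQuot [DecidableEq ι] (Ω : H) (X : ι → H →L[ℂ] H) (j : ι)
    (w : List ι) : ℂ :=
  ∑ l : Fin w.length, if w.get l = j then
    vecState Ω (wordEval X (w.take l)) * vecState Ω (wordEval X (w.drop (l + 1))) else 0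

/-- `L²(W*(X), τ)`, realised in `H` as the closure of the polynomials in `X` applied to `Ω`. -/
noncomputable def l2Space (Ω : H) (X : ι → H →L[ℂ] H) : Submodule ℂ H :=
  (Submodule.span ℂ (Set.range fun w => wordEval X w Ω)).topologicalClosure

/-- `ξ` is the `j`-th conjugate variable of `X`. -/
def IsConjugateVariable [DecidableEq ι] (Ω : H) (X : ι → H →L[ℂ] H) (j : ι) (ξ : H) : Prop :=
  ξ ∈ l2Space Ω X ∧ ∀ w : List ι, inner ℂ ξ (wordEval X w Ω) = freeDiffQuot Ω X j w

/-- The free Fisher information, `⊤` when some conjugate variable does not exist. -/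
noncomputable def freeFisher [Fintype ι] [DecidableEq ι] (Ω : H) (X : ι → H →L[ℂ] H) : ℝ≥0∞ :=
  ∑ j, ⨅ (ξ : H) (_ : IsConjugateVariable Ω X j ξ), ENNReal.ofReal (‖ξ‖ ^ 2)

/-- The tuple `X + √s S`. -/
noncomputable def heatFlow (X S : ι → H →L[ℂ] H) (s : ℝ) : ι → H →L[ℂ] H :=
  fun j => X j + (Real.sqrt s : ℂ) • S j

/-- The nonmicrostates free entropy
`χ*(X) = 1/2 ∫₀^∞ (n/(1+s) - Φ*(X + √s S)) ds + n/2 log (2πe)`;
the integral is (integral of the positive part) minus (integral of the negative part). -/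
noncomputable def chiStar [Fintype ι] [DecidableEq ι] (Ω : H) (X S : ι → H →L[ℂ] H) : EReal :=
  ((1 / 2 : ℝ) : EReal) *
    (((∫⁻ s in Set.Ioi (0 : ℝ),
        (ENNReal.ofReal ((Fintype.card ι : ℝ) / (1 + s)) - freeFisher Ω (heatFlow X S s))) :
        ℝ≥0∞) -
      ((∫⁻ s in Set.Ioi (0 : ℝ),
        (freeFisher Ω (heatFlow X S s) - ENNReal.ofReal ((Fintype.card ι : ℝ) / (1 + s)))) :
        ℝ≥0∞) : EReal) +
    (((Fintype.card ι : ℝ) / 2 * Real.log (2 * Real.pi * Real.exp 1) : ℝ) : EReal)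

end Vale.Agent.P087
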