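import Vale.Agent.P087.Defs
import Vale.Agent.P087.Appell

/-! Dual vectors: correlation of an element of the signal algebra with polynomials in signal plus
noise is bounded by the `2`-norm of the polynomial, when the signal is weak. -/

open scoped InnerProductSpace

namespace Vale.Agent.P087

variable {ι : Type} [Fintype ι] [DecidableEq ι]
  {H : Type} [NormedAddCommGroup H] [InnerProductSpace ℂ H] [CompleteSpace H]

/-- The rank one projection on `Ω`. -/
noncomputable def vacProj (Ω : H) : H →L[ℂ] H := (innerSL ℂ Ω).smulRight Ω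

omit [CompleteSpace H] in
@[simp] lemma vacProj_apply (Ω v : H) : vacProj Ω v = inner ℂ Ω v • Ω := rfl

/-- The Hilbert-Schmidt norm of `∑ |y a⟩⟨y a|`. -/
noncomputable def gauge {α : Type} [Fintype α] (y : α → H) : ℝ :=
  Real.sqrt (∑ a, ∑ b, ‖inner ℂ (y a) (y b)‖ ^ 2)

/-- The hypotheses of the dual vector lemma. -/
structure NoiseData (Ω : H) (ξ R r : ι → H →L[ℂ] H) (S : Subalgebra ℂ (H →L[ℂ] H)) (β : ℝ) :
    Prop where
  norm_vac : ‖Ω‖ = 1
  signal_mem : ∀ i, ξ i ∈ S
  signal_sa : ∀ i, star (ξ i) = ξ i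
  noise_sa : ∀ i, star (R i) = R i
  ann_vac : ∀ i, star (r i) Ω = 0
  comm_signal : ∀ i, ∀ W ∈ S, star (r i) * W = W * star (r i)
  comm_noise : ∀ i j, star (r i) * R j - R j * star (r i) = if i = j then vacProj Ω else 0
  noise_vac : ∀ i, R i Ω = r i Ω
  orth : ∀ i j, star (r i) * r j = if i = j then 1 else 0
  tracial : ∀ W ∈ S, ∀ V ∈ Algebra.adjoin ℂ ((S : Set (H →L[ℂ] H)) ∪ Set.range R),
    vecState Ω (W * V) = vecState Ω (V * W)
  beta_nonneg : 0 ≤ β
  beta_le : β ≤ 1 / 32
  gauge_le : ∀ (α : Type) [Fintype α] (y : α → H),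
    gauge (fun p : α × ι => ξ p.2 (y p.1)) ≤ β ^ 2 * gauge y

omit [Fintype ι] [DecidableEq ι] [CompleteSpace H] in
lemma vecState_add (Ω : H) (A B : H →L[ℂ] H) :
    vecState Ω (A + B) = vecState Ω A + vecState Ω B := by simp [vecState]

omit [Fintype ι] [DecidableEq ι] [CompleteSpace H] in
lemma vecState_smul (Ω : H) (c : ℂ) (A : H →L[ℂ] H) :
    vecState Ω (c • A) = c * vecState Ω A := by simp [vecState, inner_smul_right]

/-- The state as a linear map. -/
noncomputable def vecStateLin (Ω : H) : (H →L[ℂ] H) →ₗ[ℂ] ℂ where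
  toFun := vecState Ω
  map_add' := vecState_add Ω
  map_smul' c A := by simpa using vecState_smul Ω c A

omit [Fintype ι] [DecidableEq ι] [CompleteSpace H] in
lemma vecState_sumSplit (Ω : H) (v : List ι) (f : List ι → ι → List ι → H →L[ℂ] H) :
    vecState Ω (sumSplit v f) = sumSplit v (fun g i r => vecState Ω (f g i r)) :=
  map_sumSplit (vecStateLin Ω) v f

omit [Fintype ι] [DecidableEq ι] [CompleteSpace H] in
lemma vecState_one {Ω : H} (h : ‖Ω‖ = 1) : vecState Ω 1 = 1 := by
  simp [vecState, inner_self_eq_norm_sq_to_K, h]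

lemma sumSplit_mem {A : Type*} [AddCommMonoid A] {σ : Type*} [SetLike σ A]
    [AddSubmonoidClass σ A] (s : σ) : ∀ (v : List ι) (f : List ι → ι → List ι → A),
    (∀ g i r, g ++ i :: r = v → f g i r ∈ s) → sumSplit v f ∈ s
  | [], _, _ => zero_mem s
  | a :: t, f, h => by
    rw [sumSplit_cons]
    exact add_mem (h [] a t rfl) (sumSplit_mem s t _ fun g i r hg => h (a :: g) i r (by simp [hg]))

section bounds

omit [Fintype ι] [DecidableEq ι] [CompleteSpace H] in
lemma sum_norm_inner_sq_le_gauge {α : Type} [Fintype α] {Ω : H} (hΩ : ‖Ω‖ = 1) (y : α → H) :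
    ∑ a, ‖inner ℂ Ω (y a)‖ ^ 2 ≤ gauge y := by
  set c : α → ℂ := fun a => inner ℂ Ω (y a) with hc
  set S : ℝ := ∑ a, ‖c a‖ ^ 2 with hS
  set z : H := ∑ a, (starRingEnd ℂ) (c a) • y a with hz
  have hS0 : 0 ≤ S := Finset.sum_nonneg fun a _ => by positivity
  have h1 : inner ℂ Ω z = (S : ℂ) := by
    rw [hz, inner_sum, hS, Complex.ofReal_sum]
    refine Finset.sum_congr rfl fun a _ => ?_
    rw [inner_smul_right]
    show (starRingEnd ℂ) (c a) * c a = _
    rw [Complex.conj_mul', Complex.ofReal_pow]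
  have h2 : S ≤ ‖z‖ := by
    have := norm_inner_le_norm (𝕜 := ℂ) Ω z
    rwa [h1, hΩ, one_mul, Complex.norm_real, Real.norm_of_nonneg hS0] at this
  have h3 : ‖z‖ ^ 2 ≤ S * gauge y := by
    calc ‖z‖ ^ 2 = RCLike.re (inner ℂ z z) := (inner_self_eq_norm_sq (𝕜 := ℂ) z).symm
      _ ≤ ‖inner ℂ z z‖ := RCLike.re_le_norm _
      _ ≤ ∑ a, ∑ b, ‖c a‖ * ‖c b‖ * ‖inner ℂ (y a) (y b)‖ := by
        rw [hz, sum_inner]
        refine (norm_sum_le _ _).trans (Finset.sum_le_sum fun a _ => ?_)
        rw [inner_sum]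
        refine (norm_sum_le _ _).trans (Finset.sum_le_sum fun b _ => ?_)
        rw [inner_smul_left, inner_smul_right, norm_mul, norm_mul, ← mul_assoc]
        simp
      _ ≤ Real.sqrt (∑ p : α × α, (‖c p.1‖ * ‖c p.2‖) ^ 2) *
          Real.sqrt (∑ p : α × α, ‖inner ℂ (y p.1) (y p.2)‖ ^ 2) := by
        rw [← Fintype.sum_prod_type' (f := fun a b => ‖c a‖ * ‖c b‖ * ‖inner ℂ (y a) (y b)‖)]
        exact Real.sum_mul_le_sqrt_mul_sqrt _ _ _
      _ = S * gauge y := by
        congr 1
        · rw [show (∑ p : α × α, (‖c p.1‖ * ‖c p.2‖) ^ 2) = S * S by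
            rw [hS, Finset.sum_mul_sum, Fintype.sum_prod_type]
            simp_rw [mul_pow]]
          rw [Real.sqrt_mul_self hS0]
        · rw [gauge, Fintype.sum_prod_type]
  have h4 : S * S ≤ S * gauge y := le_trans (by nlinarith [norm_nonneg z]) h3
  rcases eq_or_lt_of_le hS0 with h | h
  · show S ≤ _
    rw [← h]; exact Real.sqrt_nonneg _
  · exact le_of_mul_le_mul_left h4 h

lemma sqrt_sum_norm_sq_sum_le {κ : Type*} (s : Finset κ) {m : Type*} (t : Finset m)
    (f : κ → m → ℂ) :
    Real.sqrt (∑ x ∈ t, ‖∑ a ∈ s, f a x‖ ^ 2) ≤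
      ∑ a ∈ s, Real.sqrt (∑ x ∈ t, ‖f a x‖ ^ 2) := by
  classical
  let E : κ → EuclideanSpace ℂ t := fun a => WithLp.toLp 2 (fun x : t => f a x)
  have h := norm_sum_le s E
  have h1 : ∀ a, ‖E a‖ = Real.sqrt (∑ x ∈ t, ‖f a x‖ ^ 2) := by
    intro a
    rw [EuclideanSpace.norm_eq, ← Finset.sum_coe_sort t (fun x => ‖f a x‖ ^ 2)]
  have h2 : ‖∑ a ∈ s, E a‖ = Real.sqrt (∑ x ∈ t, ‖∑ a ∈ s, f a x‖ ^ 2) := by
    rw [EuclideanSpace.norm_eq, ← Finset.sum_coe_sort t (fun x => ‖∑ a ∈ s, f a x‖ ^ 2)]
    congr 1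
    refine Finset.sum_congr rfl fun x _ => ?_
    simp [E]
  rw [h2, Finset.sum_congr rfl fun a _ => h1 a] at h
  exact h

end bounds

namespace NoiseData

variable {Ω : H} {ξ R r : ι → H →L[ℂ] H} {S : Subalgebra ℂ (H →L[ℂ] H)} {β : ℝ}

/-- The coefficient `G`. -/
noncomputable def G (Ω : H) (ξ : ι → H →L[ℂ] H) : List ι → ℂ := appellG (vecState Ω) ξ

/-- The Appell polynomial in the signal. -/
noncomputable def P (Ω : H) (ξ : ι → H →L[ℂ] H) : List ι → H →L[ℂ] H := appellP (vecState Ω) ξ

/-- The biorthogonal polynomial in signal plus noise. -/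
noncomputable def Pol (Ω : H) (ξ R : ι → H →L[ℂ] H) : List ι → H →L[ℂ] H :=
  polyC (shiftedG (G Ω ξ)) (fun i => ξ i + R i)

omit [Fintype ι] [CompleteSpace H] in
lemma shiftedG_nil' : shiftedG (G Ω ξ) [] = 1 := by
  rw [shiftedG_nil]; exact appellG_nil _ _

omit [Fintype ι] [CompleteSpace H] in
lemma Pol_nil : Pol Ω ξ R [] = 1 := by rw [Pol, polyC_nil, shiftedG_nil', one_smul]

lemma P_mem (hD : NoiseData Ω ξ R r S β) : ∀ (n : ℕ) (v : List ι), v.length ≤ n → P Ω ξ v ∈ S := by
  intro n
  induction n with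
  | zero =>
    intro v hv
    have hv : v = [] := List.length_eq_zero_iff.1 (Nat.le_zero.1 hv)
    subst hv
    rw [P, appellP_nil]; exact one_mem S
  | succ n ih =>
    intro v hv
    rw [P, appellP_eq]
    refine add_mem (S.smul_mem (one_mem S) _) (sumSplit_mem S v _ fun g i s h => ?_)
    have hl := congrArg List.length h
    simp only [List.length_append, List.length_cons] at hl
    exact S.smul_mem (mul_mem (hD.signal_mem i) (ih s (by omega))) _

lemma Pol_mem : ∀ (n : ℕ) (v : List ι), v.length ≤ n → NoiseData Ω ξ R r S β →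
    Pol Ω ξ R v ∈ Algebra.adjoin ℂ ((S : Set (H →L[ℂ] H)) ∪ Set.range R) := by
  intro n
  induction n with
  | zero =>
    intro v hv _
    have hv : v = [] := List.length_eq_zero_iff.1 (Nat.le_zero.1 hv)
    subst hv
    rw [Pol_nil]; exact one_mem _
  | succ n ih =>
    intro v hv hD
    rw [Pol, polyC_eq]
    refine add_mem (Subalgebra.smul_mem _ (one_mem _) _) (sumSplit_mem _ v _ fun g i s h => ?_)
    have hl := congrArg List.length h
    simp only [List.length_append, List.length_cons] at hl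
    refine Subalgebra.smul_mem _ (mul_mem (add_mem ?_ ?_) (ih s (by omega) hD)) _
    · exact Algebra.subset_adjoin (Or.inl (hD.signal_mem i))
    · exact Algebra.subset_adjoin (Or.inr ⟨i, rfl⟩)

lemma comm_ann (hD : NoiseData Ω ξ R r S β) (i j : ι) :
    star (r j) * (ξ i + R i) - (ξ i + R i) * star (r j) = if j = i then vacProj Ω else 0 := by
  rw [← hD.comm_noise j i, mul_add, add_mul, hD.comm_signal j _ (hD.signal_mem i)]
  abel

lemma comm_Pol (hD : NoiseData Ω ξ R r S β) (j : ι) (v : List ι) :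
    star (r j) * Pol Ω ξ R v - Pol Ω ξ R v * star (r j) =
      sumSplit v (fun p k s => if k = j then Pol Ω ξ R p * (vacProj Ω * Pol Ω ξ R s) else 0) :=
  comm_polyC (shiftedG (G Ω ξ)) shiftedG_nil' _ _ _ j (fun i => comm_ann hD i j) v.length v le_rfl

omit [Fintype ι] [DecidableEq ι] [CompleteSpace H] in
lemma mul_vacProj_mul (A B : H →L[ℂ] H) (v : H) :
    (A * (vacProj Ω * B)) v = inner ℂ Ω (B v) • A Ω := by
  show A (inner ℂ Ω (B v) • Ω) = _
  rw [map_smul]

lemma P_state (hD : NoiseData Ω ξ R r S β) (v : List ι) :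
    vecState Ω (P Ω ξ v) = if v = [] then 1 else 0 := by
  rw [P, appellP_eq, vecState_add, vecState_smul, vecState_one hD.norm_vac, mul_one,
    vecState_sumSplit]
  simp only [vecState_smul]
  rw [appellG_eq]
  ring

/-- The key identity: pairing the shifted polynomial against the signal algebra. -/
lemma state_mul_Pol (hD : NoiseData Ω ξ R r S β) :
    ∀ (n : ℕ) (v : List ι), v.length ≤ n → ∀ W ∈ S,
      vecState Ω (W * Pol Ω ξ R v) = vecState Ω (W * P Ω ξ v) := by
  intro n
  induction n with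
  | zero =>
    intro v hv W _
    have hv : v = [] := List.length_eq_zero_iff.1 (Nat.le_zero.1 hv)
    subst hv
    rw [Pol_nil, P, appellP_nil]
  | succ n ih =>
    intro v hv W hW
    have hnoise : ∀ (i : ι) (s : List ι), s.length ≤ n →
        vecState Ω (W * (R i * Pol Ω ξ R s)) =
          (match s with
            | [] => 0
            | k :: s' => if k = i then vecState Ω (W * P Ω ξ s') else 0) := by
      intro i s hs
      have hmem : R i * Pol Ω ξ R s ∈ Algebra.adjoin ℂ ((S : Set (H →L[ℂ] H)) ∪ Set.range R) :=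
        mul_mem (Algebra.subset_adjoin (Or.inr ⟨i, rfl⟩)) (Pol_mem _ s le_rfl hD)
      rw [hD.tracial W hW _ hmem]
      have e1 : vecState Ω (R i * Pol Ω ξ R s * W) =
          inner ℂ Ω ((star (r i) * Pol Ω ξ R s) (W Ω)) := by
        show inner ℂ Ω (R i (Pol Ω ξ R s (W Ω))) = inner ℂ Ω (star (r i) (Pol Ω ξ R s (W Ω)))
        conv_lhs => rw [← hD.noise_sa i]
        rw [ContinuousLinearMap.star_eq_adjoint, ContinuousLinearMap.adjoint_inner_right,
          hD.noise_vac i, ← ContinuousLinearMap.adjoint_inner_right]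
        rfl
      have hW0 : star (r i) (W Ω) = 0 := by
        have := DFunLike.congr_fun (hD.comm_signal i W hW) Ω
        calc star (r i) (W Ω) = W (star (r i) Ω) := this
          _ = 0 := by rw [hD.ann_vac i, map_zero]
      rw [e1, sub_eq_iff_eq_add.1 (comm_Pol hD i s), add_apply]
      have e2 : (Pol Ω ξ R s * star (r i)) (W Ω) = 0 := by
        show Pol Ω ξ R s (star (r i) (W Ω)) = 0
        rw [hW0, map_zero]
      rw [e2, add_zero]
      have e3 : ∀ (A : H →L[ℂ] H), inner ℂ Ω (A (W Ω)) = vecState Ω (A * W) := fun A => rfl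
      rw [e3, sumSplit_mul, vecState_sumSplit]
      have e4 : sumSplit s (fun p k q => vecState Ω
          ((if k = i then Pol Ω ξ R p * (vacProj Ω * Pol Ω ξ R q) else 0) * W)) =
          sumSplit s (fun p k q => if k = i then
            (if p = [] then (1 : ℂ) else 0) * vecState Ω (W * P Ω ξ q) else 0) := by
        refine sumSplit_congr fun p k q h => ?_
        have hl := congrArg List.length h
        simp only [List.length_append, List.length_cons] at hl
        by_cases hk : k = i
        · rw [if_pos hk, if_pos hk]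
          show inner ℂ Ω ((Pol Ω ξ R p * (vacProj Ω * Pol Ω ξ R q)) (W Ω)) = _
          rw [mul_vacProj_mul, inner_smul_right]
          have hp : inner ℂ Ω (Pol Ω ξ R p Ω) = if p = [] then (1 : ℂ) else 0 := by
            have := ih p (by omega) 1 (one_mem S)
            rw [one_mul, one_mul, P_state hD] at this
            exact this
          rw [hp, e3, ← hD.tracial W hW _ (Pol_mem _ q le_rfl hD), ih q (by omega) W hW]
          ring
        · rw [if_neg hk, if_neg hk, zero_mul]
          simp [vecState]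
      rw [e4]
      cases s with
      | nil => rfl
      | cons k s' =>
        rw [sumSplit_cons]
        have : sumSplit s' (fun g j q => if j = i then
            (if k :: g = [] then (1 : ℂ) else 0) * vecState Ω (W * P Ω ξ q) else 0) = 0 := by
          rw [sumSplit_congr (f' := fun _ _ _ => (0 : ℂ)) (fun g j q _ => by simp), sumSplit_zero]
        rw [this, add_zero]
        simp
    have hP : ∀ u : List ι, vecState Ω (W * P Ω ξ u) = G Ω ξ u * vecState Ω W +
        sumSplit u (fun g i s => G Ω ξ g * vecState Ω (W * (ξ i * P Ω ξ s))) := by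
      intro u
      conv_lhs => rw [P, appellP_eq]
      rw [mul_add, mul_smul_comm, mul_one, mul_sumSplit, vecState_add, vecState_smul,
        vecState_sumSplit]
      congr 1
      refine sumSplit_congr fun g i s _ => ?_
      rw [mul_smul_comm, vecState_smul]
      rfl
    conv_lhs => rw [Pol, polyC_eq]
    rw [mul_add, mul_smul_comm, mul_one, mul_sumSplit, vecState_add, vecState_smul,
      vecState_sumSplit]
    set C := shiftedG (G Ω ξ) with hC
    have e5 : sumSplit v (fun g i s => vecState Ω (W * (C g • ((ξ i + R i) *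
        polyC C (fun i => ξ i + R i) s)))) =
        sumSplit v (fun g i s => C g * vecState Ω (W * (ξ i * P Ω ξ s))) +
        sumPair v (fun g i s => C g * (G Ω ξ s * vecState Ω W) +
          sumSplit s (fun h j q => C g * G Ω ξ h * vecState Ω (W * (ξ j * P Ω ξ q)))) := by
      unfold sumPair
      rw [← sumSplit_add]
      refine sumSplit_congr fun g i s h => ?_
      have hl := congrArg List.length h
      simp only [List.length_append, List.length_cons] at hl
      show vecState Ω (W * (C g • ((ξ i + R i) * Pol Ω ξ R s))) = _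
      rw [mul_smul_comm, vecState_smul, add_mul, mul_add, vecState_add,
        hnoise i s (by omega)]
      have : vecState Ω (W * (ξ i * Pol Ω ξ R s)) = vecState Ω (W * (ξ i * P Ω ξ s)) := by
        rw [← mul_assoc, ← mul_assoc]
        exact ih s (by omega) _ (mul_mem hW (hD.signal_mem i))
      rw [this, mul_add]
      congr 1
      cases s with
      | nil => simp
      | cons k s' =>
        by_cases hk : k = i
        · simp only [if_pos hk]
          rw [hP s', mul_add, mul_sumSplit]
          congr 1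
          exact sumSplit_congr fun h' j q _ => by ring
        · simp only [if_neg hk, mul_zero]
    rw [e5, hP v]
    have e6 : sumPair v (fun g i s => C g * (G Ω ξ s * vecState Ω W) +
          sumSplit s (fun h j q => C g * G Ω ξ h * vecState Ω (W * (ξ j * P Ω ξ q)))) =
        sumPair v (fun g _ s => C g * G Ω ξ s) * vecState Ω W +
        sumSplit v (fun p j q => sumPair p (fun g _ h => C g * G Ω ξ h) *
          vecState Ω (W * (ξ j * P Ω ξ q))) := by
      have hadd : ∀ (u : List ι) (f f' : List ι → ι → List ι → ℂ),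
          sumPair u (fun g i s => f g i s + f' g i s) = sumPair u f + sumPair u f' := by
        intro u f f'
        unfold sumPair
        rw [← sumSplit_add]
        refine sumSplit_congr fun g i s _ => ?_
        cases s with
        | nil => simp
        | cons k s' => by_cases hk : k = i <;> simp [hk]
      have hmul : ∀ (u : List ι) (f : List ι → ι → List ι → ℂ) (c : ℂ),
          sumPair u f * c = sumPair u (fun g i s => f g i s * c) := by
        intro u f c
        unfold sumPair
        rw [sumSplit_mul]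
        refine sumSplit_congr fun g i s _ => ?_
        cases s with
        | nil => simp
        | cons k s' => by_cases hk : k = i <;> simp [hk]
      rw [hadd, sumPair_sumSplit, hmul]
      congr 1
      · exact sumPair_congr fun g i s _ => by ring
      · exact sumSplit_congr fun p j q _ => by rw [hmul]
    rw [e6]
    conv_rhs => rw [shiftedG_eq (G Ω ξ) v]
    rw [sumSplit_congr (f := fun g i s => G Ω ξ g * vecState Ω (W * (ξ i * P Ω ξ s)))
      (f' := fun g i s => C g * vecState Ω (W * (ξ i * P Ω ξ s)) +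
        sumPair g (fun a _ b => C a * G Ω ξ b) * vecState Ω (W * (ξ i * P Ω ξ s)))
      (fun g i s _ => by rw [← add_mul, ← shiftedG_eq]), sumSplit_add]
    rw [← hC]
    ring

lemma Pol_state (hD : NoiseData Ω ξ R r S β) (v : List ι) :
    inner ℂ Ω (Pol Ω ξ R v Ω) = if v = [] then (1 : ℂ) else 0 := by
  have := state_mul_Pol hD v.length v le_rfl 1 (one_mem S)
  rw [one_mul, one_mul, P_state hD] at this
  exact this

/-- `fvR [jₚ, …, j₁] = r jₚ … r j₁ Ω`. -/
noncomputable def fvR (Ω : H) (r : ι → H →L[ℂ] H) : List ι → H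
  | [] => Ω
  | j :: u => r j (fvR Ω r u)

lemma orthonormal_fvR (hD : NoiseData Ω ξ R r S β) : Orthonormal ℂ (fvR Ω r) := by
  rw [orthonormal_iff_ite]
  intro u
  induction u with
  | nil =>
    intro v
    cases v with
    | nil => simp [fvR, inner_self_eq_norm_sq_to_K, hD.norm_vac]
    | cons j v =>
      rw [fvR, fvR, ← ContinuousLinearMap.adjoint_inner_left, ← ContinuousLinearMap.star_eq_adjoint,
        hD.ann_vac, inner_zero_left]
      simp
  | cons i u ih =>
    intro v
    cases v with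
    | nil =>
      rw [fvR, fvR, ← ContinuousLinearMap.adjoint_inner_right,
        ← ContinuousLinearMap.star_eq_adjoint, hD.ann_vac, inner_zero_right]
      simp
    | cons j v =>
      rw [fvR, fvR, ← ContinuousLinearMap.adjoint_inner_right,
        ← ContinuousLinearMap.star_eq_adjoint]
      have := DFunLike.congr_fun (hD.orth i j) (fvR Ω r v)
      rw [show star (r i) (r j (fvR Ω r v)) = (star (r i) * r j) (fvR Ω r v) from rfl,
        hD.orth i j]
      by_cases h : i = j
      · subst h; rw [if_pos rfl]; simp [ih v]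
      · simp [h]

lemma inner_fvR_Pol (hD : NoiseData Ω ξ R r S β) :
    ∀ (u v : List ι), inner ℂ (fvR Ω r u) (Pol Ω ξ R v Ω) =
      if v = u.reverse then (1 : ℂ) else 0 := by
  intro u
  induction u with
  | nil =>
    intro v
    rw [fvR, List.reverse_nil]
    convert Pol_state hD v
  | cons j u ih =>
    intro v
    rw [fvR, ← ContinuousLinearMap.adjoint_inner_right, ← ContinuousLinearMap.star_eq_adjoint]
    have h := DFunLike.congr_fun (comm_Pol hD j v) Ω
    have e1 : star (r j) (Pol Ω ξ R v Ω) =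
        sumSplit v (fun p k s => if k = j then Pol Ω ξ R p *
          (vacProj Ω * Pol Ω ξ R s) else 0) Ω := by
      rw [← h]
      show _ = star (r j) (Pol Ω ξ R v Ω) - Pol Ω ξ R v (star (r j) Ω)
      rw [hD.ann_vac, map_zero, sub_zero]
    rw [e1]
    have e2 : ∀ f : List ι → ι → List ι → H →L[ℂ] H,
        inner ℂ (fvR Ω r u) (sumSplit v f Ω) =
          sumSplit v (fun p k s => inner ℂ (fvR Ω r u) (f p k s Ω)) := fun f =>
      map_sumSplit ((innerSL ℂ (fvR Ω r u)).toLinearMap.comp
        (ContinuousLinearMap.apply ℂ H Ω).toLinearMap) v f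
    rw [e2]
    have e3 : sumSplit v (fun p k s => inner ℂ (fvR Ω r u)
        ((if k = j then Pol Ω ξ R p * (vacProj Ω * Pol Ω ξ R s) else 0) Ω)) =
        sumSplit v (fun p k s => if s.isEmpty then
          (if k = j then (if p = u.reverse then (1 : ℂ) else 0) else 0) else 0) := by
      refine sumSplit_congr fun p k s _ => ?_
      by_cases hk : k = j
      · rw [if_pos hk, mul_vacProj_mul, inner_smul_right, ih p, Pol_state hD s]
        cases s <;> simp [hk]
      · simp [hk]
    rw [e3, List.reverse_cons]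
    rcases List.eq_nil_or_concat' v with rfl | ⟨w, k, rfl⟩
    · simp
    · rw [sumSplit_last w k (fun p k => if k = j then (if p = u.reverse then (1 : ℂ) else 0)
        else 0)]
      by_cases hk : k = j <;> simp [hk, List.append_inj_left']

lemma sqrt_sum_words_sumSplit_le {κ : Type} [Fintype κ] (L : ℕ)
    (f : List ι → ι → List ι → κ → ℂ) :
    Real.sqrt (∑ p ∈ (Finset.univ : Finset κ) ×ˢ words ι (L + 1),
        ‖sumSplit p.2 (fun g i s => f g i s p.1)‖ ^ 2) ≤
      ∑ a ∈ Finset.range (L + 1), Real.sqrt (∑ k : κ, ∑ g ∈ words ι a, ∑ i : ι,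
        ∑ s ∈ words ι (L - a), ‖f g i s k‖ ^ 2) := by
  have h1 : ∀ p ∈ (Finset.univ : Finset κ) ×ˢ words ι (L + 1),
      ‖sumSplit p.2 (fun g i s => f g i s p.1)‖ ^ 2 =
      ‖∑ a ∈ Finset.range (L + 1), splitTerm a p.2 (fun g i s => f g i s p.1)‖ ^ 2 := by
    intro p hp
    rw [Finset.mem_product, mem_words] at hp
    rw [sumSplit_eq_sum, hp.2]
  rw [Finset.sum_congr rfl h1]
  refine (sqrt_sum_norm_sq_sum_le _ _ _).trans (le_of_eq (Finset.sum_congr rfl fun a ha => ?_))
  rw [Finset.mem_range] at ha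
  congr 1
  rw [Finset.sum_product]
  refine Finset.sum_congr rfl fun k _ => ?_
  have := sum_words_splitTerm (ι := ι) (fun z : ℂ => ‖z‖ ^ 2) a (L - a) (fun g i s => f g i s k)
  rw [show a + 1 + (L - a) = L + 1 by omega] at this
  exact this

/-- The majorant sequence. -/
noncomputable def majC (β : ℝ) (L : ℕ) : ℝ := (catalan L : ℝ) * (2 * β) ^ L

lemma majC_succ (β : ℝ) (L : ℕ) :
    majC β (L + 1) = 2 * (β * ∑ a ∈ Finset.range (L + 1), majC β a * majC β (L - a)) := by
  unfold majC
  rw [catalan_succ', Finset.Nat.sum_antidiagonal_eq_sum_range_succ_mk, Finset.mul_sum,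
    Finset.mul_sum, Nat.cast_sum, Finset.sum_mul]
  refine Finset.sum_congr rfl fun a ha => ?_
  rw [Finset.mem_range] at ha
  have : (2 * β) ^ (L + 1) = (2 * β) ^ a * (2 * β) ^ (L - a) * (2 * β) := by
    rw [← pow_add, ← pow_succ]; congr 1; omega
  push_cast
  rw [this]; ring

lemma majC_nonneg {β : ℝ} (hβ : 0 ≤ β) (L : ℕ) : 0 ≤ majC β L := by
  unfold majC; positivity

lemma catalan_le_four_pow (L : ℕ) : catalan L ≤ 4 ^ L := by
  rw [catalan_eq_centralBinom_div]
  refine (Nat.div_le_self _ _).trans ?_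
  rw [Nat.centralBinom_eq_two_mul_choose]
  calc (2 * L).choose L ≤ 2 ^ (2 * L) := Nat.choose_le_two_pow _ _
    _ = 4 ^ L := by rw [pow_mul]; norm_num

lemma majC_le {β : ℝ} (hβ : 0 ≤ β) (hβ' : β ≤ 1 / 32) (L : ℕ) : majC β L ≤ (1 / 4 : ℝ) ^ L := by
  unfold majC
  calc (catalan L : ℝ) * (2 * β) ^ L ≤ 4 ^ L * (2 * β) ^ L := by
        refine mul_le_mul_of_nonneg_right ?_ (by positivity)
        exact_mod_cast catalan_le_four_pow L
    _ = (8 * β) ^ L := by rw [← mul_pow]; ring_nf
    _ ≤ _ := by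
        refine pow_le_pow_left₀ (by positivity) ?_ L
        linarith

lemma inner_P (y : H) (v : List ι) :
    inner ℂ y (P Ω ξ v Ω) = G Ω ξ v * inner ℂ y Ω +
      sumSplit v (fun g i s => G Ω ξ g * inner ℂ y (ξ i (P Ω ξ s Ω))) := by
  conv_lhs => rw [P, appellP_eq]
  rw [add_apply, inner_add_right, smul_apply, inner_smul_right]
  congr 1
  have h := map_sumSplit ((innerSL ℂ y).toLinearMap.comp
    (ContinuousLinearMap.apply ℂ H Ω).toLinearMap) v
    (fun g i s => appellG (vecState Ω) ξ g • (ξ i * appellP (vecState Ω) ξ s))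
  refine h.trans (sumSplit_congr fun g i s _ => ?_)
  show inner ℂ y (appellG (vecState Ω) ξ g • ξ i (appellP (vecState Ω) ξ s Ω)) = _
  rw [inner_smul_right]
  rfl

/-- The inductive tensor-norm bound. -/
lemma bounds (hD : NoiseData Ω ξ R r S β) : ∀ L : ℕ,
    Real.sqrt (∑ v ∈ words ι L, ‖G Ω ξ v‖ ^ 2) ≤ majC β L ∧
    ∀ (α : Type) [Fintype α] (y : α → H),
      ∑ p ∈ (Finset.univ : Finset α) ×ˢ words ι L, ‖inner ℂ (y p.1) (P Ω ξ p.2 Ω)‖ ^ 2 ≤
        majC β L ^ 2 * gauge y := by
  intro L
  induction L using Nat.strong_induction_on with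
  | _ L ih =>
  have hsplit : ∀ L' < L, ∀ (α : Type) [Fintype α] (y : α → H),
      ∀ a ≤ L', Real.sqrt (∑ k : α, ∑ g ∈ words ι a, ∑ i : ι, ∑ s ∈ words ι (L' - a),
        ‖G Ω ξ g * inner ℂ (y k) (ξ i (P Ω ξ s Ω))‖ ^ 2) ≤
        majC β a * (majC β (L' - a) * (β * Real.sqrt (gauge y))) := by
    intro L' hL' α _ y a ha
    have hin : ∑ k : α, ∑ i : ι, ∑ s ∈ words ι (L' - a),
        ‖inner ℂ (y k) (ξ i (P Ω ξ s Ω))‖ ^ 2 ≤ majC β (L' - a) ^ 2 * (β ^ 2 * gauge y) := by
      have h1 := (ih (L' - a) (by omega)).2 (α × ι) (fun p => ξ p.2 (y p.1))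
      have h2 : ∀ (k : α) (i : ι) (s : List ι), inner ℂ (ξ i (y k)) (P Ω ξ s Ω) =
          inner ℂ (y k) (ξ i (P Ω ξ s Ω)) := by
        intro k i s
        conv_lhs => rw [← hD.signal_sa i, ContinuousLinearMap.star_eq_adjoint,
          ContinuousLinearMap.adjoint_inner_left]
      rw [Finset.sum_product, Fintype.sum_prod_type] at h1
      simp only [h2] at h1
      exact h1.trans (mul_le_mul_of_nonneg_left (hD.gauge_le α y) (sq_nonneg _))
    have hg : Real.sqrt (∑ g ∈ words ι a, ‖G Ω ξ g‖ ^ 2) ≤ majC β a := (ih a (by omega)).1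
    calc Real.sqrt (∑ k : α, ∑ g ∈ words ι a, ∑ i : ι, ∑ s ∈ words ι (L' - a),
        ‖G Ω ξ g * inner ℂ (y k) (ξ i (P Ω ξ s Ω))‖ ^ 2)
        = Real.sqrt ((∑ g ∈ words ι a, ‖G Ω ξ g‖ ^ 2) * ∑ k : α, ∑ i : ι,
            ∑ s ∈ words ι (L' - a), ‖inner ℂ (y k) (ξ i (P Ω ξ s Ω))‖ ^ 2) := by
          congr 1
          rw [Finset.sum_comm, Finset.sum_mul]
          refine Finset.sum_congr rfl fun g _ => ?_
          simp only [Finset.mul_sum, norm_mul, mul_pow]
      _ = Real.sqrt (∑ g ∈ words ι a, ‖G Ω ξ g‖ ^ 2) * Real.sqrt (∑ k : α, ∑ i : ι,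
            ∑ s ∈ words ι (L' - a), ‖inner ℂ (y k) (ξ i (P Ω ξ s Ω))‖ ^ 2) :=
          Real.sqrt_mul (Finset.sum_nonneg fun _ _ => sq_nonneg _) _
      _ ≤ majC β a * (majC β (L' - a) * (β * Real.sqrt (gauge y))) := by
          refine mul_le_mul hg ((Real.sqrt_le_sqrt hin).trans (le_of_eq ?_)) (Real.sqrt_nonneg _)
            (majC_nonneg hD.beta_nonneg a)
          rw [Real.sqrt_mul (sq_nonneg _), Real.sqrt_mul (sq_nonneg _),
            Real.sqrt_sq (majC_nonneg hD.beta_nonneg _), Real.sqrt_sq hD.beta_nonneg]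
  have hgΩ : gauge (fun _ : Unit => Ω) = 1 := by
    simp [gauge, inner_self_eq_norm_sq_to_K, hD.norm_vac]
  cases L with
  | zero =>
    have h0 : majC β 0 = 1 := by simp [majC]
    constructor
    · simp [words, h0, G, appellG_nil]
    · intro α _ y
      rw [h0, one_pow, one_mul, Finset.sum_product]
      refine le_trans (le_of_eq ?_) (sum_norm_inner_sq_le_gauge hD.norm_vac y)
      refine Finset.sum_congr rfl fun k _ => ?_
      simp [words, P, appellP_nil, norm_inner_symm Ω]
  | succ L =>
    set B := β * ∑ a ∈ Finset.range (L + 1), majC β a * majC β (L - a) with hB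
    have hB0 : 0 ≤ B := mul_nonneg hD.beta_nonneg (Finset.sum_nonneg fun a _ =>
      mul_nonneg (majC_nonneg hD.beta_nonneg a) (majC_nonneg hD.beta_nonneg _))
    have hpart : ∀ (α : Type) [Fintype α] (y : α → H),
        Real.sqrt (∑ p ∈ (Finset.univ : Finset α) ×ˢ words ι (L + 1),
          ‖sumSplit p.2 (fun g i s => G Ω ξ g * inner ℂ (y p.1) (ξ i (P Ω ξ s Ω)))‖ ^ 2) ≤
          B * Real.sqrt (gauge y) := by
      intro α _ y
      refine (sqrt_sum_words_sumSplit_le L
        (fun g i s k => G Ω ξ g * inner ℂ (y k) (ξ i (P Ω ξ s Ω)))).trans ?_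
      refine (Finset.sum_le_sum fun a ha => hsplit L (Nat.lt_succ_self L) α y a
        (by have := Finset.mem_range.1 ha; omega)).trans (le_of_eq ?_)
      rw [hB, Finset.mul_sum, Finset.sum_mul]
      exact Finset.sum_congr rfl fun a _ => by ring
    have hG1 : Real.sqrt (∑ v ∈ words ι (L + 1), ‖G Ω ξ v‖ ^ 2) ≤ B := by
      have h := hpart Unit (fun _ => Ω)
      rw [hgΩ, Real.sqrt_one, mul_one, Finset.sum_product] at h
      refine le_trans (le_of_eq ?_) h
      congr 1
      rw [Fintype.sum_unique]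
      refine Finset.sum_congr rfl fun v hv => ?_
      have hv' : v ≠ [] := by
        intro h'; rw [mem_words] at hv; subst h'; simp at hv
      conv_lhs => rw [G, appellG_eq, if_neg hv', zero_sub, norm_neg]
      rfl
    refine ⟨hG1.trans ?_, fun α _ y => ?_⟩
    · rw [majC_succ, ← hB]; linarith
    · have hg0 : 0 ≤ gauge y := Real.sqrt_nonneg _
      have hbase : Real.sqrt (∑ p ∈ (Finset.univ : Finset α) ×ˢ words ι (L + 1),
          ‖G Ω ξ p.2 * inner ℂ (y p.1) Ω‖ ^ 2) ≤ B * Real.sqrt (gauge y) := by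
        have : ∑ p ∈ (Finset.univ : Finset α) ×ˢ words ι (L + 1),
            ‖G Ω ξ p.2 * inner ℂ (y p.1) Ω‖ ^ 2 =
            (∑ v ∈ words ι (L + 1), ‖G Ω ξ v‖ ^ 2) * ∑ k : α, ‖inner ℂ Ω (y k)‖ ^ 2 := by
          rw [Finset.sum_product, Finset.sum_comm, Finset.sum_mul]
          refine Finset.sum_congr rfl fun v _ => ?_
          simp only [Finset.mul_sum, norm_mul, mul_pow, norm_inner_symm Ω]
        rw [this, Real.sqrt_mul (Finset.sum_nonneg fun _ _ => sq_nonneg _)]
        exact mul_le_mul hG1 (Real.sqrt_le_sqrt (sum_norm_inner_sq_le_gauge hD.norm_vac y))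
          (Real.sqrt_nonneg _) hB0
      have htot : Real.sqrt (∑ p ∈ (Finset.univ : Finset α) ×ˢ words ι (L + 1),
          ‖inner ℂ (y p.1) (P Ω ξ p.2 Ω)‖ ^ 2) ≤ majC β (L + 1) * Real.sqrt (gauge y) := by
        have := sqrt_sum_norm_sq_sum_le (Finset.univ : Finset Bool)
          ((Finset.univ : Finset α) ×ˢ words ι (L + 1))
          (fun b p => bif b then G Ω ξ p.2 * inner ℂ (y p.1) Ω
            else sumSplit p.2 (fun g i s => G Ω ξ g * inner ℂ (y p.1) (ξ i (P Ω ξ s Ω))))
        simp only [Fintype.sum_bool, cond_true, cond_false, ← inner_P] at this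
        refine this.trans ?_
        rw [majC_succ, ← hB]
        have := hpart α y
        linarith [hbase]
      have h2 := pow_le_pow_left₀ (Real.sqrt_nonneg _) htot 2
      rwa [Real.sq_sqrt (Finset.sum_nonneg fun _ _ => sq_nonneg _), mul_pow,
        Real.sq_sqrt hg0] at h2

lemma span_Pol (hD : NoiseData Ω ξ R r S β) (w : List ι) :
    wordEval (fun i => ξ i + R i) w ∈ Submodule.span ℂ (Set.range (Pol Ω ξ R)) := by
  set T : ι → H →L[ℂ] H := fun i => ξ i + R i
  set V := Submodule.span ℂ (Set.range (Pol Ω ξ R))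
  have hone : (1 : H →L[ℂ] H) ∈ V := Submodule.subset_span ⟨[], Pol_nil⟩
  have key : ∀ (n : ℕ) (s : List ι), s.length ≤ n → ∀ i, T i * Pol Ω ξ R s ∈ V := by
    intro n
    induction n with
    | zero =>
      intro s hs i
      have hs : s = [] := List.length_eq_zero_iff.1 (Nat.le_zero.1 hs)
      subst hs
      have h : Pol Ω ξ R [i] = shiftedG (G Ω ξ) [i] • (1 : H →L[ℂ] H) + T i * Pol Ω ξ R [] := by
        conv_lhs => rw [Pol, polyC_eq]
        rw [sumSplit_cons, sumSplit_nil, add_zero, shiftedG_nil', one_smul]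
        rfl
      rw [← sub_eq_iff_eq_add'.2 h]
      exact sub_mem (Submodule.subset_span ⟨_, rfl⟩) (V.smul_mem _ hone)
    | succ n ih =>
      intro s hs i
      have h : Pol Ω ξ R (i :: s) = shiftedG (G Ω ξ) (i :: s) • (1 : H →L[ℂ] H) +
          (T i * Pol Ω ξ R s + sumSplit s (fun g k q =>
            shiftedG (G Ω ξ) (i :: g) • (T k * Pol Ω ξ R q))) := by
        conv_lhs => rw [Pol, polyC_eq]
        rw [sumSplit_cons, shiftedG_nil', one_smul]
        rfl
      have hrest : sumSplit s (fun g k q =>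
          shiftedG (G Ω ξ) (i :: g) • (T k * Pol Ω ξ R q)) ∈ V := by
        refine sumSplit_mem V s _ fun g k q hq => V.smul_mem _ (ih q ?_ k)
        have hl := congrArg List.length hq
        simp only [List.length_append, List.length_cons] at hl
        omega
      rw [show T i * Pol Ω ξ R s = Pol Ω ξ R (i :: s) - shiftedG (G Ω ξ) (i :: s) • (1 : H →L[ℂ] H)
          - sumSplit s (fun g k q => shiftedG (G Ω ξ) (i :: g) • (T k * Pol Ω ξ R q)) by
        rw [h]; abel]
      exact sub_mem (sub_mem (Submodule.subset_span ⟨_, rfl⟩) (V.smul_mem _ hone)) hrest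
  induction w with
  | nil => exact hone
  | cons i w ih =>
    show T i * wordEval T w ∈ V
    have : ∀ A ∈ V, T i * A ∈ V := by
      intro A hA
      induction hA using Submodule.span_induction with
      | mem x hx => obtain ⟨s, rfl⟩ := hx; exact key s.length s le_rfl i
      | zero => simp
      | add x y _ _ hx hy => rw [mul_add]; exact add_mem hx hy
      | smul c x _ hx => rw [mul_smul_comm]; exact V.smul_mem c hx
    exact this _ ih

/-- **The dual vector.** -/
theorem exists_dual (hD : NoiseData Ω ξ R r S β) {W : H →L[ℂ] H} (hW : W ∈ S)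
    (hW0 : vecState Ω W = 0) (hW1 : ‖star W Ω‖ ≤ 1) :
    ∃ g : H, ‖g‖ ^ 2 ≤ 1 / 4 ∧ ∀ w : List ι,
      inner ℂ g (wordEval (fun i => ξ i + R i) w Ω) =
        vecState Ω (W * wordEval (fun i => ξ i + R i) w) := by
  set K : List ι → ℂ := fun v => vecState Ω (W * P Ω ξ v) with hKdef
  have hK : ∀ v, K v = inner ℂ (star W Ω) (P Ω ξ v Ω) := by
    intro v
    rw [ContinuousLinearMap.star_eq_adjoint, ContinuousLinearMap.adjoint_inner_left]
    rfl
  have hbound : ∀ L, ∑ v ∈ words ι L, ‖K v‖ ^ 2 ≤ if L = 0 then 0 else (1 / 16 : ℝ) ^ L := by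
    intro L
    cases L with
    | zero => simp [words, hKdef, P, appellP_nil, hW0]
    | succ L =>
      rw [if_neg (Nat.succ_ne_zero L)]
      have h := (bounds hD (L + 1)).2 Unit (fun _ => star W Ω)
      rw [Finset.sum_product, Fintype.sum_unique] at h
      simp only [← hK] at h
      refine h.trans ?_
      have hg : gauge (fun _ : Unit => star W Ω) ≤ 1 := by
        simp only [gauge, Fintype.sum_unique]
        rw [Real.sqrt_sq (norm_nonneg _), inner_self_eq_norm_sq_to_K]
        simpa using pow_le_one₀ (n := 2) (norm_nonneg _) hW1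
      calc majC β (L + 1) ^ 2 * gauge (fun _ : Unit => star W Ω) ≤ ((1 / 4 : ℝ) ^ (L + 1)) ^ 2 * 1 :=
            mul_le_mul (pow_le_pow_left₀ (majC_nonneg hD.beta_nonneg _)
              (majC_le hD.beta_nonneg hD.beta_le _) 2) hg (Real.sqrt_nonneg _) (by positivity)
        _ = _ := by rw [mul_one, ← pow_mul, mul_comm, pow_mul]; norm_num
  set c : List ι → ℂ := fun u => (starRingEnd ℂ) (K u.reverse) with hc
  have hfin : ∀ s : Finset (List ι), ∑ u ∈ s, ‖c u‖ ^ 2 ≤ 1 / 4 := by
    intro s
    set N := s.sup List.length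
    have hsub : s ⊆ (Finset.range (N + 1)).biUnion (words ι) := by
      intro u hu
      rw [Finset.mem_biUnion]
      exact ⟨u.length, Finset.mem_range.2 (Nat.lt_succ_of_le (Finset.le_sup hu)), mem_words.2 rfl⟩
    have hdisj : ((Finset.range (N + 1) : Finset ℕ) : Set ℕ).PairwiseDisjoint (words ι) := by
      intro a _ b _ hab
      exact Finset.disjoint_left.2 fun u ha hb => hab ((mem_words.1 ha).symm.trans (mem_words.1 hb))
    have hrev : ∀ L, ∑ u ∈ words ι L, ‖c u‖ ^ 2 = ∑ u ∈ words ι L, ‖K u‖ ^ 2 := by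
      intro L
      refine Finset.sum_nbij' List.reverse List.reverse (fun u hu => ?_) (fun u hu => ?_)
        (fun u _ => List.reverse_reverse u) (fun u _ => List.reverse_reverse u) (fun u _ => ?_)
      · simpa [mem_words] using mem_words.1 hu
      · simpa [mem_words] using mem_words.1 hu
      · rw [hc, RCLike.norm_conj]
    calc ∑ u ∈ s, ‖c u‖ ^ 2 ≤ ∑ u ∈ (Finset.range (N + 1)).biUnion (words ι), ‖c u‖ ^ 2 :=
          Finset.sum_le_sum_of_subset_of_nonneg hsub (fun u _ _ => sq_nonneg _)
      _ = ∑ L ∈ Finset.range (N + 1), ∑ u ∈ words ι L, ‖c u‖ ^ 2 := Finset.sum_biUnion hdisj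
      _ ≤ ∑ L ∈ Finset.range (N + 1), if L = 0 then (0 : ℝ) else (1 / 16 : ℝ) ^ L :=
          Finset.sum_le_sum fun L _ => by rw [hrev]; exact hbound L
      _ = ∑ L ∈ Finset.range N, (1 / 16 : ℝ) ^ (L + 1) := by
          rw [Finset.sum_range_succ']; simp
      _ = (1 / 16) * ∑ L ∈ Finset.range N, (1 / 16 : ℝ) ^ L := by
          rw [Finset.mul_sum]; exact Finset.sum_congr rfl fun L _ => by ring
      _ ≤ (1 / 16) * (1 - 1 / 16)⁻¹ := by
          refine mul_le_mul_of_nonneg_left ?_ (by norm_num)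
          rw [← tsum_geometric_of_lt_one (by norm_num) (by norm_num : (1 / 16 : ℝ) < 1)]
          exact (summable_geometric_of_lt_one (by norm_num) (by norm_num)).sum_le_tsum _
            (fun i _ => by positivity)
      _ ≤ 1 / 4 := by norm_num
  have hmem : Memℓp c (2 : ENNReal) := by
    refine memℓp_gen' (C := 1 / 4) fun s => ?_
    simpa using hfin s
  let cL : lp (fun _ : List ι => ℂ) 2 := ⟨c, hmem⟩
  let V := (orthonormal_fvR hD).orthogonalFamily.linearIsometry
  refine ⟨V cL, ?_, fun w => ?_⟩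
  · rw [V.norm_map]
    have h0 : ∀ s : Finset (List ι), ∑ u ∈ s, ‖cL u‖ ^ (2 : ENNReal).toReal ≤
        (1 / 2 : ℝ) ^ (2 : ENNReal).toReal := by
      intro s
      refine le_trans (le_of_eq ?_) ((hfin s).trans (le_of_eq (by norm_num)))
      simp [cL]
    have := lp.norm_le_of_forall_sum_le (p := 2) (by norm_num) (by norm_num : (0:ℝ) ≤ 1 / 2) h0
    calc ‖cL‖ ^ 2 ≤ (1 / 2 : ℝ) ^ 2 := pow_le_pow_left₀ (norm_nonneg _) this 2
      _ = 1 / 4 := by norm_num
  · have hpol : ∀ v, inner ℂ (V cL) (Pol Ω ξ R v Ω) = vecState Ω (W * Pol Ω ξ R v) := by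
      intro v
      rw [state_mul_Pol hD v.length v le_rfl W hW]
      have hs := ((orthonormal_fvR hD).orthogonalFamily.hasSum_linearIsometry cL).mapL
        (innerSL ℂ (Pol Ω ξ R v Ω))
      have h1 : HasSum (fun u => inner ℂ (Pol Ω ξ R v Ω) (c u • fvR Ω r u))
          (inner ℂ (Pol Ω ξ R v Ω) (V cL)) := hs
      have h2 : HasSum (fun u => inner ℂ (Pol Ω ξ R v Ω) (c u • fvR Ω r u))
          ((starRingEnd ℂ) (K v)) := by
        have hz : ∀ u, u ≠ v.reverse → inner ℂ (Pol Ω ξ R v Ω) (c u • fvR Ω r u) = 0 := by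
          intro u hu
          rw [inner_smul_right, ← inner_conj_symm, inner_fvR_Pol hD]
          rw [if_neg (fun h => hu (by rw [h, List.reverse_reverse]))]
          simp
        have h := hasSum_single v.reverse hz
        rw [inner_smul_right, ← inner_conj_symm, inner_fvR_Pol hD, if_pos
          (List.reverse_reverse v).symm] at h
        simpa [hc] using h
      rw [← inner_conj_symm, h1.unique h2]
      simp [hKdef]
    have hw := span_Pol hD w
    generalize wordEval (fun i => ξ i + R i) w = A at hw ⊢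
    induction hw using Submodule.span_induction with
    | mem x hx => obtain ⟨v, rfl⟩ := hx; exact hpol v
    | zero => simp [vecState]
    | add x y _ _ hx hy => simp only [add_apply, inner_add_right, mul_add, vecState_add, hx, hy]
    | smul a x _ hx => simp only [smul_apply, inner_smul_right, mul_smul_comm, vecState_smul, hx]

end NoiseData

end Vale.Agent.P087
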