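import Vale.Agent.P087.Model

/-! The lower bound for the nonmicrostates entropy of the tuple. -/

open scoped InnerProductSpace ENNReal
open MeasureTheory

namespace Vale.Agent.P087

set_option linter.unusedSectionVars false

lemma exists_conjugate_le {ι H : Type} [DecidableEq ι] [NormedAddCommGroup H]
    [InnerProductSpace ℂ H] [CompleteSpace H] (Ω : H) (Y : ι → H →L[ℂ] H) (j : ι) (v : H)
    (hv : ∀ w, inner ℂ v (wordEval Y w Ω) = freeDiffQuot Ω Y j w) :
    ∃ ξ, IsConjugateVariable Ω Y j ξ ∧ ‖ξ‖ ≤ ‖v‖ := by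
  set K := l2Space Ω Y with hK
  have : CompleteSpace K := by
    rw [hK, l2Space]
    exact (Submodule.isClosed_topologicalClosure _).completeSpace_coe
  refine ⟨K.starProjection v, ⟨K.starProjection_apply_mem v, fun w => ?_⟩,
    K.norm_starProjection_apply_le v⟩
  have hw : wordEval Y w Ω ∈ K :=
    Submodule.le_topologicalClosure _ (Submodule.subset_span ⟨w, rfl⟩)
  have h := K.starProjection_inner_eq_zero v _ hw
  rw [inner_sub_left, sub_eq_zero] at h
  rw [← h, hv]

lemma wordEval_smul {ι H : Type} [NormedAddCommGroup H] [InnerProductSpace ℂ H]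
    (c : ι → ℂ) (T : ι → H →L[ℂ] H) : ∀ w : List ι,
    wordEval (fun i => c i • T i) w = (w.map c).prod • wordEval T w
  | [] => by simp [wordEval]
  | a :: w => by
    show (c a • T a) * wordEval (fun i => c i • T i) w = (c a * (w.map c).prod) • (T a * wordEval T w)
    rw [wordEval_smul c T w, smul_mul_smul_comm]

namespace Model

variable {q : ℕ}

lemma rn_conj (hq : 1 ≤ q) {s : ℝ} (hs : 0 ≤ s) (j : I q) (w : List (I q)) :
    inner ℂ (rn s j (vac (Lab q))) (wordEval (heatFlow Z S s) w (vac (Lab q))) =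
      (Real.sqrt (u s j) : ℂ) * freeDiffQuot (vac (Lab q)) (heatFlow Z S s) j w := by
  rw [← ContinuousLinearMap.adjoint_inner_right, ← ContinuousLinearMap.star_eq_adjoint]
  rw [inner_ann_wordEval (vac (Lab q)) (star (rn s j)) (rn_ann_vac s j) (heatFlow Z S s)
    (fun i => if j = i then (Real.sqrt (u s i) : ℂ) else 0) (fun i => ?_) w]
  · rw [freeDiffQuot, ← splitTerm_eq w j (fun g r => vecState (vac (Lab q))
      (wordEval (heatFlow Z S s) g) * vecState (vac (Lab q)) (wordEval (heatFlow Z S s) r)),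
      mul_sumSplit]
    refine sumSplit_congr fun g i r _ => ?_
    by_cases h : i = j
    · subst h; simp
    · simp [h, Ne.symm h]
  · rw [heat_eq hq hs, mul_smul_comm, smul_mul_assoc, ← smul_sub, mul_add, add_mul,
      rn_comm_sig s j (show xi s i ∈ sigAlg q from Subalgebra.smul_mem _ (X0_mem_sigAlg i) _),
      add_sub_add_left_eq_sub, rn_Rn_comm hq hs]
    by_cases h : j = i <;> simp [h]

lemma norm_rn_vac (hq : 1 ≤ q) {s : ℝ} (hs : 0 ≤ s) (j : I q) :
    ‖rn s j (vac (Lab q))‖ = 1 := by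
  have h : inner ℂ (rn s j (vac (Lab q))) (rn s j (vac (Lab q))) = (1 : ℂ) := by
    rw [← ContinuousLinearMap.adjoint_inner_right, ← ContinuousLinearMap.star_eq_adjoint]
    show inner ℂ (vac (Lab q)) ((star (rn s j) * rn s j) (vac (Lab q))) = 1
    rw [rn_orth hq hs, if_pos rfl]
    exact vecState_one norm_vac
  have h2 := inner_self_eq_norm_sq (𝕜 := ℂ) (rn s j (vac (Lab q)))
  rw [h] at h2
  simp only [RCLike.one_re] at h2
  exact (pow_eq_one_iff_of_nonneg (norm_nonneg _) two_ne_zero).1 h2.symm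

lemma conj_bound (hq : 1 ≤ q) {s : ℝ} (hs : 0 ≤ s) (j : I q) :
    ∃ ξ, IsConjugateVariable (vac (Lab q)) (heatFlow Z S s) j ξ ∧ ‖ξ‖ ^ 2 ≤ (u s j)⁻¹ := by
  obtain ⟨ξ, hξ, hn⟩ := exists_conjugate_le (vac (Lab q)) (heatFlow Z S s) j
    (((Real.sqrt (u s j))⁻¹ : ℂ) • rn s j (vac (Lab q))) fun w => by
      rw [inner_smul_left, rn_conj hq hs, map_inv₀, Complex.conj_ofReal, ← mul_assoc,
        inv_mul_cancel₀ (sqrt_u_ne hq hs j), one_mul]
  refine ⟨ξ, hξ, (pow_le_pow_left₀ (norm_nonneg _) hn 2).trans (le_of_eq ?_)⟩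
  rw [norm_smul, norm_rn_vac hq hs, mul_one, norm_inv, Complex.norm_real,
    Real.norm_of_nonneg (Real.sqrt_nonneg _), inv_pow, Real.sq_sqrt (u_pos hq hs j).le]

lemma conj_bound_high (hq : 1 ≤ q) {s : ℝ} (hs : s0 < s) (v : V q) :
    ∃ ξ, IsConjugateVariable (vac (Lab q)) (heatFlow Z S s) (Sum.inr v) ξ ∧
      ‖ξ‖ ^ 2 ≤ (tn q + s - 3 / 4) / (tn q + s) ^ 2 := by
  set Ω := vac (Lab q) with hΩ
  have hs' : 0 ≤ s := le_trans (by unfold s0; norm_num) hs.le
  set j : I q := Sum.inr v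
  set Y := heatFlow Z S s
  obtain ⟨g, hg, hgw⟩ := (noiseData hq hs).exists_dual (W := xel v)
    (wick_mem (sigAlg q) a0 (fun i => show a0 i ∈ sigAlg q from
      Algebra.subset_adjoin ⟨al i, rfl, rfl⟩) (base v))
    (xel_state hq v) (by rw [star_xel, norm_xel_vac])
  have hY : ∀ w : List (I q), inner ℂ g (wordEval Y w Ω) =
      inner ℂ (xel v Ω) (wordEval Y w Ω) := by
    intro w
    have e : Y = fun i => (Real.sqrt (u s i) : ℂ) • (xi s i + Rn s i) :=
      funext fun i => heat_eq hq hs' i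
    rw [e, wordEval_smul, smul_apply, inner_smul_right, inner_smul_right, hgw w]
    congr 1
    conv_rhs => rw [← ContinuousLinearMap.adjoint_inner_right, ← ContinuousLinearMap.star_eq_adjoint,
      star_xel]
    rfl
  set U : ℝ := tn q + s with hU
  have hu : u s j = U := rfl
  have hU0 : 0 < U := hu ▸ u_pos hq hs' j
  have hdec : Y j Ω = xel v Ω + (Real.sqrt U : ℂ) • rn s j Ω := by
    show heatFlow Z S s j Ω = _
    rw [heat_eq hq hs' j, smul_apply, add_apply, Rn_vac, smul_add, ← hu]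
    congr 1
    show (Real.sqrt (u s j) : ℂ) • (((Real.sqrt (u s j))⁻¹ : ℂ) • xel v Ω) = _
    rw [smul_smul, mul_inv_cancel₀ (sqrt_u_ne hq hs' j), one_smul]
  have hvac : inner ℂ (xel v Ω) (rn s j Ω) = 0 := by
    rw [← ContinuousLinearMap.adjoint_inner_left, ← ContinuousLinearMap.star_eq_adjoint]
    have h := DFunLike.congr_fun (rn_comm_sig s j (W := xel v) (wick_mem (sigAlg q) a0
      (fun i => show a0 i ∈ sigAlg q from Algebra.subset_adjoin ⟨al i, rfl, rfl⟩) (base v))) Ω
    rw [show star (rn s j) (xel v Ω) = xel v (star (rn s j) Ω) from h, rn_ann_vac, map_zero,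
      inner_zero_left]
  obtain ⟨ξ, hξ, hn⟩ := exists_conjugate_le Ω Y j ((U⁻¹ : ℂ) • (Y j Ω - g)) fun w => by
    rw [inner_smul_left, inner_sub_left, hY w, ← inner_sub_left, hdec, add_sub_cancel_left,
      inner_smul_left, rn_conj hq hs', hu, map_inv₀, Complex.conj_ofReal, Complex.conj_ofReal,
      ← mul_assoc (Real.sqrt U : ℂ), ← Complex.ofReal_mul, Real.mul_self_sqrt hU0.le,
      ← mul_assoc, inv_mul_cancel₀ (Complex.ofReal_ne_zero.2 hU0.ne'), one_mul]
  refine ⟨ξ, hξ, (pow_le_pow_left₀ (norm_nonneg _) hn 2).trans ?_⟩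
  have hx : inner ℂ (xel v Ω) (xel v Ω) = (1 : ℂ) := by
    rw [inner_self_eq_norm_sq_to_K, norm_xel_vac]; norm_num
  have hgY : inner ℂ g (Y j Ω) = (1 : ℂ) := by
    have h := hY [j]
    simp only [wordEval, List.map_cons, List.map_nil, List.prod_cons, List.prod_nil, mul_one] at h
    rw [h, hdec, inner_add_right, inner_smul_right, hvac, hx, mul_zero, add_zero]
  have hYY : ‖Y j Ω‖ ^ 2 = 1 + U := by
    rw [hdec, @norm_add_sq ℂ, norm_xel_vac, inner_smul_right, hvac, norm_smul, norm_rn_vac hq hs',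
      Complex.norm_real, Real.norm_of_nonneg (Real.sqrt_nonneg _), mul_one,
      Real.sq_sqrt hU0.le]
    simp
  have hsub : ‖Y j Ω - g‖ ^ 2 ≤ U - 3 / 4 := by
    rw [@norm_sub_sq ℂ, hYY, ← inner_conj_symm, hgY]
    simp only [map_one, RCLike.one_re]
    linarith
  rw [norm_smul, mul_pow, norm_inv, Complex.norm_real, Real.norm_of_nonneg hU0.le, inv_pow,
    inv_mul_eq_div]
  exact div_le_div_of_nonneg_right hsub (by positivity)

/-- The bound for the free Fisher information. -/
noncomputable def fisherBound (q : ℕ) (s : ℝ) : ℝ :=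
  2 / (eps q + s) + (Fintype.card (V q) : ℝ) *
    (1 / (tn q + s) - Set.indicator (Set.Ioi s0) (fun r => (3 / 4) / (tn q + r) ^ 2) s)

lemma fisherBound_nonneg (hq : 1 ≤ q) {s : ℝ} (hs : 0 ≤ s) : 0 ≤ fisherBound q s := by
  have he := eps_pos hq
  have ht : (1 : ℝ) ≤ tn q := by
    unfold tn
    have h1 : (1 : ℝ) ≤ 2 ^ 11 * (4 * q + 1) ^ 2 :=
      one_le_mul_of_one_le_of_one_le (by norm_num)
        (one_le_pow₀ (by linarith [(Nat.cast_nonneg q : (0 : ℝ) ≤ q)]))
    exact one_le_mul_of_one_le_of_one_le h1 (one_le_pow₀ one_le_two)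
  have h2 : Set.indicator (Set.Ioi s0) (fun r => (3 / 4 : ℝ) / (tn q + r) ^ 2) s ≤
      1 / (tn q + s) := by
    refine Set.indicator_le' (fun r _ => le_refl _) (fun r _ => ?_) s |>.trans ?_
    · positivity
    · rw [div_le_div_iff₀ (by positivity) (by positivity)]
      nlinarith
  unfold fisherBound
  have : (0 : ℝ) ≤ Fintype.card (V q) := Nat.cast_nonneg _
  exact add_nonneg (by positivity) (mul_nonneg this (sub_nonneg.2 h2))

lemma freeFisher_le (hq : 1 ≤ q) {s : ℝ} (hs : 0 ≤ s) :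
    freeFisher (vac (Lab q)) (heatFlow Z S s) ≤ ENNReal.ofReal (fisherBound q s) := by
  set b : I q → ℝ := fun j => match j with
    | Sum.inl _ => 1 / (eps q + s)
    | Sum.inr _ => 1 / (tn q + s) -
        Set.indicator (Set.Ioi s0) (fun r => (3 / 4) / (tn q + r) ^ 2) s
  have hb : ∀ j : I q, ∃ ξ, IsConjugateVariable (vac (Lab q)) (heatFlow Z S s) j ξ ∧
      ‖ξ‖ ^ 2 ≤ b j := by
    intro j
    cases j with
    | inl i =>
      obtain ⟨ξ, h1, h2⟩ := conj_bound hq hs (Sum.inl i)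
      exact ⟨ξ, h1, by simpa [b, u, eta, one_div] using h2⟩
    | inr v =>
      by_cases h : s0 < s
      · obtain ⟨ξ, h1, h2⟩ := conj_bound_high hq h v
        refine ⟨ξ, h1, h2.trans (le_of_eq ?_)⟩
        simp only [b, Set.indicator_of_mem (Set.mem_Ioi.2 h)]
        have : tn q + s ≠ 0 := by linarith [tn_pos q]
        field_simp
      · obtain ⟨ξ, h1, h2⟩ := conj_bound hq hs (Sum.inr v)
        refine ⟨ξ, h1, ?_⟩
        simp only [b, Set.indicator_of_notMem (show s ∉ Set.Ioi s0 from h), sub_zero]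
        simpa [u, eta, one_div] using h2
  have hb0 : ∀ j, 0 ≤ b j := fun j => le_trans (sq_nonneg _) (hb j).choose_spec.2
  have hsum : ∑ j, b j = fisherBound q s := by
    rw [Fintype.sum_sum_type]
    simp [b, fisherBound, mul_sub, div_eq_mul_inv]
  rw [freeFisher, ← hsum, ENNReal.ofReal_sum_of_nonneg (fun j _ => hb0 j)]
  refine Finset.sum_le_sum fun j _ => ?_
  obtain ⟨ξ, h1, h2⟩ := hb j
  exact (iInf₂_le ξ h1).trans (ENNReal.ofReal_le_ofReal h2)

lemma integrableOn_inv_mul_sq {c : ℝ} (hc : 0 < c) :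
    IntegrableOn (fun s : ℝ => ((c + s) ^ 2)⁻¹) (Set.Ioi 0) ∧
      ∀ a, 0 ≤ a → ∫ s in Set.Ioi a, ((c + s) ^ 2)⁻¹ = (c + a)⁻¹ := by
  have hd : ∀ a : ℝ, 0 ≤ a → ∀ s ∈ Set.Ici a, HasDerivAt (fun r : ℝ => -(c + r)⁻¹) ((c + s) ^ 2)⁻¹ s := by
    intro a ha s hs
    have hs' : c + s ≠ 0 := by have := Set.mem_Ici.1 hs; linarith
    have := (((hasDerivAt_id' s).const_add c).inv hs').neg
    exact this.congr_deriv (by ring)
  have hlim : Filter.Tendsto (fun r : ℝ => -(c + r)⁻¹) Filter.atTop (nhds 0) := by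
    have h1 : Filter.Tendsto (fun r : ℝ => c + r) Filter.atTop Filter.atTop :=
      Filter.tendsto_atTop_add_const_left _ c Filter.tendsto_id
    have := h1.inv_tendsto_atTop.neg
    simpa using this
  refine ⟨integrableOn_Ioi_deriv_of_nonneg' (hd 0 le_rfl) (fun s hs => by positivity) hlim,
    fun a ha => ?_⟩
  rw [integral_Ioi_of_hasDerivAt_of_nonneg' (hd a ha) (fun s hs => by positivity) hlim]
  ring

lemma integral_inv_sub {c : ℝ} (hc : 0 < c) :
    IntegrableOn (fun s : ℝ => 1 / (1 + s) - 1 / (c + s)) (Set.Ioi 0) ∧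
      ∫ s in Set.Ioi (0 : ℝ), (1 / (1 + s) - 1 / (c + s)) = Real.log c := by
  have hd : ∀ s ∈ Set.Ici (0 : ℝ), HasDerivAt (fun r : ℝ => Real.log (1 + r) - Real.log (c + r))
      (1 / (1 + s) - 1 / (c + s)) s := by
    intro s hs
    have hs0 := Set.mem_Ici.1 hs
    exact ((((hasDerivAt_id' s).const_add 1).log (by linarith)).sub
      (((hasDerivAt_id' s).const_add c).log (by linarith)))
  have hlim : Filter.Tendsto (fun r : ℝ => Real.log (1 + r) - Real.log (c + r)) Filter.atTop
      (nhds 0) := by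
    have h1 : Filter.Tendsto (fun r : ℝ => 1 + (1 - c) * (c + r)⁻¹) Filter.atTop (nhds 1) := by
      have : Filter.Tendsto (fun r : ℝ => c + r) Filter.atTop Filter.atTop :=
        Filter.tendsto_atTop_add_const_left _ c Filter.tendsto_id
      simpa using (this.inv_tendsto_atTop.const_mul (1 - c)).const_add 1
    have h2 := (Real.continuousAt_log one_ne_zero).tendsto.comp h1
    rw [Real.log_one] at h2
    refine h2.congr' ?_
    filter_upwards [Filter.eventually_ge_atTop (0 : ℝ)] with r hr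
    rw [Function.comp_apply, ← Real.log_div (by linarith) (by linarith)]
    congr 1
    have : c + r ≠ 0 := by linarith
    field_simp
    ring
  have hint : IntegrableOn (fun s : ℝ => 1 / (1 + s) - 1 / (c + s)) (Set.Ioi 0) := by
    have hm : 0 < min 1 c := lt_min one_pos hc
    have := ((integrableOn_inv_mul_sq hm).1.const_mul |c - 1|)
    refine Integrable.mono' this ?_ ?_
    · exact (Measurable.aestronglyMeasurable (by fun_prop))
    · refine (ae_restrict_iff' measurableSet_Ioi).2 (Filter.Eventually.of_forall fun s hs => ?_)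
      have hs0 : 0 < s := hs
      have e : 1 / (1 + s) - 1 / (c + s) = (c - 1) * (((1 + s) * (c + s)))⁻¹ := by
        have : c + s ≠ 0 := by linarith
        have : 1 + s ≠ 0 := by linarith
        field_simp
        ring
      rw [e, norm_mul, Real.norm_eq_abs, Real.norm_of_nonneg (by positivity)]
      refine mul_le_mul_of_nonneg_left (inv_anti₀ (by positivity) ?_) (abs_nonneg _)
      rw [sq]
      exact mul_le_mul (by linarith [min_le_left 1 c]) (by linarith [min_le_right 1 c])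
        (by linarith) (by linarith)
  refine ⟨hint, ?_⟩
  rw [integral_Ioi_of_hasDerivAt_of_tendsto' hd hint hlim]
  simp

/-- **Lower bound on `χ*`.** -/
theorem chiStar_lower (hq : 1 ≤ q) :
    ((1 / 2 * (2 * Real.log (eps q) + (Fintype.card (V q) : ℝ) * Real.log (tn q) +
      (3 / 4) * (Fintype.card (V q) : ℝ) / (tn q + s0)) +
      (Fintype.card (I q) : ℝ) / 2 * Real.log (2 * Real.pi * Real.exp 1) : ℝ) : EReal) ≤
      chiStar (vac (Lab q)) Z S := by
  set n : ℝ := (Fintype.card (V q) : ℝ)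
  have hN : (Fintype.card (I q) : ℝ) = 2 + n := by simp [n, Fintype.card_sum]
  set h : ℝ → ℝ := fun s => (Fintype.card (I q) : ℝ) / (1 + s) - fisherBound q s
  have h1 := integral_inv_sub (eps_pos hq)
  have h2 := integral_inv_sub (tn_pos q)
  have h3 := integrableOn_inv_mul_sq (tn_pos q)
  have hs0 : (0 : ℝ) ≤ s0 := by unfold s0; norm_num
  have hh : h = fun s => 2 * (1 / (1 + s) - 1 / (eps q + s)) +
      n * (1 / (1 + s) - 1 / (tn q + s)) +
      (Set.Ioi s0).indicator (fun r => 3 / 4 * n * ((tn q + r) ^ 2)⁻¹) s := by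
    funext s
    simp only [h, fisherBound, hN]
    by_cases hs : s ∈ Set.Ioi s0
    · rw [Set.indicator_of_mem hs, Set.indicator_of_mem hs]; ring
    · rw [Set.indicator_of_notMem hs, Set.indicator_of_notMem hs]; ring
  have hi3 : IntegrableOn ((Set.Ioi s0).indicator (fun r => 3 / 4 * n * ((tn q + r) ^ 2)⁻¹))
      (Set.Ioi (0 : ℝ)) :=
    ((h3.1.const_mul (3 / 4 * n)).indicator measurableSet_Ioi)
  have hint : Integrable h (volume.restrict (Set.Ioi (0 : ℝ))) := by
    rw [hh]; exact ((h1.1.const_mul 2).add (h2.1.const_mul n)).add hi3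
  have hval : ∫ s in Set.Ioi (0 : ℝ), h s =
      2 * Real.log (eps q) + n * Real.log (tn q) + (3 / 4) * n / (tn q + s0) := by
    rw [hh]
    have i1 : Integrable (fun s : ℝ => 2 * (1 / (1 + s) - 1 / (eps q + s)))
        (volume.restrict (Set.Ioi 0)) := h1.1.const_mul 2
    have i2 : Integrable (fun s : ℝ => n * (1 / (1 + s) - 1 / (tn q + s)))
        (volume.restrict (Set.Ioi 0)) := h2.1.const_mul n
    have i12 : Integrable (fun s : ℝ => 2 * (1 / (1 + s) - 1 / (eps q + s)) +
        n * (1 / (1 + s) - 1 / (tn q + s))) (volume.restrict (Set.Ioi 0)) := i1.add i2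
    rw [integral_add i12 hi3, integral_add i1 i2, integral_const_mul, integral_const_mul,
      h1.2, h2.2, setIntegral_indicator measurableSet_Ioi,
      show Set.Ioi (0 : ℝ) ∩ Set.Ioi s0 = Set.Ioi s0 from
        Set.inter_eq_right.2 (Set.Ioi_subset_Ioi hs0),
      integral_const_mul, h3.2 s0 hs0]
    ring
  have hpos : ∫⁻ s in Set.Ioi (0 : ℝ), ENNReal.ofReal (h s) ≤
      ∫⁻ s in Set.Ioi (0 : ℝ), (ENNReal.ofReal ((Fintype.card (I q) : ℝ) / (1 + s)) -
        freeFisher (vac (Lab q)) (heatFlow Z S s)) := by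
    refine lintegral_mono_ae ((ae_restrict_iff' measurableSet_Ioi).2
      (Filter.Eventually.of_forall fun s hs => ?_))
    rw [ENNReal.ofReal_sub _ (fisherBound_nonneg hq (le_of_lt hs))]
    exact tsub_le_tsub_left (freeFisher_le hq (le_of_lt hs)) _
  have hneg : ∫⁻ s in Set.Ioi (0 : ℝ), (freeFisher (vac (Lab q)) (heatFlow Z S s) -
        ENNReal.ofReal ((Fintype.card (I q) : ℝ) / (1 + s))) ≤
      ∫⁻ s in Set.Ioi (0 : ℝ), ENNReal.ofReal (-h s) := by
    refine lintegral_mono_ae ((ae_restrict_iff' measurableSet_Ioi).2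
      (Filter.Eventually.of_forall fun s hs => ?_))
    simp only [h, neg_sub]
    rw [ENNReal.ofReal_sub _ (by have : (0 : ℝ) < s := hs; positivity)]
    exact tsub_le_tsub_right (freeFisher_le hq (le_of_lt hs)) _
  have hfinp : ∫⁻ s in Set.Ioi (0 : ℝ), ENNReal.ofReal (h s) ≠ ⊤ :=
    hint.lintegral_lt_top.ne
  have hfinn : ∫⁻ s in Set.Ioi (0 : ℝ), ENNReal.ofReal (-h s) ≠ ⊤ :=
    hint.neg.lintegral_lt_top.ne
  have hdiff := integral_eq_lintegral_pos_part_sub_lintegral_neg_part hint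
  rw [hval] at hdiff
  unfold chiStar
  rw [EReal.coe_add, EReal.coe_mul]
  refine add_le_add (mul_le_mul_of_nonneg_left ?_ (EReal.coe_nonneg.2 (by norm_num))) le_rfl
  refine le_trans ?_ (EReal.sub_le_sub (EReal.coe_ennreal_le_coe_ennreal_iff.2 hpos)
    (EReal.coe_ennreal_le_coe_ennreal_iff.2 hneg))
  rw [hdiff, EReal.coe_sub, EReal.coe_ennreal_toReal hfinp, EReal.coe_ennreal_toReal hfinn]

end Model

end Vale.Agent.P087
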