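import Mathlib

/-! Sums over the decompositions `v = g ++ i :: r` of a list. -/

namespace Vale.Agent.P087

variable {ι : Type} {M N : Type*} [AddCommMonoid M] [AddCommMonoid N]

/-- Sum over all decompositions `v = g ++ i :: r`. -/
def sumSplit : List ι → (List ι → ι → List ι → M) → M
  | [], _ => 0
  | a :: t, f => f [] a t + sumSplit t (fun g i r => f (a :: g) i r)

@[simp] lemma sumSplit_nil (f : List ι → ι → List ι → M) : sumSplit [] f = 0 := rfl

lemma sumSplit_cons (a : ι) (t : List ι) (f : List ι → ι → List ι → M) :
    sumSplit (a :: t) f = f [] a t + sumSplit t (fun g i r => f (a :: g) i r) := rfl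

lemma sumSplit_congr : ∀ {v : List ι} {f f' : List ι → ι → List ι → M},
    (∀ g i r, g ++ i :: r = v → f g i r = f' g i r) → sumSplit v f = sumSplit v f'
  | [], _, _, _ => rfl
  | a :: t, f, f', h => by
    rw [sumSplit_cons, sumSplit_cons, h [] a t rfl]
    congr 1
    exact sumSplit_congr fun g i r hg => h (a :: g) i r (by simp [hg])

lemma sumSplit_zero : ∀ v : List ι, sumSplit v (fun _ _ _ => (0 : M)) = 0
  | [] => rfl
  | a :: t => by rw [sumSplit_cons, sumSplit_zero t, add_zero]

lemma sumSplit_add : ∀ (v : List ι) (f f' : List ι → ι → List ι → M),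
    sumSplit v (fun g i r => f g i r + f' g i r) = sumSplit v f + sumSplit v f'
  | [], _, _ => by simp
  | a :: t, f, f' => by
    simp only [sumSplit_cons]
    rw [sumSplit_add t (fun g i r => f (a :: g) i r) (fun g i r => f' (a :: g) i r)]
    abel

lemma map_sumSplit {F : Type*} [FunLike F M N] [AddMonoidHomClass F M N] (φ : F) :
    ∀ (v : List ι) (f : List ι → ι → List ι → M),
      φ (sumSplit v f) = sumSplit v (fun g i r => φ (f g i r))
  | [], _ => map_zero φ
  | a :: t, f => by rw [sumSplit_cons, sumSplit_cons, map_add, map_sumSplit φ t]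

lemma sumSplit_mul {A : Type*} [NonUnitalNonAssocSemiring A] (c : A) (v : List ι)
    (f : List ι → ι → List ι → A) :
    sumSplit v f * c = sumSplit v (fun g i r => f g i r * c) :=
  map_sumSplit (AddMonoidHom.mulRight c) v f

lemma mul_sumSplit {A : Type*} [NonUnitalNonAssocSemiring A] (c : A) (v : List ι)
    (f : List ι → ι → List ι → A) :
    c * sumSplit v f = sumSplit v (fun g i r => c * f g i r) :=
  map_sumSplit (AddMonoidHom.mulLeft c) v f

lemma sumSplit_sub {A : Type*} [AddCommGroup A] : ∀ (v : List ι) (f f' : List ι → ι → List ι → A),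
    sumSplit v (fun g i r => f g i r - f' g i r) = sumSplit v f - sumSplit v f'
  | [], _, _ => by simp
  | a :: t, f, f' => by
    simp only [sumSplit_cons]
    rw [sumSplit_sub t (fun g i r => f (a :: g) i r) (fun g i r => f' (a :: g) i r)]
    abel

lemma sumSplit_sumSplit : ∀ (v : List ι) (F : List ι → ι → List ι → ι → List ι → M),
    sumSplit v (fun g i r => sumSplit r (fun h j s => F g i h j s)) =
      sumSplit v (fun p j s => sumSplit p (fun g i h => F g i h j s))
  | [], _ => rfl
  | a :: t, F => by
    simp only [sumSplit_cons, sumSplit_nil, zero_add]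
    rw [sumSplit_add, sumSplit_sumSplit t (fun g i h j s => F (a :: g) i h j s)]

/-- Sum over all decompositions `v = g ++ i :: i :: r`. -/
def sumPair [DecidableEq ι] (v : List ι) (f : List ι → ι → List ι → M) : M :=
  sumSplit v (fun g i r => match r with
    | [] => 0
    | k :: r' => if k = i then f g i r' else 0)

lemma sumPair_congr [DecidableEq ι] {v : List ι} {f f' : List ι → ι → List ι → M}
    (h : ∀ g i r, g ++ i :: i :: r = v → f g i r = f' g i r) : sumPair v f = sumPair v f' := by
  refine sumSplit_congr fun g i r hg => ?_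
  cases r with
  | nil => rfl
  | cons k r' =>
    by_cases hk : k = i
    · subst hk; simp only [if_true]; exact h g k r' hg
    · simp only [if_neg hk]

lemma sumPair_sumSplit [DecidableEq ι] (v : List ι)
    (F : List ι → ι → List ι → ι → List ι → M) :
    sumPair v (fun g i r => sumSplit r (fun h j s => F g i h j s)) =
      sumSplit v (fun p j s => sumPair p (fun g i h => F g i h j s)) := by
  have h : ∀ (g : List ι) (i : ι) (r : List ι),
      (match r with
        | [] => 0
        | k :: r' => if k = i then sumSplit r' (fun h j s => F g i h j s) else (0 : M)) =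
      sumSplit r (fun h j s => match h with
        | [] => 0
        | k :: h' => if k = i then F g i h' j s else 0) := by
    intro g i r
    cases r with
    | nil => rfl
    | cons k r' =>
      rw [sumSplit_cons]
      by_cases hk : k = i
      · simp only [if_pos hk, zero_add]
      · simp only [if_neg hk, zero_add, sumSplit_zero]
  unfold sumPair
  rw [sumSplit_congr (fun g i r _ => h g i r), sumSplit_sumSplit]

lemma sumSplit_last : ∀ (v : List ι) (j : ι) (f : List ι → ι → M),
    sumSplit (v ++ [j]) (fun g i r => if r.isEmpty then f g i else 0) = f v j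
  | [], j, f => by simp [sumSplit_cons]
  | a :: t, j, f => by
    rw [List.cons_append, sumSplit_cons, sumSplit_last t j (fun g i => f (a :: g) i)]
    simp

/-- The words of a given length. -/
def words (ι : Type) [Fintype ι] [DecidableEq ι] : ℕ → Finset (List ι)
  | 0 => {[]}
  | L + 1 => ((Finset.univ : Finset ι) ×ˢ words ι L).map
      ⟨fun p => p.1 :: p.2, fun p q h => by
        simp only [List.cons.injEq] at h; exact Prod.ext h.1 h.2⟩

lemma sum_words_succ [Fintype ι] [DecidableEq ι] (L : ℕ) (F : List ι → M) :
    ∑ v ∈ words ι (L + 1), F v = ∑ i : ι, ∑ v ∈ words ι L, F (i :: v) := by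
  rw [words, Finset.sum_map, Finset.sum_product]
  rfl

lemma mem_words [Fintype ι] [DecidableEq ι] {L : ℕ} {v : List ι} :
    v ∈ words ι L ↔ v.length = L := by
  induction L generalizing v with
  | zero => simp [words]
  | succ L ih =>
    simp only [words, Finset.mem_map, Finset.mem_product, Finset.mem_univ, true_and]
    constructor
    · rintro ⟨⟨i, t⟩, ht, rfl⟩
      show (i :: t).length = L + 1
      rw [List.length_cons, ih.1 ht]
    · intro h
      cases v with
      | nil => simp at h
      | cons i t => exact ⟨(i, t), ih.2 (by simpa using h), rfl⟩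

lemma card_words [Fintype ι] [DecidableEq ι] (L : ℕ) :
    (words ι L).card = Fintype.card ι ^ L := by
  induction L with
  | zero => simp [words]
  | succ L ih => simp [words, ih, pow_succ, mul_comm]

/-- The term of `sumSplit` in position `a`. -/
def splitTerm : ℕ → List ι → (List ι → ι → List ι → M) → M
  | _, [], _ => 0
  | 0, x :: t, f => f [] x t
  | a + 1, x :: t, f => splitTerm a t (fun g i r => f (x :: g) i r)

lemma sumSplit_eq_sum : ∀ (v : List ι) (f : List ι → ι → List ι → M),
    sumSplit v f = ∑ a ∈ Finset.range v.length, splitTerm a v f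
  | [], _ => by simp
  | x :: t, f => by
    rw [sumSplit_cons, sumSplit_eq_sum t, List.length_cons, Finset.sum_range_succ', add_comm]
    rfl

lemma sum_words_splitTerm [Fintype ι] [DecidableEq ι] {P : Type*} [AddCommMonoid P] (φ : M → P) :
    ∀ (a b : ℕ) (f : List ι → ι → List ι → M),
      ∑ v ∈ words ι (a + 1 + b), φ (splitTerm a v f) =
        ∑ g ∈ words ι a, ∑ i : ι, ∑ r ∈ words ι b, φ (f g i r)
  | 0, b, f => by
    rw [Nat.zero_add, Nat.add_comm, sum_words_succ]
    simp [words, splitTerm]
  | a + 1, b, f => by
    rw [show a + 1 + 1 + b = (a + 1 + b) + 1 by omega, sum_words_succ, sum_words_succ]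
    refine Finset.sum_congr rfl fun x _ => ?_
    simp only [splitTerm]
    exact sum_words_splitTerm φ a b (fun g i r => f (x :: g) i r)

lemma splitTerm_eq [DecidableEq ι] : ∀ (v : List ι) (j : ι) (f : List ι → List ι → M),
    sumSplit v (fun g i r => if i = j then f g r else 0) =
      ∑ l : Fin v.length, if v.get l = j then f (v.take l) (v.drop (l + 1)) else 0
  | [], _, _ => by simp
  | x :: t, j, f => by
    rw [sumSplit_cons, splitTerm_eq t j (fun g r => f (x :: g) r)]
    simp only [List.length_cons, Fin.sum_univ_succ]
    rfl

end Vale.Agent.P087
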