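import Vale.Agent.P087.Shift
import Vale.Agent.P087.Defs
import Vale.Agent.P087.Split
import Vale.Agent.P087.Dual

/-! The full Fock space over `ℓ²(L)`: the free semicircular family and its properties. -/

open scoped InnerProductSpace

namespace Vale.Agent.P087

set_option linter.unusedSectionVars false
set_option linter.unusedSimpArgs false
set_option linter.unusedVariables false

variable {L : Type} [DecidableEq L]

/-- The full Fock space. -/
abbrev Fock (L : Type) : Type := L2 (List L)

/-- The vacuum. -/
noncomputable def vac (L : Type) [DecidableEq L] : Fock L := bv []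

lemma cons_inj (j : L) : Function.Injective (fun w : List L => j :: w) :=
  List.cons_injective

lemma snoc_inj (j : L) : Function.Injective (fun w : List L => w ++ [j]) :=
  fun a b h => List.append_inj_left' h rfl

/-- Left creation. -/
noncomputable def crL (j : L) : Fock L →L[ℂ] Fock L := shift _ (cons_inj j)

/-- Right creation. -/
noncomputable def crR (j : L) : Fock L →L[ℂ] Fock L := shift _ (snoc_inj j)

/-- The semicircular element. -/
noncomputable def sL (j : L) : Fock L →L[ℂ] Fock L := crL j + star (crL j)

/-- Its right counterpart. -/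
noncomputable def sR (j : L) : Fock L →L[ℂ] Fock L := crR j + star (crR j)

lemma crL_bv (j : L) (w : List L) : crL j (bv w) = bv (j :: w) := shift_bv _ _ w

lemma crR_bv (j : L) (w : List L) : crR j (bv w) = bv (w ++ [j]) := shift_bv _ _ w

lemma star_crL_cons (i j : L) (w : List L) :
    star (crL j) (bv (i :: w)) = if i = j then bv w else 0 := by
  rw [ContinuousLinearMap.star_eq_adjoint]
  by_cases h : i = j
  · subst h; rw [if_pos rfl]; exact adjoint_shift_bv _ (cons_inj i) w
  · rw [if_neg h]
    exact adjoint_shift_bv_of_notMem _ _ (fun a ha => h (List.cons.inj ha).1.symm)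

lemma star_crL_nil (j : L) : star (crL j) (bv []) = 0 :=
  adjoint_shift_bv_of_notMem _ _ (fun _ => List.cons_ne_nil _ _)

lemma star_crR_snoc (i j : L) (w : List L) :
    star (crR j) (bv (w ++ [i])) = if i = j then bv w else 0 := by
  rw [ContinuousLinearMap.star_eq_adjoint]
  by_cases h : i = j
  · subst h; rw [if_pos rfl]; exact adjoint_shift_bv _ (snoc_inj i) w
  · rw [if_neg h]
    refine adjoint_shift_bv_of_notMem _ _ (fun a ha => h ?_)
    have := congrArg List.getLast? ha
    simpa using this.symm

lemma star_crR_nil (j : L) : star (crR j) (bv []) = 0 :=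
  adjoint_shift_bv_of_notMem _ _ (fun a => by simp)

lemma norm_vac : ‖vac L‖ = 1 := norm_bv _

lemma vacProj_bv (w : List L) :
    vacProj (vac L) (bv w) = if w = [] then bv w else 0 := by
  rw [vacProj_apply, vac, inner_bv, bv_apply]
  by_cases h : w = [] <;> simp [h, eq_comm]

lemma star_vacProj {H : Type} [NormedAddCommGroup H] [InnerProductSpace ℂ H] [CompleteSpace H]
    (Ω : H) : star (vacProj Ω) = vacProj Ω := by
  rw [ContinuousLinearMap.star_eq_adjoint]
  symm
  rw [ContinuousLinearMap.eq_adjoint_iff]
  intro x y
  simp only [vacProj_apply, inner_smul_left, inner_smul_right, inner_conj_symm]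
  ring

lemma crL_crR_comm (i j : L) : crL i * crR j = crR j * crL i :=
  op_ext fun w => by
    show crL i (crR j (bv w)) = crR j (crL i (bv w))
    simp [crL_bv, crR_bv]

lemma star_crR_crL (i j : L) :
    star (crR j) * crL i - crL i * star (crR j) = if j = i then vacProj (vac L) else 0 := by
  refine op_ext fun w => ?_
  show star (crR j) (crL i (bv w)) - crL i (star (crR j) (bv w)) = _
  rw [crL_bv]
  rcases List.eq_nil_or_concat' w with rfl | ⟨t, b, rfl⟩
  · rw [star_crR_nil, map_zero, sub_zero]
    have : ([i] : List L) = [] ++ [i] := rfl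
    rw [this, star_crR_snoc]
    by_cases h : i = j
    · subst h; rw [if_pos rfl, if_pos rfl, vacProj_bv, if_pos rfl]
    · rw [if_neg h, if_neg (Ne.symm h)]; rfl
  · rw [show i :: (t ++ [b]) = (i :: t) ++ [b] from rfl, star_crR_snoc, star_crR_snoc]
    have hP : (if j = i then vacProj (vac L) else 0) (bv (t ++ [b])) = 0 := by
      split_ifs
      · rw [vacProj_bv, if_neg (by simp)]
      · rfl
    rw [hP]
    by_cases hb : b = j
    · rw [if_pos hb, if_pos hb, crL_bv, sub_self]
    · rw [if_neg hb, if_neg hb, map_zero, sub_self]

lemma star_crL_crR (i j : L) :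
    star (crL i) * crR j - crR j * star (crL i) = if j = i then vacProj (vac L) else 0 := by
  have h := congrArg star (star_crR_crL i j)
  rw [star_sub, star_mul, star_mul, star_star] at h
  rw [h]
  split_ifs
  · rw [star_vacProj]
  · rw [star_zero]

lemma isSelfAdjoint_sL (j : L) : star (sL j) = sL j := by
  rw [sL, star_add, star_star, add_comm]

lemma comm_ann_sL (i j : L) :
    star (crR j) * sL i - sL i * star (crR j) = if j = i then vacProj (vac L) else 0 := by
  have h0 : star (crR j) * star (crL i) = star (crL i) * star (crR j) := by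
    rw [← star_mul, ← star_mul, crL_crR_comm]
  rw [sL, mul_add, add_mul, h0, ← star_crR_crL i j]
  abel

lemma sL_sR_comm (i j : L) : sL i * sR j = sR j * sL i := by
  have h0 : star (crR j) * star (crL i) = star (crL i) * star (crR j) := by
    rw [← star_mul, ← star_mul, crL_crR_comm]
  have h1 := star_crR_crL i j
  rw [← star_crL_crR i j] at h1
  rw [sub_eq_sub_iff_add_eq_add] at h1
  simp only [sL, sR, mul_add, add_mul]
  rw [h0, crL_crR_comm i j]
  calc crR j * crL i + star (crL i) * crR j +
        (crL i * star (crR j) + star (crL i) * star (crR j))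
      = crR j * crL i + (star (crL i) * crR j + crL i * star (crR j)) +
          star (crL i) * star (crR j) := by abel
    _ = crR j * crL i + (star (crR j) * crL i + crR j * star (crL i)) +
          star (crL i) * star (crR j) := by rw [h1]
    _ = _ := by abel

lemma sL_vac (j : L) : sL j (vac L) = bv [j] := by
  rw [sL, add_apply, vac, crL_bv, star_crL_nil, add_zero]

lemma sR_vac (j : L) : sR j (vac L) = bv [j] := by
  rw [sR, add_apply, vac, crR_bv, star_crR_nil, add_zero]
  rfl

lemma crR_vac (j : L) : crR j (vac L) = bv [j] := by rw [vac, crR_bv]; rfl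

/-- Reversal of words. -/
noncomputable def rev (L : Type) [DecidableEq L] : Fock L →L[ℂ] Fock L :=
  shift List.reverse List.reverse_injective

lemma rev_bv (w : List L) : rev L (bv w) = bv w.reverse := shift_bv _ _ w

lemma star_rev : star (rev L) = rev L := by
  refine op_ext fun w => ?_
  rw [rev_bv, ContinuousLinearMap.star_eq_adjoint]
  conv_lhs => rw [← List.reverse_reverse w]
  exact adjoint_shift_bv _ _ w.reverse

lemma rev_sL (i : L) : rev L * sL i = sR i * rev L := by
  have h : rev L * crL i = crR i * rev L :=
    op_ext fun w => by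
      show rev L (crL i (bv w)) = crR i (rev L (bv w))
      simp [crL_bv, crR_bv, rev_bv]
  have h' : crL i * rev L = rev L * crR i :=
    op_ext fun w => by
      show crL i (rev L (bv w)) = rev L (crR i (bv w))
      simp [crL_bv, crR_bv, rev_bv]
  have h'' := congrArg star h'
  rw [star_mul, star_mul, star_rev] at h''
  rw [sL, sR, mul_add, add_mul, h, h'']

lemma rev_wordEval_sL (w : List L) :
    rev L (wordEval sL w (vac L)) = wordEval sR w (vac L) := by
  induction w with
  | nil =>
    show rev L (vac L) = vac L
    rw [vac, rev_bv]; rfl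
  | cons i w ih =>
    show rev L (sL i (wordEval sL w (vac L))) = sR i (wordEval sR w (vac L))
    rw [← ih]
    exact DFunLike.congr_fun (rev_sL i) _

lemma wordEval_append {ι H : Type} [NormedAddCommGroup H] [InnerProductSpace ℂ H]
    (X : ι → H →L[ℂ] H) (u v : List ι) : wordEval X (u ++ v) = wordEval X u * wordEval X v := by
  simp [wordEval]

lemma sR_comm_wordEval_sL (j : L) (w : List L) :
    sR j * wordEval sL w = wordEval sL w * sR j := by
  induction w with
  | nil => show sR j * 1 = 1 * sR j; simp
  | cons i w ih =>
    show sR j * (sL i * wordEval sL w) = sL i * wordEval sL w * sR j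
    rw [← mul_assoc, ← sL_sR_comm, mul_assoc, ih, mul_assoc]

lemma wordEval_sR_vac (w : List L) :
    wordEval sR w (vac L) = wordEval sL w.reverse (vac L) := by
  induction w with
  | nil => rfl
  | cons i w ih =>
    show sR i (wordEval sR w (vac L)) = _
    rw [ih, List.reverse_cons, wordEval_append]
    show (sR i * wordEval sL w.reverse) (vac L) = wordEval sL w.reverse (sL i (vac L) )
    rw [sR_comm_wordEval_sL, sL_vac]
    show wordEval sL w.reverse (sR i (vac L)) = _
    rw [sR_vac]

lemma bv_mem_span_sR : ∀ (n : ℕ) (w : List L), w.length ≤ n →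
    (bv w : Fock L) ∈ Submodule.span ℝ (Set.range fun u => wordEval sR u (vac L)) := by
  intro n
  induction n with
  | zero =>
    intro w hw
    have hw : w = [] := List.length_eq_zero_iff.1 (Nat.le_zero.1 hw)
    subst hw
    exact Submodule.subset_span ⟨[], rfl⟩
  | succ n ih =>
    intro w hw
    rcases List.eq_nil_or_concat' w with rfl | ⟨t, b, rfl⟩
    · exact Submodule.subset_span ⟨[], rfl⟩
    · simp only [List.length_append, List.length_singleton] at hw
      have h1 : sR b (bv t) ∈ Submodule.span ℝ (Set.range fun u => wordEval sR u (vac L)) := by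
        have ht := ih t (by omega)
        have := Submodule.mem_map_of_mem (f := ((sR b).restrictScalars ℝ).toLinearMap) ht
        rw [Submodule.map_span] at this
        refine Submodule.span_mono ?_ this
        rintro _ ⟨_, ⟨u, rfl⟩, rfl⟩
        exact ⟨b :: u, rfl⟩
      have h2 : star (crR b) (bv t) ∈
          Submodule.span ℝ (Set.range fun u => wordEval sR u (vac L)) := by
        rcases List.eq_nil_or_concat' t with rfl | ⟨t', c, rfl⟩
        · rw [star_crR_nil]; exact zero_mem _
        · rw [star_crR_snoc]
          split_ifs
          · exact ih t' (by simp at hw; omega)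
          · exact zero_mem _
      have : (bv (t ++ [b]) : Fock L) = sR b (bv t) - star (crR b) (bv t) := by
        rw [sR, add_apply, crR_bv, add_sub_cancel_right]
      rw [this]
      exact sub_mem h1 h2

/-- The von Neumann algebra generated by all semicircular elements. -/
noncomputable def fockAlg (L : Type) [DecidableEq L] : VonNeumannAlgebra (Fock L) where
  toStarSubalgebra := StarSubalgebra.centralizer ℂ (Set.centralizer (Set.range (sL (L := L))))
  centralizer_centralizer' := by
    have hC : star (Set.centralizer (Set.range (sL (L := L)))) =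
        Set.centralizer (Set.range (sL (L := L))) := by
      apply Set.ext
      intro T
      simp only [Set.mem_star, Set.mem_centralizer_iff, Set.forall_mem_range]
      constructor
      · intro h i
        have := congrArg star (h i)
        rw [star_mul, star_mul, star_star, isSelfAdjoint_sL] at this
        exact this.symm
      · intro h i
        have := congrArg star (h i)
        rw [star_mul, star_mul, isSelfAdjoint_sL] at this
        exact this.symm
    show Set.centralizer (Set.centralizer (StarSubalgebra.centralizer ℂ
      (Set.centralizer (Set.range (sL (L := L)))) : Set (Fock L →L[ℂ] Fock L))) =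
      (StarSubalgebra.centralizer ℂ
      (Set.centralizer (Set.range (sL (L := L)))) : Set (Fock L →L[ℂ] Fock L))
    rw [StarSubalgebra.coe_centralizer, hC, Set.union_self, Set.centralizer_centralizer_centralizer]

lemma mem_fockAlg {T : Fock L →L[ℂ] Fock L} : T ∈ fockAlg L ↔
    T ∈ Set.centralizer (Set.centralizer (Set.range (sL (L := L))) ∪
      star (Set.centralizer (Set.range (sL (L := L))))) := Iff.rfl

lemma sL_mem_fockAlg (i : L) : sL i ∈ fockAlg L := by
  rw [mem_fockAlg, Set.mem_centralizer_iff]
  rintro T (hT | hT)
  · exact (hT (sL i) ⟨i, rfl⟩).symm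
  · have := congrArg star (hT (sL i) ⟨i, rfl⟩)
    rw [star_mul, star_mul, star_star, isSelfAdjoint_sL] at this
    exact this

lemma comm_sR_of_mem {T : Fock L →L[ℂ] Fock L} (hT : T ∈ fockAlg L) (j : L) :
    sR j * T = T * sR j := by
  refine (mem_fockAlg.1 hT) (sR j) (Or.inl ?_)
  rintro _ ⟨i, rfl⟩
  exact sL_sR_comm i j

lemma star_sR (j : L) : star (sR j) = sR j := by rw [sR, star_add, star_star, add_comm]

lemma star_wordEval {ι H : Type} [NormedAddCommGroup H] [InnerProductSpace ℂ H] [CompleteSpace H]
    (X : ι → H →L[ℂ] H) (hX : ∀ i, star (X i) = X i) (w : List ι) :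
    star (wordEval X w) = wordEval X w.reverse := by
  induction w with
  | nil => exact star_one _
  | cons i w ih =>
    rw [show wordEval X (i :: w) = X i * wordEval X w from rfl, star_mul, hX, ih,
      List.reverse_cons, wordEval_append]
    simp [wordEval]

lemma comm_wordEval_sR_of_mem {T : Fock L →L[ℂ] Fock L} (hT : T ∈ fockAlg L) (w : List L) :
    wordEval sR w * T = T * wordEval sR w := by
  induction w with
  | nil => show 1 * T = T * 1; simp
  | cons i w ih =>
    show sR i * wordEval sR w * T = T * (sR i * wordEval sR w)
    rw [mul_assoc, ih, ← mul_assoc, comm_sR_of_mem hT, mul_assoc]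

lemma fockAlg_separating {T : Fock L →L[ℂ] Fock L} (hT : T ∈ fockAlg L)
    (h : T (vac L) = 0) : T = 0 := by
  refine op_ext fun w => ?_
  have hw := bv_mem_span_sR w.length w le_rfl
  generalize (bv w : Fock L) = v at hw ⊢
  induction hw using Submodule.span_induction with
  | mem x hx =>
    obtain ⟨u, rfl⟩ := hx
    show (T * wordEval sR u) (vac L) = _
    rw [← comm_wordEval_sR_of_mem hT]
    show wordEval sR u (T (vac L)) = _
    rw [h, map_zero]; rfl
  | zero => simp
  | add x y _ _ hx hy => simp [hx, hy]
  | smul c x _ hx =>
    rw [ContinuousLinearMap.map_smul_of_tower, hx]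
    simp

lemma star_apply_vac {T : Fock L →L[ℂ] Fock L} (hT : T ∈ fockAlg L) (w : List L) :
    (star T (vac L)) w = (starRingEnd ℂ) ((T (vac L)) w.reverse) := by
  have key : inner ℂ (bv w : Fock L) (star T (vac L)) =
      inner ℂ (T (vac L)) (rev L (bv w)) := by
    have hw := bv_mem_span_sR w.length w le_rfl
    generalize (bv w : Fock L) = v at hw ⊢
    induction hw using Submodule.span_induction with
    | mem x hx =>
      obtain ⟨u, rfl⟩ := hx
      dsimp only
      rw [ContinuousLinearMap.star_eq_adjoint, ContinuousLinearMap.adjoint_inner_right]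
      show inner ℂ ((T * wordEval sR u) (vac L)) (vac L) = _
      rw [← comm_wordEval_sR_of_mem hT]
      show inner ℂ (wordEval sR u (T (vac L))) (vac L) = _
      rw [← ContinuousLinearMap.adjoint_inner_right, ← ContinuousLinearMap.star_eq_adjoint,
        star_wordEval sR star_sR]
      congr 1
      rw [wordEval_sR_vac u, rev_wordEval_sL]
    | zero => simp
    | add x y _ _ hx hy => simp [inner_add_left, inner_add_right, hx, hy]
    | smul c x _ hx =>
      rw [RCLike.real_smul_eq_coe_smul (K := ℂ), map_smul, inner_smul_left, inner_smul_right, hx,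
        RCLike.conj_ofReal]
  rw [inner_bv, rev_bv, ← inner_conj_symm, inner_bv] at key
  exact key

lemma fockAlg_tracial : IsFaithfulTracialState (fockAlg L) (vac L) := by
  refine ⟨norm_vac, fun A hA B hB => ?_, fun A hA h => ?_⟩
  · have hf : ∀ {A B : Fock L →L[ℂ] Fock L}, A ∈ fockAlg L → vecState (vac L) (A * B) =
        ∑' w : List L, (A (vac L)) w.reverse * (B (vac L)) w := by
      intro A B hA
      show inner ℂ (vac L) (A (B (vac L))) = _
      rw [← ContinuousLinearMap.adjoint_inner_left, ← ContinuousLinearMap.star_eq_adjoint,
        lp.inner_eq_tsum]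
      refine tsum_congr fun w => ?_
      rw [RCLike.inner_apply, star_apply_vac hA w, Complex.conj_conj, mul_comm]
    rw [hf hA, hf hB, ← (List.reverse_involutive.toPerm List.reverse).tsum_eq
      (fun w => (B (vac L)) w.reverse * (A (vac L)) w)]
    refine tsum_congr fun w => ?_
    simp [mul_comm]
  · apply fockAlg_separating hA
    have h' : inner ℂ (A (vac L)) (A (vac L)) = 0 := by
      rw [← h]
      show _ = inner ℂ (vac L) (star A (A (vac L)))
      rw [ContinuousLinearMap.star_eq_adjoint, ContinuousLinearMap.adjoint_inner_right]
    exact inner_self_eq_zero.1 h'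

/-! ### Derivation formula and moments -/

lemma comm_wordEval {ι A : Type} [Ring A] [Algebra ℂ A] (d Q : A) (T : ι → A) (c : ι → ℂ)
    (hd : ∀ i, d * T i - T i * d = c i • Q) : ∀ w : List ι,
    d * (w.map T).prod - (w.map T).prod * d =
      sumSplit w (fun g i r => c i • ((g.map T).prod * (Q * (r.map T).prod))) := by
  intro w
  induction w with
  | nil => simp
  | cons a t ih =>
    rw [List.map_cons, List.prod_cons, sumSplit_cons]
    have h : d * (T a * (t.map T).prod) - T a * (t.map T).prod * d =
        (d * T a - T a * d) * (t.map T).prod +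
          T a * (d * (t.map T).prod - (t.map T).prod * d) := by
      noncomm_ring
    rw [h, hd, ih, mul_sumSplit]
    congr 1
    · simp
    · refine sumSplit_congr fun g i r _ => ?_
      simp [mul_assoc]

lemma inner_ann_wordEval {ι H : Type} [NormedAddCommGroup H] [InnerProductSpace ℂ H] (Ω : H)
    (d : H →L[ℂ] H) (hd0 : d Ω = 0) (T : ι → H →L[ℂ] H) (c : ι → ℂ)
    (hd : ∀ i, d * T i - T i * d = c i • vacProj Ω) (w : List ι) :
    inner ℂ Ω (d (wordEval T w Ω)) =
      sumSplit w (fun g i r => c i * (vecState Ω (wordEval T g) * vecState Ω (wordEval T r))) := by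
  have h := comm_wordEval d (vacProj Ω) T c hd w
  have h2 : vecState Ω (d * wordEval T w) = vecState Ω
      (sumSplit w (fun g i r => c i • (wordEval T g * (vacProj Ω * wordEval T r)))) := by
    show vecState Ω _ = vecState Ω _
    unfold wordEval
    rw [← h]
    simp [vecState, hd0]
  show vecState Ω (d * wordEval T w) = _
  rw [h2, vecState_sumSplit]
  refine sumSplit_congr fun g i r _ => ?_
  rw [vecState_smul]
  show c i * inner ℂ Ω ((wordEval T g * (vacProj Ω * wordEval T r)) Ω) = _
  congr 1
  show inner ℂ Ω (wordEval T g (inner ℂ Ω (wordEval T r Ω) • Ω)) = _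
  rw [map_smul, inner_smul_right, mul_comm]
  rfl

/-- The joint moments of the free semicircular family. -/
noncomputable def fockMoment (w : List L) : ℂ := vecState (vac L) (wordEval sL w)

@[simp] lemma fockMoment_nil : fockMoment ([] : List L) = 1 := vecState_one norm_vac

lemma fockMoment_cons (j : L) (w : List L) :
    fockMoment (j :: w) =
      sumSplit w (fun g i r => if i = j then fockMoment g * fockMoment r else 0) := by
  have h0 : star (crR j) (vac L) = 0 := star_crR_nil j
  have h := inner_ann_wordEval (vac L) (star (crR j)) h0 sL (fun i => if j = i then 1 else 0)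
    (fun i => by rw [comm_ann_sL]; split_ifs <;> simp) w
  have e : fockMoment (j :: w) = inner ℂ (vac L) (star (crR j) (wordEval sL w (vac L))) := by
    show inner ℂ (vac L) (sL j (wordEval sL w (vac L))) = _
    conv_lhs => rw [← isSelfAdjoint_sL j]
    rw [ContinuousLinearMap.star_eq_adjoint, ContinuousLinearMap.adjoint_inner_right, sL_vac,
      ← crR_vac, ← ContinuousLinearMap.adjoint_inner_right]
    rfl
  rw [e, h]
  refine sumSplit_congr fun g i r _ => ?_
  by_cases hi : i = j
  · subst hi; simp [fockMoment]
  · simp [hi, Ne.symm hi]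

lemma fockMoment_real : ∀ (n : ℕ) (w : List L), w.length ≤ n →
    (starRingEnd ℂ) (fockMoment w) = fockMoment w := by
  intro n
  induction n with
  | zero =>
    intro w hw
    have hw : w = [] := List.length_eq_zero_iff.1 (Nat.le_zero.1 hw)
    subst hw; simp
  | succ n ih =>
    intro w hw
    cases w with
    | nil => simp
    | cons j w =>
      rw [fockMoment_cons, map_sumSplit]
      refine sumSplit_congr fun g i r h => ?_
      have hl := congrArg List.length h
      simp only [List.length_append, List.length_cons] at hl hw
      split_ifs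
      · rw [map_mul, ih g (by omega), ih r (by omega)]
      · simp

lemma fockMoment_reverse (w : List L) : fockMoment w.reverse = fockMoment w := by
  conv_rhs => rw [← fockMoment_real w.length w le_rfl]
  unfold fockMoment vecState
  rw [inner_conj_symm, ← star_wordEval sL isSelfAdjoint_sL, ContinuousLinearMap.star_eq_adjoint,
    ContinuousLinearMap.adjoint_inner_right]

lemma sumSplit_replicate {M : Type*} [AddCommMonoid M] (j : L) :
    ∀ (p : ℕ) (f : List L → L → List L → M), sumSplit (List.replicate p j) f =
      ∑ a ∈ Finset.range p, f (List.replicate a j) j (List.replicate (p - 1 - a) j)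
  | 0, f => by simp
  | p + 1, f => by
    rw [List.replicate_succ, sumSplit_cons, sumSplit_replicate j p, Finset.sum_range_succ',
      add_comm]
    congr 1
    refine Finset.sum_congr rfl fun a _ => ?_
    rw [List.replicate_succ, show p + 1 - 1 - (a + 1) = p - 1 - a by omega]

lemma fockMoment_replicate (j : L) : ∀ p : ℕ,
    fockMoment (List.replicate p j) = if Even p then (catalan (p / 2) : ℂ) else 0 := by
  intro p
  induction p using Nat.strong_induction_on with
  | _ p ih =>
  cases p with
  | zero => simp
  | succ p =>
    rw [List.replicate_succ, fockMoment_cons, sumSplit_replicate]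
    simp only [if_true]
    rcases Nat.even_or_odd p with hp | ⟨q, rfl⟩
    · rw [if_neg (fun h => (Nat.even_add_one.1 h) hp)]
      refine Finset.sum_eq_zero fun a ha => ?_
      rw [Finset.mem_range] at ha
      rw [ih a (by omega), ih (p - 1 - a) (by omega)]
      rcases Nat.even_or_odd a with h | h
      · rw [if_neg (c := Even (p - 1 - a))]
        · simp
        · rw [Nat.even_iff] at hp h ⊢; omega
      · rw [if_neg (Nat.not_even_iff_odd.2 h), zero_mul]
    · rw [if_pos ⟨q + 1, by ring⟩, show (2 * q + 1 + 1) / 2 = q + 1 by omega, catalan_succ',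
        Finset.Nat.sum_antidiagonal_eq_sum_range_succ_mk, Nat.cast_sum,
        ← Finset.sum_filter_of_ne (p := Even) (s := Finset.range (2 * q + 1))]
      · refine Finset.sum_nbij' (fun a => a / 2) (fun b => 2 * b) ?_ ?_ ?_ ?_ ?_
        · intro a ha; simp at ha ⊢; omega
        · intro b hb; simp at hb ⊢; omega
        · intro a ha; simp at ha; rcases ha.2 with ⟨r, hr⟩; omega
        · intro b _; simp
        · intro a ha
          rw [Finset.mem_filter, Finset.mem_range] at ha
          obtain ⟨ha1, r, rfl⟩ := ha
          rw [ih _ (by omega), ih _ (by omega), if_pos ⟨r, rfl⟩, if_pos ⟨q - r, by omega⟩]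
          rw [Nat.cast_mul, show (r + r) / 2 = r by omega,
            show (2 * q + 1 - 1 - (r + r)) / 2 = q - r by omega]
      · intro a ha hne
        rw [Finset.mem_range] at ha
        by_contra hodd
        apply hne
        rw [ih a (by omega), if_neg hodd, zero_mul]

/-! ### Freeness -/

variable {C : Type} (c : L → C)

/-- The span of the basis vectors with all letters in the class `o`. -/
noncomputable def classSpan (o : C) : Submodule ℂ (Fock L) :=
  Submodule.span ℂ {v | ∃ w : List L, (∀ a ∈ w, c a = o) ∧ bv w = v}

/-- The algebra generated by the semicircular elements of the class `o`. -/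
noncomputable def classAlg (o : C) : Subalgebra ℂ (Fock L →L[ℂ] Fock L) :=
  Algebra.adjoin ℂ (sL '' {i | c i = o})

lemma append_inj (t : List L) : Function.Injective (fun w : List L => w ++ t) :=
  fun a b h => List.append_cancel_right h

lemma classAlg_shift {o : C} {t : List L} (ht : ∀ a, t.head? = some a → c a ≠ o)
    {T : Fock L →L[ℂ] Fock L} (hT : T ∈ classAlg c o) :
    ∀ f ∈ classSpan c o, T f ∈ classSpan c o ∧
      T (shift _ (append_inj t) f) = shift _ (append_inj t) (T f) := by
  induction hT using Algebra.adjoin_induction with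
  | mem x hx =>
    obtain ⟨i, hi, rfl⟩ := hx
    intro f hf
    induction hf using Submodule.span_induction with
    | mem v hv =>
      obtain ⟨w, hw, rfl⟩ := hv
      simp only [shift_bv, sL, add_apply, crL_bv]
      cases w with
      | nil =>
        rw [star_crL_nil, map_add, map_zero, add_zero, shift_bv]
        refine ⟨Submodule.subset_span ⟨[i], by simpa using hi, rfl⟩, ?_⟩
        have : star (crL i) (bv t) = 0 := by
          cases t with
          | nil => exact star_crL_nil i
          | cons b t =>
            rw [star_crL_cons, if_neg (fun (h : b = i) => ht b rfl (by rw [h]; exact hi))]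
        rw [List.nil_append, this, add_zero]
        simp
      | cons b w =>
        rw [star_crL_cons, List.cons_append, star_crL_cons, map_add, shift_bv]
        refine ⟨add_mem (Submodule.subset_span ⟨i :: b :: w, ?_, rfl⟩) ?_, ?_⟩
        · intro a ha
          rcases List.mem_cons.1 ha with rfl | ha
          · exact hi
          · exact hw a ha
        · split_ifs
          · exact Submodule.subset_span ⟨w, fun a ha => hw a (List.mem_cons_of_mem _ ha), rfl⟩
          · exact zero_mem _
        · split_ifs
          · rw [shift_bv]; rfl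
          · rw [map_zero]; rfl
    | zero => simp
    | add u v _ _ hu hv =>
      refine ⟨?_, by simp only [map_add, hu.2, hv.2]⟩
      rw [map_add]; exact add_mem hu.1 hv.1
    | smul a u _ hu =>
      refine ⟨?_, by simp only [map_smul, hu.2]⟩
      rw [map_smul]; exact Submodule.smul_mem _ a hu.1
  | algebraMap a =>
    intro f hf
    simp only [Algebra.algebraMap_eq_smul_one, smul_apply]
    exact ⟨Submodule.smul_mem _ a hf, ((shift _ (append_inj t)).map_smul a f).symm⟩
  | add x y _ _ hx hy =>
    intro f hf
    simp only [add_apply, map_add, (hx f hf).2, (hy f hf).2]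
    exact ⟨add_mem (hx f hf).1 (hy f hf).1, trivial⟩
  | mul x y _ _ hx hy =>
    intro f hf
    obtain ⟨h1, h2⟩ := hy f hf
    show x (y f) ∈ _ ∧ x (y _) = _
    rw [h2]
    exact hx _ h1

/-- The span of the basis vectors whose first letter has class `o`. -/
noncomputable def headSpan (o : C) : Submodule ℂ (Fock L) :=
  Submodule.span ℂ {v | ∃ (a : L) (w : List L), c a = o ∧ bv (a :: w) = v}

lemma centred_mem {o : C} {T : Fock L →L[ℂ] Fock L} (hT : T ∈ classAlg c o)
    (h0 : vecState (vac L) T = 0) :
    T (vac L) ∈ Submodule.span ℂ
      {v | ∃ w : List L, w ≠ [] ∧ (∀ a ∈ w, c a = o) ∧ bv w = v} := by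
  have h1 : T (vac L) ∈ classSpan c o :=
    (classAlg_shift c (t := []) (by simp) hT (vac L)
      (Submodule.subset_span ⟨[], by simp, rfl⟩)).1
  have h2 : T (vac L) = T (vac L) - inner ℂ (vac L) (T (vac L)) • vac L := by
    rw [show inner ℂ (vac L) (T (vac L)) = 0 from h0, zero_smul, sub_zero]
  rw [h2]
  generalize T (vac L) = v at h1 ⊢
  induction h1 using Submodule.span_induction with
  | mem x hx =>
    obtain ⟨w, hw, rfl⟩ := hx
    rw [vac, inner_bv, bv_apply]
    by_cases h : w = []
    · subst h; simp
    · rw [if_neg (Ne.symm h), zero_smul, sub_zero]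
      exact Submodule.subset_span ⟨w, h, hw, rfl⟩
  | zero => simp
  | add x y _ _ hx hy =>
    rw [inner_add_right, add_smul,
      show x + y - (inner ℂ (vac L) x • vac L + inner ℂ (vac L) y • vac L) =
        (x - inner ℂ (vac L) x • vac L) + (y - inner ℂ (vac L) y • vac L) by abel]
    exact add_mem hx hy
  | smul a x _ hx =>
    rw [inner_smul_right, mul_smul, ← smul_sub]
    exact Submodule.smul_mem _ a hx

lemma alternating_prod : ∀ l : List (C × (Fock L →L[ℂ] Fock L)),
    (∀ p ∈ l, p.2 ∈ classAlg c p.1 ∧ vecState (vac L) p.2 = 0) →
    l.IsChain (fun a b => a.1 ≠ b.1) → ∀ p, l.head? = some p →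
      (l.map Prod.snd).prod (vac L) ∈ headSpan c p.1 := by
  intro l
  induction l with
  | nil => intro _ _ p hp; simp at hp
  | cons a l ih =>
    intro hl hch p hp
    simp only [List.head?_cons, Option.some.injEq] at hp
    subst hp
    obtain ⟨haA, ha0⟩ := hl a List.mem_cons_self
    rw [List.map_cons, List.prod_cons]
    show a.2 ((l.map Prod.snd).prod (vac L)) ∈ _
    have key : ∀ t : List L, (∀ b, t.head? = some b → c b ≠ a.1) →
        a.2 (bv t) ∈ headSpan c a.1 := by
      intro t ht
      have h := (classAlg_shift c ht haA (vac L)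
        (Submodule.subset_span ⟨[], by simp, rfl⟩)).2
      rw [vac, shift_bv, List.nil_append] at h
      rw [h]
      have hm := Submodule.mem_map_of_mem (f := (shift _ (append_inj t)).toLinearMap)
        (centred_mem c haA ha0)
      rw [Submodule.map_span] at hm
      refine Submodule.span_le.2 ?_ hm
      rintro _ ⟨_, ⟨w, hw, hwc, rfl⟩, rfl⟩
      cases w with
      | nil => exact absurd rfl hw
      | cons b w =>
        show shift _ (append_inj t) (bv (b :: w)) ∈ headSpan c a.1
        rw [shift_bv]
        exact Submodule.subset_span ⟨b, w ++ t, hwc b List.mem_cons_self, rfl⟩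
    cases l with
    | nil =>
      show a.2 (bv []) ∈ _
      exact key [] (by simp)
    | cons b l =>
      rw [List.isChain_cons_cons] at hch
      have hv := ih (fun q hq => hl q (List.mem_cons_of_mem _ hq)) hch.2 b rfl
      have hm := Submodule.mem_map_of_mem (f := a.2.toLinearMap) hv
      rw [headSpan, Submodule.map_span] at hm
      refine Submodule.span_le.2 ?_ hm
      rintro _ ⟨_, ⟨e, w, he, rfl⟩, rfl⟩
      refine key (e :: w) fun b' hb' => ?_
      simp only [List.head?_cons, Option.some.injEq] at hb'
      subst hb'
      rw [he]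
      exact hch.1.symm

lemma alternating_state (l : List (C × (Fock L →L[ℂ] Fock L))) (hne : l ≠ [])
    (hl : ∀ p ∈ l, p.2 ∈ classAlg c p.1 ∧ vecState (vac L) p.2 = 0)
    (hch : l.IsChain (fun a b => a.1 ≠ b.1)) :
    vecState (vac L) (l.map Prod.snd).prod = 0 := by
  obtain ⟨a, l', rfl⟩ := List.exists_cons_of_ne_nil hne
  have h := alternating_prod c _ hl hch a rfl
  show inner ℂ (vac L) _ = 0
  generalize ((a :: l').map Prod.snd).prod (vac L) = v at h ⊢
  induction h using Submodule.span_induction with
  | mem x hx =>
    obtain ⟨e, w, _, rfl⟩ := hx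
    rw [vac, inner_bv, bv_apply, if_neg (List.cons_ne_nil e w).symm]
  | zero => simp
  | add x y _ _ hx hy => simp [inner_add_right, hx, hy]
  | smul a x _ hx => simp [inner_smul_right, hx]

end Vale.Agent.P087
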