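import Mathlib

/-! Finite families of independent centred Gaussian variables. -/

open scoped ENNReal NNReal
open MeasureTheory ProbabilityTheory MvPolynomial

namespace Vale.Agent.P087

set_option linter.unusedSectionVars false

variable {C : Type} [Fintype C]

/-- The law of independent centred Gaussian variables of variance `v`. -/
noncomputable def gauss (C : Type) [Fintype C] (v : ℝ≥0) : Measure (C → ℝ) :=
  Measure.pi fun _ => gaussianReal 0 v

instance (v : ℝ≥0) : IsProbabilityMeasure (gauss C v) := by
  unfold gauss; infer_instance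

lemma integrable_pow_gaussianReal (v : ℝ≥0) (n : ℕ) :
    Integrable (fun x : ℝ => x ^ n) (gaussianReal 0 v) := by
  rcases Nat.eq_zero_or_pos n with rfl | hn
  · simp
  · have h := (memLp_id_gaussianReal' (μ := 0) (v := v) (n : ℝ≥0∞) (ENNReal.natCast_ne_top n))
    have := h.integrable_norm_rpow (by exact_mod_cast hn.ne') (ENNReal.natCast_ne_top n)
    refine (integrable_norm_iff ((continuous_pow n).aestronglyMeasurable)).1 ?_
    simpa [norm_pow] using this

lemma integrable_pow_mul_pdf {v : ℝ≥0} (hv : v ≠ 0) (n : ℕ) :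
    Integrable (fun x : ℝ => x ^ n * gaussianPDFReal 0 v x) := by
  have h := integrable_pow_gaussianReal v n
  rw [gaussianReal_of_var_ne_zero 0 hv, integrable_withDensity_iff_integrable_smul'
    (measurable_gaussianPDF 0 v) (Filter.Eventually.of_forall fun x => gaussianPDF_lt_top)] at h
  refine h.congr (Filter.Eventually.of_forall fun x => ?_)
  simp [toReal_gaussianPDF, mul_comm]

/-- Moments of the centred Gaussian law. -/
noncomputable def gMoment (v : ℝ≥0) (n : ℕ) : ℝ := ∫ x, x ^ n ∂(gaussianReal 0 v)

lemma gMoment_one (v : ℝ≥0) : gMoment v 1 = 0 := by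
  simp [gMoment, integral_id_gaussianReal]

lemma gMoment_succ {v : ℝ≥0} (hv : v ≠ 0) (n : ℕ) :
    gMoment v (n + 1) = v * n * gMoment v (n - 1) := by
  simp only [gMoment, integral_gaussianReal_eq_integral_smul hv, smul_eq_mul]
  have hvr : (v : ℝ) ≠ 0 := by exact_mod_cast hv
  have hd : ∀ x : ℝ, HasDerivAt (fun y => -(v : ℝ) * gaussianPDFReal 0 v y)
      (x * gaussianPDFReal 0 v x) x := by
    intro x
    have h1 : HasDerivAt (fun y : ℝ => -(y - 0) ^ 2 / (2 * (v : ℝ))) (-x / v) x := by
      have := ((((hasDerivAt_id' x).sub_const (0 : ℝ)).pow 2).neg).div_const (2 * (v : ℝ))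
      exact this.congr_deriv (by simp; field_simp)
    have h2 := ((h1.exp).const_mul (Real.sqrt (2 * Real.pi * v))⁻¹).const_mul (-(v : ℝ))
    refine (h2.congr_deriv ?_)
    rw [gaussianPDFReal_def]
    field_simp
  have hu : ∀ x : ℝ, HasDerivAt (fun y : ℝ => y ^ n) ((n : ℝ) * x ^ (n - 1)) x := fun x =>
    hasDerivAt_pow n x
  have key := integral_mul_deriv_eq_deriv_mul_of_integrable (fun x _ => hu x) (fun x _ => hd x)
    ((integrable_pow_mul_pdf hv (n + 1)).congr
      (Filter.Eventually.of_forall fun x => by simp [pow_succ]; ring))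
    (((integrable_pow_mul_pdf hv (n - 1)).const_mul (-(v : ℝ) * n)).congr
      (Filter.Eventually.of_forall fun x => by simp; ring))
    (((integrable_pow_mul_pdf hv n).const_mul (-(v : ℝ))).congr
      (Filter.Eventually.of_forall fun x => by simp; ring))
  calc ∫ x, gaussianPDFReal 0 v x * x ^ (n + 1)
      = ∫ x, x ^ n * (x * gaussianPDFReal 0 v x) :=
        integral_congr_ae (Filter.Eventually.of_forall fun x => by simp only [pow_succ]; ring)
    _ = -∫ x, (n : ℝ) * x ^ (n - 1) * (-(v : ℝ) * gaussianPDFReal 0 v x) := key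
    _ = (v : ℝ) * n * ∫ x, gaussianPDFReal 0 v x * x ^ (n - 1) := by
        rw [← integral_neg, ← integral_const_mul]
        exact integral_congr_ae (Filter.Eventually.of_forall fun x => by ring)

/-- Evaluation of a complex polynomial at real coordinates. -/
noncomputable def evR (x : C → ℝ) (P : MvPolynomial C ℂ) : ℂ :=
  MvPolynomial.eval (fun c => (x c : ℂ)) P

lemma continuous_evR (P : MvPolynomial C ℂ) : Continuous fun x : C → ℝ => evR x P :=
  (MvPolynomial.continuous_eval P).comp
    (continuous_pi fun c => Complex.continuous_ofReal.comp (continuous_apply c))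

lemma evR_monomial (s : C →₀ ℕ) (a : ℂ) (x : C → ℝ) :
    evR x (monomial s a) = a * ∏ c, ((x c : ℂ)) ^ s c := by
  rw [evR, eval_monomial, Finsupp.prod_fintype]
  intro c; simp

lemma integrable_evR (v : ℝ≥0) (P : MvPolynomial C ℂ) :
    Integrable (fun x => evR x P) (gauss C v) := by
  induction P using MvPolynomial.induction_on' with
  | monomial s a =>
    simp only [evR_monomial]
    refine Integrable.const_mul ?_ a
    exact Integrable.fintype_prod (f := fun c (t : ℝ) => (t : ℂ) ^ s c)
      fun c => by
        have := (integrable_pow_gaussianReal v (s c)).ofReal (𝕜 := ℂ)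
        simpa using this
  | add P Q hP hQ =>
    simp only [evR, map_add] at hP hQ ⊢
    exact hP.add hQ

/-- Expectation of a polynomial. -/
noncomputable def gE (v : ℝ≥0) : MvPolynomial C ℂ →ₗ[ℂ] ℂ where
  toFun P := ∫ x, evR x P ∂(gauss C v)
  map_add' P Q := by
    rw [← integral_add (integrable_evR v P) (integrable_evR v Q)]
    simp [evR]
  map_smul' a P := by
    rw [RingHom.id_apply, smul_eq_mul, ← integral_const_mul]
    simp [evR]

lemma gE_apply (v : ℝ≥0) (P : MvPolynomial C ℂ) : gE v P = ∫ x, evR x P ∂(gauss C v) := rfl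

lemma gE_C (v : ℝ≥0) (a : ℂ) : gE v (MvPolynomial.C a : MvPolynomial C ℂ) = a := by
  simp [gE_apply, evR]

lemma gE_monomial (v : ℝ≥0) (s : C →₀ ℕ) (a : ℂ) :
    gE v (monomial s a) = a * ∏ c, (gMoment v (s c) : ℂ) := by
  rw [gE_apply]
  simp only [evR_monomial, gMoment]
  rw [integral_const_mul]
  congr 1
  rw [gauss, integral_fintype_prod_eq_prod (fun c (t : ℝ) => (t : ℂ) ^ s c)]
  refine Finset.prod_congr rfl fun c _ => ?_
  rw [← integral_complex_ofReal]
  simp

/-- Gaussian integration by parts. -/
lemma gE_X_mul [DecidableEq C] {v : ℝ≥0} (hv : v ≠ 0) (c : C) (P : MvPolynomial C ℂ) :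
    gE v (MvPolynomial.X c * P) = (v : ℂ) * gE v (pderiv c P) := by
  induction P using MvPolynomial.induction_on' with
  | add P Q hP hQ => rw [mul_add, map_add, hP, hQ, map_add, map_add, mul_add]
  | monomial s a =>
    rw [pderiv_monomial, show (MvPolynomial.X c : MvPolynomial C ℂ) * monomial s a =
        monomial (Finsupp.single c 1 + s) a by
      rw [MvPolynomial.X, monomial_mul, one_mul], gE_monomial, gE_monomial]
    rw [Fintype.prod_eq_mul_prod_compl c, Fintype.prod_eq_mul_prod_compl c]
    have h1 : ∏ i ∈ ({c} : Finset C)ᶜ, (gMoment v ((Finsupp.single c 1 + s : C →₀ ℕ) i) : ℂ) =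
        ∏ i ∈ ({c} : Finset C)ᶜ, (gMoment v ((s - Finsupp.single c 1 : C →₀ ℕ) i) : ℂ) := by
      refine Finset.prod_congr rfl fun i hi => ?_
      rw [Finset.mem_compl, Finset.mem_singleton] at hi
      simp [Finsupp.single_eq_of_ne hi]
    rw [h1]
    simp only [Finsupp.add_apply, Finsupp.tsub_apply, Finsupp.single_eq_same]
    rw [add_comm 1 (s c), gMoment_succ hv]
    push_cast
    ring

/-- Exponential moments of linear forms. -/
lemma lintegral_exp_linear (v : ℝ≥0) (a : C → ℝ) :
    ∫⁻ x, ENNReal.ofReal (Real.exp (∑ c, a c * x c)) ∂(gauss C v) =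
      ENNReal.ofReal (Real.exp ((v : ℝ) * (∑ c, a c ^ 2) / 2)) := by
  have hint : Integrable (fun x : C → ℝ => ∏ c, Real.exp (a c * x c)) (gauss C v) :=
    Integrable.fintype_prod (f := fun c (t : ℝ) => Real.exp (a c * t))
      fun c => integrable_exp_mul_gaussianReal (a c)
  simp only [Real.exp_sum]
  rw [← ofReal_integral_eq_lintegral_ofReal hint
    (Filter.Eventually.of_forall fun x => Finset.prod_nonneg fun c _ => (Real.exp_pos _).le)]
  congr 1
  rw [gauss, integral_fintype_prod_eq_prod (fun c (t : ℝ) => Real.exp (a c * t)),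
    Finset.mul_sum, Finset.sum_div, Real.exp_sum]
  refine Finset.prod_congr rfl fun c _ => ?_
  have h := congrFun (mgf_id_gaussianReal (μ := 0) (v := v)) (a c)
  simp only [mgf, id, zero_mul, zero_add] at h
  exact h

/-- Sub-Gaussian tail of a linear form. -/
lemma gauss_tail {v : ℝ≥0} (hv : v ≠ 0) (a : C → ℝ) (ha : ∑ c, a c ^ 2 ≤ 1) {r : ℝ} (hr : 0 < r) :
    gauss C v {x | r ≤ |∑ c, a c * x c|} ≤
      ENNReal.ofReal (2 * Real.exp (-r ^ 2 / (2 * (v : ℝ)))) := by
  have hvr : (0 : ℝ) < v := by
    have : (0 : ℝ≥0) < v := pos_iff_ne_zero.2 hv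
    exact_mod_cast this
  have key : ∀ b : C → ℝ, ∑ c, b c ^ 2 ≤ 1 → gauss C v {x | r ≤ ∑ c, b c * x c} ≤
      ENNReal.ofReal (Real.exp (-r ^ 2 / (2 * (v : ℝ)))) := by
    intro b hb
    set l := r / (v : ℝ) with hl
    have hl0 : 0 < l := by positivity
    calc gauss C v {x | r ≤ ∑ c, b c * x c}
        ≤ ∫⁻ x, ENNReal.ofReal (Real.exp (-(l * r))) *
            ENNReal.ofReal (Real.exp (∑ c, (l * b c) * x c)) ∂(gauss C v) := by
          rw [← lintegral_indicator_one (measurableSet_le measurable_const (by fun_prop))]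
          refine lintegral_mono fun x => ?_
          by_cases hx : x ∈ {x | r ≤ ∑ c, b c * x c}
          · rw [Set.indicator_of_mem hx, ← ENNReal.ofReal_mul (Real.exp_pos _).le, ← Real.exp_add,
              Pi.one_apply, ENNReal.one_le_ofReal]
            refine Real.one_le_exp ?_
            have hx' : r ≤ ∑ c, b c * x c := hx
            simp only [mul_assoc, ← Finset.mul_sum]
            nlinarith
          · rw [Set.indicator_of_notMem hx]; exact bot_le
      _ = ENNReal.ofReal (Real.exp (-(l * r))) *
            ENNReal.ofReal (Real.exp ((v : ℝ) * (∑ c, (l * b c) ^ 2) / 2)) := by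
          rw [lintegral_const_mul' _ _ ENNReal.ofReal_ne_top, lintegral_exp_linear]
      _ ≤ _ := by
          rw [← ENNReal.ofReal_mul (Real.exp_pos _).le, ← Real.exp_add]
          refine ENNReal.ofReal_le_ofReal (Real.exp_le_exp.2 ?_)
          simp only [mul_pow, ← Finset.mul_sum]
          have h1 : (v : ℝ) * (l ^ 2 * ∑ c, b c ^ 2) / 2 ≤ (v : ℝ) * (l ^ 2 * 1) / 2 := by
            gcongr
          refine (add_le_add le_rfl h1).trans (le_of_eq ?_)
          rw [hl]; field_simp; ring
  have hsub : {x : C → ℝ | r ≤ |∑ c, a c * x c|} ⊆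
      {x | r ≤ ∑ c, a c * x c} ∪ {x | r ≤ ∑ c, (-a c) * x c} := by
    intro x hx
    rcases le_abs.1 (show r ≤ |∑ c, a c * x c| from hx) with h | h
    · exact Or.inl h
    · exact Or.inr (by simpa using h)
  refine (measure_mono hsub).trans ((measure_union_le _ _).trans ?_)
  refine (add_le_add (key a ha) (key (fun c => -a c) (by simpa using ha))).trans (le_of_eq ?_)
  rw [← ENNReal.ofReal_add (Real.exp_pos _).le (Real.exp_pos _).le, ← two_mul (Real.exp _)]

/-- The Gaussian law is dominated by a multiple of the Lebesgue measure. -/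
lemma gauss_le_volume {v : ℝ≥0} (hv : v ≠ 0) {s : Set (C → ℝ)} (hs : MeasurableSet s) :
    gauss C v s ≤
      ENNReal.ofReal ((Real.sqrt (2 * Real.pi * v))⁻¹ ^ Fintype.card C) * volume s := by
  classical
  set f : (C → ℝ) → ℝ := fun x => ∏ c, gaussianPDFReal 0 v (x c)
  have heq : gauss C v = volume.withDensity fun x => ENNReal.ofReal (f x) := by
    refine Measure.pi_eq fun t ht => ?_
    rw [withDensity_apply _ (MeasurableSet.univ_pi ht)]
    have hint : ∀ c, Integrable ((t c).indicator (gaussianPDFReal 0 v)) := fun c =>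
      (integrable_gaussianPDFReal 0 v).indicator (ht c)
    have hind : ∀ x : C → ℝ, (Set.univ.pi t).indicator (fun x => ENNReal.ofReal (f x)) x =
        ENNReal.ofReal (∏ c, (t c).indicator (gaussianPDFReal 0 v) (x c)) := by
      intro x
      by_cases hx : x ∈ Set.univ.pi t
      · rw [Set.indicator_of_mem hx]
        congr 1
        exact Finset.prod_congr rfl fun c _ => (Set.indicator_of_mem (hx c trivial) _).symm
      · rw [Set.indicator_of_notMem hx]
        simp only [Set.mem_pi, Set.mem_univ, forall_const, not_forall] at hx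
        obtain ⟨c, hc⟩ := hx
        rw [Finset.prod_eq_zero (Finset.mem_univ c) (Set.indicator_of_notMem hc _),
          ENNReal.ofReal_zero]
    rw [← lintegral_indicator (MeasurableSet.univ_pi ht), funext hind]
    simp only [volume_pi]
    rw [← ofReal_integral_eq_lintegral_ofReal
        (Integrable.fintype_prod (f := fun c => (t c).indicator (gaussianPDFReal 0 v)) hint)
        (Filter.Eventually.of_forall fun x => Finset.prod_nonneg fun c _ =>
          Set.indicator_nonneg (fun y _ => gaussianPDFReal_nonneg 0 v y) _),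
      integral_fintype_prod_eq_prod (fun c => (t c).indicator (gaussianPDFReal 0 v)),
      ENNReal.ofReal_prod_of_nonneg (fun c _ => integral_nonneg fun y =>
        Set.indicator_nonneg (fun y _ => gaussianPDFReal_nonneg 0 v y) _)]
    refine Finset.prod_congr rfl fun c _ => ?_
    rw [gaussianReal_apply_eq_integral 0 hv, integral_indicator (ht c)]
  rw [heq, withDensity_apply _ hs, ← setLIntegral_const]
  refine lintegral_mono fun x => ENNReal.ofReal_le_ofReal ?_
  rw [← Finset.card_univ, ← Finset.prod_const]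
  refine Finset.prod_le_prod (fun c _ => gaussianPDFReal_nonneg 0 v _) fun c _ => ?_
  rw [gaussianPDFReal_def]
  refine mul_le_of_le_one_right (by positivity) (Real.exp_le_one_iff.2 ?_)
  exact div_nonpos_of_nonpos_of_nonneg (neg_nonpos.2 (sq_nonneg _)) (by positivity)

end Vale.Agent.P087
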