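import Vale.Agent.P087.Fock
import Vale.Agent.P087.Chart
import Vale.Agent.P087.Gauss

/-! Gaussian matrices: convergence of the moments to those of a free semicircular family, and a
bound for the operator norm. -/

open scoped ENNReal NNReal InnerProductSpace
open MeasureTheory ProbabilityTheory Filter Topology

namespace Vale.Agent.P087

set_option linter.unusedSectionVars false
set_option linter.unusedSimpArgs false

variable {k : ℕ}

lemma inner_eq_re_sum (x y : EuclideanSpace ℝ (Fin k × Fin k)) :
    inner ℝ x y = ∑ i, ∑ j, ((starRingEnd ℂ) (hermMatrix x i j) * hermMatrix y i j).re := by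
  have h := sum_norm_sq_hermMatrix (x + y)
  rw [hermMatrix_add, norm_add_sq_real, ← sum_norm_sq_hermMatrix x, ← sum_norm_sq_hermMatrix y] at h
  have e : ∀ i j, ‖(hermMatrix x + hermMatrix y) i j‖ ^ 2 = ‖hermMatrix x i j‖ ^ 2 +
      2 * ((starRingEnd ℂ) (hermMatrix x i j) * hermMatrix y i j).re + ‖hermMatrix y i j‖ ^ 2 := by
    intro i j
    rw [Matrix.add_apply, ← Complex.normSq_eq_norm_sq, ← Complex.normSq_eq_norm_sq,
      ← Complex.normSq_eq_norm_sq]
    simp [Complex.normSq_apply]
    ring
  simp only [e, Finset.sum_add_distrib, ← Finset.mul_sum] at h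
  linarith

lemma inner_vecHerm (x : EuclideanSpace ℝ (Fin k × Fin k)) (M : Matrix (Fin k) (Fin k) ℂ) :
    inner ℝ x (vecHerm M) = ∑ i, ∑ j, ((starRingEnd ℂ) (hermMatrix x i j) * M i j).re := by
  rw [inner_eq_re_sum]
  have h : ∀ i j, ((starRingEnd ℂ) (hermMatrix x i j) * hermMatrix (vecHerm M) i j).re =
      (((starRingEnd ℂ) (hermMatrix x i j) * M i j).re +
        ((starRingEnd ℂ) (hermMatrix x j i) * M j i).re) / 2 := by
    intro i j
    rw [hermMatrix_vecHerm, mul_div_assoc', mul_add, Complex.div_ofNat_re, Complex.add_re,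
      ← hermMatrix_conj x j i, Complex.conj_conj]
    rw [show ((starRingEnd ℂ) (hermMatrix x i j) * (starRingEnd ℂ) (M j i)).re =
      (hermMatrix x i j * M j i).re by rw [← map_mul, Complex.conj_re]]
  simp only [h, ← Finset.sum_div, Finset.sum_add_distrib]
  rw [Finset.sum_comm (f := fun i j => ((starRingEnd ℂ) (hermMatrix x j i) * M j i).re)]
  ring

/-- The chart as a linear map. -/
noncomputable def hermLin (k : ℕ) :
    EuclideanSpace ℝ (Fin k × Fin k) →ₗ[ℝ] Matrix (Fin k) (Fin k) ℂ where
  toFun := hermMatrix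
  map_add' := hermMatrix_add
  map_smul' c x := by rw [hermMatrix_smul, RingHom.id_apply, Complex.coe_smul]

/-- The coefficients of the entries. -/
noncomputable def coef (a b : Fin k) (p : Fin k × Fin k) : ℂ :=
  hermMatrix (EuclideanSpace.single p (1 : ℝ)) a b

lemma hermMatrix_eq_sum (x : EuclideanSpace ℝ (Fin k × Fin k)) (a b : Fin k) :
    hermMatrix x a b = ∑ p, (x p : ℂ) * coef a b p := by
  conv_lhs => rw [← (EuclideanSpace.basisFun (Fin k × Fin k) ℝ).sum_repr x]
  show hermLin k (∑ p, _) a b = _
  rw [map_sum, Matrix.sum_apply]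
  refine Finset.sum_congr rfl fun p _ => ?_
  rw [map_smul, EuclideanSpace.basisFun_apply, EuclideanSpace.basisFun_repr, Matrix.smul_apply,
    Complex.real_smul]
  rfl

/-- The covariance of the entries. -/
lemma coef_cov (a b c d : Fin k) :
    ∑ p, coef a b p * coef c d p = if a = d ∧ b = c then 1 else 0 := by
  set E : Matrix (Fin k) (Fin k) ℂ := Matrix.single c d 1
  have hu : ∀ x : EuclideanSpace ℝ (Fin k × Fin k), hermMatrix x c d =
      (inner ℝ x (vecHerm E) : ℂ) + Complex.I * (inner ℝ x (vecHerm (Complex.I • E)) : ℂ) := by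
    intro x
    have e1 : ∀ (z : ℂ), ∑ i, ∑ j, ((starRingEnd ℂ) (hermMatrix x i j) * (z • E) i j).re =
        ((starRingEnd ℂ) (hermMatrix x c d) * z).re := by
      intro z
      rw [Finset.sum_eq_single c, Finset.sum_eq_single d]
      · simp [E]
      · intro j _ hj; simp [E, Matrix.single_apply, Ne.symm hj]
      · simp
      · intro i _ hi; exact Finset.sum_eq_zero fun j _ => by simp [E, Matrix.single_apply, Ne.symm hi]
      · simp
    have h1 := e1 1
    rw [one_smul] at h1
    rw [inner_vecHerm, inner_vecHerm, h1, e1]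
    apply Complex.ext <;> simp
  have hc : ∀ p, coef c d p = ((vecHerm E) p : ℂ) + Complex.I * ((vecHerm (Complex.I • E)) p : ℂ) := by
    intro p
    rw [coef, hu, EuclideanSpace.inner_single_left, EuclideanSpace.inner_single_left]
    simp
  simp only [hc, mul_add, Finset.sum_add_distrib]
  have e2 : ∀ y : EuclideanSpace ℝ (Fin k × Fin k), ∑ p, coef a b p * (y p : ℂ) = hermMatrix y a b :=
    fun y => by rw [hermMatrix_eq_sum]; exact Finset.sum_congr rfl fun p _ => mul_comm _ _
  have e3 : ∀ y : EuclideanSpace ℝ (Fin k × Fin k),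
      ∑ p, coef a b p * (Complex.I * (y p : ℂ)) = Complex.I * hermMatrix y a b := by
    intro y
    rw [← e2, Finset.mul_sum]
    exact Finset.sum_congr rfl fun p _ => by ring
  rw [e2, e3, hermMatrix_vecHerm, hermMatrix_vecHerm, Matrix.smul_apply, Matrix.smul_apply,
    smul_eq_mul, smul_eq_mul, map_mul, Complex.conj_I]
  rw [show (E a b + (starRingEnd ℂ) (E b a)) / 2 +
      Complex.I * ((Complex.I * E a b + -Complex.I * (starRingEnd ℂ) (E b a)) / 2) =
      (starRingEnd ℂ) (E b a) by
    linear_combination ((E a b - (starRingEnd ℂ) (E b a)) / 2) * Complex.I_sq]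
  simp only [E, Matrix.single_apply]
  by_cases h : a = d ∧ b = c
  · rw [if_pos h, if_pos ⟨h.2.symm, h.1.symm⟩, map_one]
  · rw [if_neg h, if_neg (fun hh => h ⟨hh.2.symm, hh.1.symm⟩), map_zero]

variable {K : Type} [Fintype K] [DecidableEq K]

/-- The coordinates. -/
abbrev Crd (K : Type) (k : ℕ) : Type := K × (Fin k × Fin k)

/-- The coordinates of one matrix. -/
noncomputable def coords (x : Crd K k → ℝ) (j : K) : EuclideanSpace ℝ (Fin k × Fin k) :=
  WithLp.toLp 2 fun p => x (j, p)

/-- The polynomial matrix. -/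
noncomputable def MP (j : K) : Matrix (Fin k) (Fin k) (MvPolynomial (Crd K k) ℂ) :=
  Matrix.of fun a b => ∑ p, MvPolynomial.C (coef a b p) * MvPolynomial.X (j, p)

/-- A product of polynomial matrices. -/
noncomputable def WP (k : ℕ) (w : List K) : Matrix (Fin k) (Fin k) (MvPolynomial (Crd K k) ℂ) :=
  (w.map MP).prod

/-- The normalised trace. -/
noncomputable def trP (k : ℕ) (w : List K) : MvPolynomial (Crd K k) ℂ :=
  MvPolynomial.C (k : ℂ)⁻¹ * (WP k w).trace

/-- A product of normalised traces. -/
noncomputable def prodTr (k : ℕ) (ws : List (List K)) : MvPolynomial (Crd K k) ℂ :=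
  (ws.map (trP k)).prod

/-- The derivation dual to an entry. -/
noncomputable def entryD (j : K) (a b : Fin k) :
    Derivation ℂ (MvPolynomial (Crd K k) ℂ) (MvPolynomial (Crd K k) ℂ) :=
  ∑ p, coef a b p • MvPolynomial.pderiv (j, p)

lemma entryD_apply (j : K) (a b : Fin k) (P : MvPolynomial (Crd K k) ℂ) :
    entryD j a b P = ∑ p, coef a b p • MvPolynomial.pderiv (j, p) P := by
  rw [entryD, ← Derivation.coeFnAddMonoidHom_apply, map_sum, Finset.sum_apply]
  rfl

lemma entryD_MP (j i : K) (a b c d : Fin k) :
    entryD j a b (MP i c d) = if j = i ∧ a = d ∧ b = c then 1 else 0 := by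
  rw [entryD_apply]
  simp only [MP, Matrix.of_apply, map_sum, MvPolynomial.pderiv_C_mul, MvPolynomial.pderiv_X,
    Pi.single_apply, Prod.mk.injEq, mul_ite, mul_one, mul_zero, Finset.smul_sum]
  by_cases h : j = i
  · subst h
    simp only [true_and, Finset.sum_ite_eq', Finset.mem_univ, if_true, smul_ite, smul_zero]
    simp only [MvPolynomial.smul_eq_C_mul, ← MvPolynomial.C_mul, ← map_sum]
    rw [coef_cov]
    split_ifs <;> simp
  · simp [h, Ne.symm h]

lemma map_entryD_mul (j : K) (a b : Fin k) (A B : Matrix (Fin k) (Fin k) (MvPolynomial (Crd K k) ℂ)) :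
    (A * B).map (entryD j a b) = A.map (entryD j a b) * B + A * B.map (entryD j a b) := by
  refine Matrix.ext fun p q => ?_
  simp only [Matrix.map_apply, Matrix.mul_apply, Matrix.add_apply, map_sum, Derivation.leibniz,
    smul_eq_mul, Finset.sum_add_distrib]
  rw [← Finset.sum_add_distrib, ← Finset.sum_add_distrib]
  exact Finset.sum_congr rfl fun r _ => by ring

lemma map_entryD_WP (j : K) (a b : Fin k) : ∀ w : List K, (WP k w).map (entryD j a b) =
    sumSplit w (fun g i r => if i = j then WP k g * Matrix.single b a 1 * WP k r else 0)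
  | [] => by
    refine Matrix.ext fun p q => ?_
    simp only [WP, List.map_nil, List.prod_nil, Matrix.map_apply, Matrix.one_apply, sumSplit_nil,
      Matrix.zero_apply]
    split_ifs <;> simp
  | c :: t => by
    have hd : (MP c).map (entryD j a b) = if c = j then Matrix.single b a 1 else 0 := by
      refine Matrix.ext fun p q => ?_
      rw [Matrix.map_apply, entryD_MP]
      by_cases h : c = j
      · subst h
        simp only [if_true, Matrix.single_apply, true_and]
        simp only [and_comm]
      · simp [h, Ne.symm h]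
    rw [show WP k (c :: t) = MP c * WP k t from List.prod_cons, map_entryD_mul, sumSplit_cons,
      map_entryD_WP j a b t, mul_sumSplit, hd]
    congr 1
    · by_cases h : c = j <;> simp [h, WP]
    · refine sumSplit_congr fun g i r _ => ?_
      by_cases h : i = j
      · simp only [if_pos h]
        rw [show WP k (c :: g) = MP c * WP k g from List.prod_cons]
        simp only [mul_assoc]
      · simp only [if_neg h, mul_zero]

lemma WP_append (u v : List K) : WP k (u ++ v) = WP k u * WP k v := by simp [WP]

lemma trace_mul_single (A B : Matrix (Fin k) (Fin k) (MvPolynomial (Crd K k) ℂ)) (a b : Fin k) :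
    (A * Matrix.single b a 1 * B).trace = (B * A) a b := by
  rw [Matrix.trace_mul_cycle, Matrix.trace]
  simp [Matrix.diag, Matrix.mul_apply, Matrix.single_apply, Finset.sum_ite_eq, ite_and]

lemma entryD_trP (j : K) (a b : Fin k) (V : List K) :
    entryD j a b (trP k V) = sumSplit V (fun g i r =>
      if i = j then MvPolynomial.C (k : ℂ)⁻¹ * (WP k (r ++ g)) a b else 0) := by
  rw [trP, MvPolynomial.C_mul', Derivation.map_smul]
  have h : entryD j a b (WP k V).trace = ((WP k V).map (entryD j a b)).trace := by
    simp [Matrix.trace, map_sum]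
  have h2 : ∀ f, (sumSplit V f : Matrix (Fin k) (Fin k) (MvPolynomial (Crd K k) ℂ)).trace =
      sumSplit V (fun g i r => (f g i r).trace) := fun f =>
    map_sumSplit (Matrix.traceAddMonoidHom (Fin k) (MvPolynomial (Crd K k) ℂ)) V f
  rw [h, map_entryD_WP, h2, MvPolynomial.smul_eq_C_mul, mul_sumSplit]
  refine sumSplit_congr fun g i r _ => ?_
  by_cases hi : i = j
  · rw [if_pos hi, if_pos hi, trace_mul_single, WP_append]
  · rw [if_neg hi, if_neg hi, Matrix.trace_zero, mul_zero]

/-- The crossing terms. -/
noncomputable def crossTerms (k : ℕ) (j : K) (w : List K) :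
    List (List K) → List (List K) → MvPolynomial (Crd K k) ℂ
  | _, [] => 0
  | pre, V :: rest =>
    sumSplit V (fun g i r => if i = j then prodTr k ((w ++ (r ++ g)) :: (pre ++ rest)) else 0) +
      crossTerms k j w (pre ++ [V]) rest

lemma prodTr_cons (k : ℕ) (V : List K) (ws : List (List K)) :
    prodTr k (V :: ws) = trP k V * prodTr k ws := by simp [prodTr]

lemma prodTr_append (k : ℕ) (us vs : List (List K)) :
    prodTr k (us ++ vs) = prodTr k us * prodTr k vs := by simp [prodTr]

lemma sum_cross (j : K) (w : List K) : ∀ (ws pre : List (List K)),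
    prodTr k pre * ∑ a, ∑ b, (WP k w) b a * entryD j a b (prodTr k ws) = crossTerms k j w pre ws
  | [], pre => by simp [prodTr, crossTerms]
  | V :: rest, pre => by
    rw [crossTerms, ← sum_cross j w rest (pre ++ [V])]
    have hcomm : ∀ F : Fin k → List K → K → List K → MvPolynomial (Crd K k) ℂ,
        ∑ a, sumSplit V (F a) = sumSplit V (fun g i r => ∑ a, F a g i r) := by
      intro F
      induction (Finset.univ : Finset (Fin k)) using Finset.induction_on with
      | empty => simp [sumSplit_zero]
      | insert a s ha ih => simp only [Finset.sum_insert ha, ih, sumSplit_add]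
    have h1 : ∀ a b : Fin k, (WP k w) b a * entryD j a b (prodTr k (V :: rest)) =
        prodTr k rest * ((WP k w) b a * entryD j a b (trP k V)) +
        trP k V * ((WP k w) b a * entryD j a b (prodTr k rest)) := fun a b => by
      rw [prodTr_cons, Derivation.leibniz, smul_eq_mul, smul_eq_mul]; ring
    have h2 : ∑ a : Fin k, ∑ b, (WP k w) b a * entryD j a b (trP k V) =
        sumSplit V (fun g i r => if i = j then trP k (w ++ (r ++ g)) else 0) := by
      simp only [entryD_trP, mul_sumSplit, hcomm]
      refine sumSplit_congr fun g i r _ => ?_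
      by_cases hi : i = j
      · simp only [if_pos hi]
        rw [trP, WP_append w, Matrix.trace, Finset.mul_sum, Finset.sum_comm]
        refine Finset.sum_congr rfl fun b _ => ?_
        rw [Matrix.diag, Matrix.mul_apply, Finset.mul_sum]
        exact Finset.sum_congr rfl fun a _ => by ring
      · simp [hi]
    simp only [h1, Finset.sum_add_distrib, ← Finset.mul_sum, h2, mul_add]
    congr 1
    · rw [mul_sumSplit, mul_sumSplit]
      refine sumSplit_congr fun g i r _ => ?_
      split_ifs
      · rw [prodTr_cons, prodTr_append]; ring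
      · simp
    · rw [prodTr_append, show prodTr k [V] = trP k V by simp [prodTr]]; ring

/-- The variance. -/
noncomputable def vk (k : ℕ) : ℝ≥0 := (k : ℝ≥0)⁻¹

lemma vk_ne (hk : 0 < k) : vk k ≠ 0 := by
  unfold vk
  exact inv_ne_zero (by exact_mod_cast hk.ne')

lemma vk_cast : ((vk k : ℝ) : ℂ) = (k : ℂ)⁻¹ := by simp [vk]

lemma gE_MP_mul (hk : 0 < k) (j : K) (a b : Fin k) (P : MvPolynomial (Crd K k) ℂ) :
    gE (vk k) (MP j a b * P) = (k : ℂ)⁻¹ * gE (vk k) (entryD j a b P) := by
  simp only [MP, Matrix.of_apply, Finset.sum_mul, map_sum, entryD_apply, Finset.mul_sum, mul_assoc]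
  refine Finset.sum_congr rfl fun p _ => ?_
  rw [MvPolynomial.C_mul', map_smul, map_smul, gE_X_mul (vk_ne hk), vk_cast, smul_eq_mul,
    smul_eq_mul]
  ring

/-- The Schwinger-Dyson recursion. -/
lemma gE_prodTr_cons (hk : 0 < k) (j : K) (w : List K) (ws : List (List K)) :
    gE (vk k) (prodTr k ((j :: w) :: ws)) =
      sumSplit w (fun g i r => if i = j then gE (vk k) (prodTr k (g :: r :: ws)) else 0) +
        ((k : ℂ) ^ 2)⁻¹ * gE (vk k) (crossTerms k j w [] ws) := by
  have hk' : (k : ℂ) ≠ 0 := by exact_mod_cast hk.ne'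
  have h1 : prodTr k ((j :: w) :: ws) =
      (k : ℂ)⁻¹ • ∑ a, ∑ b, MP j a b * ((WP k w) b a * prodTr k ws) := by
    rw [prodTr_cons, trP, show WP k (j :: w) = MP j * WP k w from List.prod_cons,
      MvPolynomial.smul_eq_C_mul, mul_assoc, Matrix.trace]
    simp only [Matrix.diag, Matrix.mul_apply, Finset.sum_mul, mul_assoc]
  rw [h1]
  simp only [map_smul, map_sum, gE_MP_mul hk, Derivation.leibniz, smul_eq_mul, map_add, mul_add,
    Finset.sum_add_distrib]
  rw [add_comm]
  congr 1
  · have hsplit : ∀ a b, prodTr k ws * entryD j a b ((WP k w) b a) = sumSplit w (fun g i r =>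
        if i = j then prodTr k ws * ((WP k g) b b * (WP k r) a a) else 0) := by
      intro a b
      have hmap : entryD j a b ((WP k w) b a) = ((WP k w).map (entryD j a b)) b a := rfl
      have h2 : ∀ f, (sumSplit w f : Matrix (Fin k) (Fin k) (MvPolynomial (Crd K k) ℂ)) b a =
          sumSplit w (fun g i r => f g i r b a) := fun f =>
        map_sumSplit ((Pi.evalAddMonoidHom (fun _ : Fin k => MvPolynomial (Crd K k) ℂ) a).comp
          (Pi.evalAddMonoidHom (fun _ : Fin k => Fin k → MvPolynomial (Crd K k) ℂ) b)) w f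
      rw [hmap, map_entryD_WP, h2, mul_sumSplit]
      refine sumSplit_congr fun g i r _ => ?_
      by_cases hi : i = j
      · simp [if_pos hi, Matrix.mul_apply, Matrix.single_apply, Finset.sum_ite_eq, ite_and]
      · simp [hi]
    have hcomm : ∀ (F : Fin k → List K → K → List K → ℂ),
        ∑ a, sumSplit w (F a) = sumSplit w (fun g i r => ∑ a, F a g i r) := by
      intro F
      induction (Finset.univ : Finset (Fin k)) using Finset.induction_on with
      | empty => simp [sumSplit_zero]
      | insert a s ha ih => simp only [Finset.sum_insert ha, ih, sumSplit_add]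
    simp only [hsplit, map_sumSplit, mul_sumSplit, hcomm]
    refine sumSplit_congr fun g i r _ => ?_
    by_cases hi : i = j
    · simp only [if_pos hi]
      rw [prodTr_cons, prodTr_cons, trP, trP, MvPolynomial.C_mul', MvPolynomial.C_mul',
        smul_mul_assoc, smul_mul_assoc, mul_smul_comm, map_smul, map_smul]
      simp only [Matrix.trace, Matrix.diag, Finset.sum_mul, Finset.mul_sum, map_sum, smul_eq_mul]
      refine Finset.sum_congr rfl fun b _ => Finset.sum_congr rfl fun a _ => ?_
      rw [mul_comm (prodTr k ws), mul_assoc]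
    · simp [hi]
  · rw [← sum_cross j w ws []]
    simp only [prodTr, List.map_nil, List.prod_nil, one_mul, map_sum, Finset.mul_sum]
    refine Finset.sum_congr rfl fun a _ => Finset.sum_congr rfl fun b _ => ?_
    rw [pow_two, mul_inv]
    ring

lemma tendsto_sumSplit {w : List K} {F : ℕ → List K → K → List K → ℂ}
    {f : List K → K → List K → ℂ}
    (h : ∀ g i r, g ++ i :: r = w → Tendsto (fun n => F n g i r) atTop (𝓝 (f g i r))) :
    Tendsto (fun n => sumSplit w (F n)) atTop (𝓝 (sumSplit w f)) := by
  induction w generalizing F f with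
  | nil => simp
  | cons a t ih =>
    simp only [sumSplit_cons]
    exact (h [] a t rfl).add (ih fun g i r hg => h (a :: g) i r (by simp [hg]))

/-- The size of a list of words. -/
def wsize (ws : List (List K)) : ℕ := (ws.map fun w => w.length + 1).sum

/-- Convergence of all mixed moments. -/
lemma tendsto_prodTr : ∀ (n : ℕ) (ws : List (List K)), wsize ws ≤ n →
    Tendsto (fun k => gE (vk k) (prodTr k ws)) atTop (𝓝 (ws.map fockMoment).prod) := by
  intro n
  induction n with
  | zero =>
    intro ws hws
    cases ws with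
    | nil =>
      simp only [prodTr, List.map_nil, List.prod_nil, ← MvPolynomial.C_1, gE_C]
      exact tendsto_const_nhds
    | cons V rest => simp [wsize] at hws
  | succ n ih =>
    intro ws hws
    cases ws with
    | nil => exact ih [] (by simp [wsize])
    | cons V rest =>
      cases V with
      | nil =>
        have hr : wsize rest ≤ n := by simp [wsize] at hws ⊢; omega
        rw [List.map_cons, List.prod_cons, fockMoment_nil, one_mul]
        refine (ih rest hr).congr' ?_
        filter_upwards [eventually_gt_atTop 0] with k hk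
        have hk' : (k : ℂ) ≠ 0 := by exact_mod_cast hk.ne'
        have : trP k ([] : List K) = 1 := by
          rw [trP, WP, List.map_nil, List.prod_nil, Matrix.trace_one, Fintype.card_fin,
            ← map_natCast (MvPolynomial.C (σ := Crd K k) (R := ℂ)), ← MvPolynomial.C_mul,
            inv_mul_cancel₀ hk', MvPolynomial.C_1]
        rw [prodTr_cons, this, one_mul]
      | cons j w =>
        simp only [wsize, List.map_cons, List.sum_cons, List.length_cons] at hws
        have h1 : Tendsto (fun k => sumSplit w (fun g i r =>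
            if i = j then gE (vk k) (prodTr k (g :: r :: rest)) else 0)) atTop
            (𝓝 (sumSplit w (fun g i r =>
              if i = j then fockMoment g * fockMoment r * (rest.map fockMoment).prod else 0))) := by
          refine tendsto_sumSplit fun g i r h => ?_
          have hl := congrArg List.length h
          simp only [List.length_append, List.length_cons] at hl
          split_ifs
          · have := ih (g :: r :: rest) (by simp only [wsize, List.map_cons, List.sum_cons]; omega)
            simpa [mul_assoc] using this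
          · exact tendsto_const_nhds
        have hM : ∀ (post pre : List (List K)),
            wsize pre + wsize post ≤ wsize rest →
            ∃ l, Tendsto (fun k => gE (vk k) (crossTerms k j w pre post)) atTop (𝓝 l) := by
          intro post
          induction post with
          | nil => intro pre _; exact ⟨0, by simp [crossTerms]⟩
          | cons V post ihp =>
            intro pre hsz
            obtain ⟨l, hl⟩ := ihp (pre ++ [V]) (by simp [wsize] at hsz ⊢; omega)
            refine ⟨sumSplit V (fun g i r => if i = j then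
              (((w ++ (r ++ g)) :: (pre ++ post)).map fockMoment).prod else 0) + l, ?_⟩
            simp only [crossTerms, map_add, map_sumSplit]
            refine (tendsto_sumSplit fun g i r h => ?_).add hl
            have hl := congrArg List.length h
            simp only [List.length_append, List.length_cons] at hl
            split_ifs
            · exact ih _ (by simp [wsize] at hsz hws ⊢; omega)
            · simp
        obtain ⟨l, hl⟩ := hM rest [] (by simp [wsize])
        have h2 : Tendsto (fun k : ℕ => ((k : ℂ) ^ 2)⁻¹ * gE (vk k) (crossTerms k j w [] rest))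
            atTop (𝓝 0) := by
          have h0 : Tendsto (fun k : ℕ => ((k : ℂ) ^ 2)⁻¹) atTop (𝓝 0) := by
            have := (tendsto_inv_atTop_nhds_zero_nat (𝕜 := ℂ)).pow 2
            simpa [inv_pow] using this
          simpa using h0.mul hl
        have h3 := h1.add h2
        rw [add_zero] at h3
        have heq : (((j :: w) :: rest).map fockMoment).prod = sumSplit w (fun g i r =>
            if i = j then fockMoment g * fockMoment r * (rest.map fockMoment).prod else 0) := by
          rw [List.map_cons, List.prod_cons, fockMoment_cons, sumSplit_mul]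
          exact sumSplit_congr fun g i r _ => by split_ifs <;> simp
        rw [heq]
        refine h3.congr' ?_
        filter_upwards [eventually_gt_atTop 0] with k hk
        exact (gE_prodTr_cons hk j w rest).symm

lemma evR_trP (x : Crd K k → ℝ) (w : List K) :
    evR x (trP k w) = ((w.map fun j => hermMatrix (coords x j)).prod).trace / (k : ℂ) := by
  have hm : ∀ j, (MP j).map (MvPolynomial.eval fun c => (x c : ℂ)) = hermMatrix (coords x j) := by
    intro j
    ext a b
    simp [MP, coords, hermMatrix_eq_sum (WithLp.toLp 2 fun p => x (j, p)) a b, mul_comm]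
  have h : (WP k w).map (MvPolynomial.eval fun c => (x c : ℂ)) =
      (w.map fun j => hermMatrix (coords x j)).prod := by
    show (MvPolynomial.eval fun c => (x c : ℂ)).mapMatrix (WP k w) = _
    rw [WP, map_list_prod, List.map_map]
    congr 2
    funext j
    exact hm j
  rw [evR, trP, map_mul, MvPolynomial.eval_C, ← h, div_eq_inv_mul]
  simp [Matrix.trace, map_sum]

lemma evR_trP_reverse (x : Crd K k → ℝ) (w : List K) :
    evR x (trP k w.reverse) = (starRingEnd ℂ) (evR x (trP k w)) := by
  rw [evR_trP, evR_trP, map_div₀, Complex.conj_natCast, ← Complex.star_def,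
    ← Matrix.trace_conjTranspose]
  congr 2
  induction w with
  | nil => simp
  | cons j w ih =>
    rw [List.reverse_cons, List.map_append, List.prod_append, ih]
    simp [Matrix.conjTranspose_mul, hermMatrix_isHermitian]

/-- The trace of a word is close to its limit with high probability. -/
lemma tendsto_moment_tail (w : List K) {δ : ℝ} (hδ : 0 < δ) :
    Tendsto (fun k => gauss (Crd K k) (vk k)
      {x | δ ≤ ‖((w.map fun j => hermMatrix (coords x j)).prod).trace / (k : ℂ) - fockMoment w‖})
      atTop (𝓝 0) := by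
  set τ := fockMoment w
  have h1 := tendsto_prodTr (wsize [w, w.reverse]) [w, w.reverse] le_rfl
  have h2 := tendsto_prodTr (wsize [w]) [w] le_rfl
  have h3 := tendsto_prodTr (wsize [w.reverse]) [w.reverse] le_rfl
  simp only [List.map_cons, List.map_nil, List.prod_cons, List.prod_nil, mul_one,
    fockMoment_reverse] at h1 h2 h3
  have hQ : Tendsto (fun k => gE (vk k) (prodTr k [w, w.reverse]) -
      (starRingEnd ℂ) τ * gE (vk k) (prodTr k [w]) - τ * gE (vk k) (prodTr k [w.reverse]) +
      τ * (starRingEnd ℂ) τ) atTop (𝓝 0) := by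
    have := ((h1.sub (h2.const_mul ((starRingEnd ℂ) τ))).sub (h3.const_mul τ)).add_const
      (τ * (starRingEnd ℂ) τ)
    rw [fockMoment_real w.length w le_rfl] at this ⊢
    simpa using this
  have hre := (Complex.continuous_re.tendsto 0).comp hQ
  rw [Complex.zero_re] at hre
  have hb : ∀ k, gauss (Crd K k) (vk k)
      {x | δ ≤ ‖((w.map fun j => hermMatrix (coords x j)).prod).trace / (k : ℂ) - τ‖} ≤
      ENNReal.ofReal ((gE (vk k) (prodTr k [w, w.reverse]) -
      (starRingEnd ℂ) τ * gE (vk k) (prodTr k [w]) - τ * gE (vk k) (prodTr k [w.reverse]) +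
      τ * (starRingEnd ℂ) τ).re / δ ^ 2) := by
    intro k
    set f : (Crd K k → ℝ) → ℂ := fun x => evR x (trP k w) - τ
    set P : MvPolynomial (Crd K k) ℂ := prodTr k [w, w.reverse] -
      MvPolynomial.C ((starRingEnd ℂ) τ) * prodTr k [w] -
      MvPolynomial.C τ * prodTr k [w.reverse] + MvPolynomial.C (τ * (starRingEnd ℂ) τ)
    have hP : ∀ x, evR x P = ((‖f x‖ ^ 2 : ℝ) : ℂ) := by
      intro x
      rw [Complex.ofReal_pow, ← Complex.mul_conj']
      simp only [P, f, evR, prodTr, List.map_cons, List.map_nil, List.prod_cons, List.prod_nil,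
        mul_one, map_sub, map_add, map_mul, MvPolynomial.eval_C]
      have := evR_trP_reverse x w
      rw [evR] at this
      rw [this]
      simp only [evR]
      ring
    have hint : Integrable (fun x => ‖f x‖ ^ 2) (gauss (Crd K k) (vk k)) := by
      have := (integrable_evR (vk k) P).re
      refine this.congr (Filter.Eventually.of_forall fun x => ?_)
      show (evR x P).re = _
      rw [hP x, Complex.ofReal_re]
    have hE : gE (vk k) P = ((∫ x, ‖f x‖ ^ 2 ∂(gauss (Crd K k) (vk k)) : ℝ) : ℂ) := by
      rw [gE_apply, ← integral_complex_ofReal]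
      exact integral_congr_ae (Filter.Eventually.of_forall hP)
    have hPeq : gE (vk k) P = gE (vk k) (prodTr k [w, w.reverse]) -
      (starRingEnd ℂ) τ * gE (vk k) (prodTr k [w]) - τ * gE (vk k) (prodTr k [w.reverse]) +
      τ * (starRingEnd ℂ) τ := by
      simp only [P, map_add, map_sub, gE_C, MvPolynomial.C_mul', map_smul, smul_eq_mul]
    rw [← hPeq, hE, Complex.ofReal_re, ← integral_div,
      ofReal_integral_eq_lintegral_ofReal (hint.div_const _)
        (Filter.Eventually.of_forall fun x => by positivity)]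
    rw [← lintegral_indicator_one (measurableSet_le measurable_const (by
      refine (Continuous.measurable ?_)
      have : Continuous fun x : Crd K k → ℝ => ‖evR x (trP k w) - τ‖ :=
        ((continuous_evR _).sub continuous_const).norm
      simpa only [evR_trP] using this))]
    refine lintegral_mono fun x => ?_
    rw [Set.indicator_apply]
    split_ifs with hx
    · rw [Pi.one_apply, ENNReal.one_le_ofReal, one_le_div (by positivity)]
      refine pow_le_pow_left₀ hδ.le ?_ 2
      simpa only [f, evR_trP, Set.mem_ofPred_eq] using hx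
    · exact bot_le
  refine tendsto_of_tendsto_of_tendsto_of_le_of_le tendsto_const_nhds ?_ (fun k => bot_le) hb
  have := ENNReal.tendsto_ofReal (hre.div_const (δ ^ 2))
  simpa using this

/-! ### The operator norm -/

lemma exists_net (k : ℕ) : ∃ N : Finset (EuclideanSpace ℂ (Fin k)),
    (∀ v ∈ N, ‖v‖ = 1) ∧ (N.card : ℝ) ≤ 9 ^ (2 * k) ∧
      ∀ v : EuclideanSpace ℂ (Fin k), ‖v‖ = 1 → ∃ w ∈ N, ‖v - w‖ ≤ 1 / 4 := by
  classical
  let E := EuclideanSpace ℂ (Fin k)
  let P : Finset E → Prop := fun N => (∀ v ∈ N, ‖v‖ = 1) ∧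
    ((N : Set E).Pairwise fun v w => 1 / 4 < ‖v - w‖)
  borelize E
  let μ : Measure E := Measure.addHaar
  have hfin : Module.finrank ℝ E = 2 * k := by
    rw [finrank_real_of_complex, finrank_euclideanSpace, Fintype.card_fin]
  have hbound : ∀ N, P N → (N.card : ℝ) ≤ 9 ^ (2 * k) := by
    intro N hN
    have hd : (N : Set E).PairwiseDisjoint fun v => Metric.ball v (1 / 8) := by
      intro v hv w hw hne
      refine Metric.ball_disjoint_ball ?_
      rw [dist_eq_norm]
      linarith [hN.2 hv hw hne]
    have h1 : ∑ v ∈ N, μ (Metric.ball v (1 / 8)) ≤ μ (Metric.ball 0 (9 / 8)) := by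
      rw [← measure_biUnion_finset hd (fun v _ => measurableSet_ball)]
      refine measure_mono (Set.iUnion₂_subset fun v hv x hx => ?_)
      rw [Metric.mem_ball, dist_zero_right]
      rw [Metric.mem_ball, dist_eq_norm] at hx
      calc ‖x‖ ≤ ‖v‖ + ‖x - v‖ := by simpa using norm_add_le v (x - v)
        _ < 9 / 8 := by rw [hN.1 v hv]; linarith
    simp only [μ.addHaar_ball_of_pos _ (show (0 : ℝ) < 1 / 8 by norm_num),
      μ.addHaar_ball_of_pos _ (show (0 : ℝ) < 9 / 8 by norm_num), Finset.sum_const,
      nsmul_eq_mul, hfin, ← mul_assoc] at h1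
    have h0 : μ (Metric.ball 0 1) ≠ 0 := (Metric.measure_ball_pos μ 0 one_pos).ne'
    have ht : μ (Metric.ball 0 1) ≠ ⊤ := measure_ball_lt_top.ne
    have h2 := (ENNReal.mul_le_mul_iff_left h0 ht).1 h1
    rw [← ENNReal.ofReal_natCast, ← ENNReal.ofReal_mul (Nat.cast_nonneg _),
      ENNReal.ofReal_le_ofReal_iff (by positivity)] at h2
    rw [div_pow, div_pow, one_pow] at h2
    field_simp at h2
    exact h2
  set B : ℕ := 9 ^ (2 * k)
  have hex : ∃ N : Finset E, P N ∧ ∀ N', P N' → N'.card ≤ N.card := by
    let s : Set ℕ := {c | ∃ N, P N ∧ N.card = c}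
    have hs : s.Nonempty := ⟨0, ∅, ⟨by simp, by simp⟩, rfl⟩
    have hsb : BddAbove s := ⟨B, by
      rintro c ⟨N, hN, rfl⟩
      have := hbound N hN
      exact_mod_cast this⟩
    obtain ⟨N, hN, hc⟩ := Nat.sSup_mem hs hsb
    exact ⟨N, hN, fun N' hN' => hc ▸ le_csSup hsb ⟨N', hN', rfl⟩⟩
  obtain ⟨N, hN, hmax⟩ := hex
  refine ⟨N, hN.1, hbound N hN, fun v hv => ?_⟩
  by_contra hc
  simp only [not_exists, not_and, not_le] at hc
  have hvN : v ∉ N := fun h => by
    have := hc v h
    simp at this
    linarith
  have := hmax (insert v N) ⟨by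
    intro w hw
    rcases Finset.mem_insert.1 hw with rfl | hw
    · exact hv
    · exact hN.1 w hw, by
    rw [Finset.coe_insert, Set.pairwise_insert]
    exact ⟨hN.2, fun w hw _ => ⟨hc w hw, by rw [norm_sub_rev]; exact hc w hw⟩⟩⟩
  rw [Finset.card_insert_of_notMem hvN] at this
  omega

lemma opNorm_le_of_net {E : Type} [NormedAddCommGroup E] [InnerProductSpace ℂ E] {A : E →L[ℂ] E}
    {r : ℝ} (hr : 0 ≤ r) (N : Finset E) (hN : ∀ v ∈ N, ‖v‖ = 1)
    (hnet : ∀ v : E, ‖v‖ = 1 → ∃ w ∈ N, ‖v - w‖ ≤ 1 / 4)
    (h : ∀ u ∈ N, ∀ v ∈ N, |(inner ℂ u (A v)).re| ≤ r) : ‖A‖ ≤ 2 * r := by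
  have key : ∀ v : E, ‖v‖ = 1 → ‖A v‖ ≤ r + ‖A‖ / 2 := by
    intro v hv
    by_cases h0 : A v = 0
    · rw [h0, norm_zero]; positivity
    set u : E := ((‖A v‖ : ℂ)⁻¹) • A v
    have hu : ‖u‖ = 1 := by
      rw [norm_smul, norm_inv, Complex.norm_real, norm_norm]
      exact inv_mul_cancel₀ (norm_ne_zero_iff.2 h0)
    have he : (inner ℂ u (A v)).re = ‖A v‖ := by
      rw [inner_smul_left, inner_self_eq_norm_sq_to_K, map_inv₀, Complex.conj_ofReal]
      have : ((‖A v‖ : ℂ)⁻¹) * ((‖A v‖ : ℂ)) ^ 2 = (‖A v‖ : ℂ) := by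
        field_simp
      exact congrArg Complex.re this
    obtain ⟨u', hu', hd1⟩ := hnet u hu
    obtain ⟨v', hv', hd2⟩ := hnet v hv
    have hsplit : inner ℂ u (A v) =
        inner ℂ u' (A v') + inner ℂ (u - u') (A v) + inner ℂ u' (A (v - v')) := by
      rw [inner_sub_left, map_sub, inner_sub_right]; ring
    rw [← he, hsplit, Complex.add_re, Complex.add_re]
    have b1 : (inner ℂ u' (A v')).re ≤ r := (le_abs_self _).trans (h u' hu' v' hv')
    have b2 : (inner ℂ (u - u') (A v)).re ≤ 1 / 4 * ‖A‖ := by
      refine ((Complex.re_le_norm _).trans (norm_inner_le_norm (𝕜 := ℂ) _ _)).trans ?_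
      refine mul_le_mul hd1 ?_ (norm_nonneg _) (by norm_num)
      simpa [hv] using A.le_opNorm v
    have b3 : (inner ℂ u' (A (v - v'))).re ≤ 1 / 4 * ‖A‖ := by
      refine ((Complex.re_le_norm _).trans (norm_inner_le_norm (𝕜 := ℂ) _ _)).trans ?_
      rw [hN u' hu', one_mul, mul_comm]
      exact (A.le_opNorm _).trans (mul_le_mul_of_nonneg_left hd2 (norm_nonneg _))
    linarith
  have : ‖A‖ ≤ r + ‖A‖ / 2 := by
    refine ContinuousLinearMap.opNorm_le_bound _ (by positivity) fun v => ?_
    by_cases hv : v = 0
    · subst hv; simp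
    have hn : 0 < ‖v‖ := norm_pos_iff.2 hv
    have := key (((‖v‖ : ℂ)⁻¹) • v) (by
      rw [norm_smul, norm_inv, Complex.norm_real, norm_norm]; exact inv_mul_cancel₀ hn.ne')
    rw [map_smul, norm_smul, norm_inv, Complex.norm_real, norm_norm, inv_mul_le_iff₀ hn] at this
    rw [mul_comm]; exact this
  linarith

lemma re_inner_hermMatrix (u v : EuclideanSpace ℂ (Fin k)) (x : EuclideanSpace ℝ (Fin k × Fin k)) :
    (inner ℂ u (Matrix.toEuclideanCLM (𝕜 := ℂ) (hermMatrix x) v)).re =
      ∑ p, (vecHerm (Matrix.of fun i j => u i * (starRingEnd ℂ) (v j))) p * x p := by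
  have h := inner_vecHerm x (Matrix.of fun i j => u i * (starRingEnd ℂ) (v j))
  rw [PiLp.inner_apply] at h
  simp only [RCLike.inner_apply, conj_trivial] at h
  rw [h, PiLp.inner_apply, Complex.re_sum]
  refine Finset.sum_congr rfl fun i _ => ?_
  simp only [RCLike.inner_apply, Matrix.ofLp_toEuclideanCLM, Matrix.mulVec, dotProduct,
    Finset.sum_mul, Complex.re_sum]
  refine Finset.sum_congr rfl fun j _ => ?_
  simp only [Matrix.of_apply]
  rw [← Complex.conj_re]
  congr 1
  simp only [map_mul, Complex.conj_conj]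
  ring

/-- The operator norms are bounded with high probability. -/
lemma tendsto_norm_tail : Tendsto (fun k => gauss (Crd K k) (vk k)
    {x | ∃ j, 20 < ‖Matrix.toEuclideanCLM (𝕜 := ℂ) (hermMatrix (coords x j))‖}) atTop (𝓝 0) := by
  set M : ℝ := (Fintype.card K : ℝ)
  have hb : ∀ k, 0 < k → gauss (Crd K k) (vk k)
      {x | ∃ j, 20 < ‖Matrix.toEuclideanCLM (𝕜 := ℂ) (hermMatrix (coords x j))‖} ≤
      ENNReal.ofReal (2 * M * ((9 : ℝ) ^ 4 * Real.exp (-50)) ^ k) := by
    intro k hk
    obtain ⟨N, hN1, hN2, hN3⟩ := exists_net k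
    let a : K → EuclideanSpace ℂ (Fin k) → EuclideanSpace ℂ (Fin k) → Crd K k → ℝ := fun j u v c =>
      if c.1 = j then (vecHerm (Matrix.of fun i l => u i * (starRingEnd ℂ) (v l))) c.2 else 0
    have hsum : ∀ j u v (x : Crd K k → ℝ), ∑ c, a j u v c * x c =
        (inner ℂ u (Matrix.toEuclideanCLM (𝕜 := ℂ) (hermMatrix (coords x j)) v)).re := by
      intro j u v x
      rw [re_inner_hermMatrix, Fintype.sum_prod_type]
      simp [a, coords, ite_mul]
    have hsub : {x : Crd K k → ℝ | ∃ j, 20 <
        ‖Matrix.toEuclideanCLM (𝕜 := ℂ) (hermMatrix (coords x j))‖} ⊆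
        ⋃ p ∈ (Finset.univ : Finset K) ×ˢ N ×ˢ N, {x | 10 ≤ |∑ c, a p.1 p.2.1 p.2.2 c * x c|} := by
      intro x hx
      obtain ⟨j, hj⟩ := hx
      by_contra hc
      simp only [Set.mem_iUnion, not_exists, Finset.mem_product, Finset.mem_univ, true_and,
        Set.mem_ofPred_eq, not_le] at hc
      refine absurd (opNorm_le_of_net (by norm_num : (0 : ℝ) ≤ 10) N hN1 hN3 fun u hu v hv => ?_)
        (by norm_num; exact hj)
      rw [← hsum]
      exact (hc (j, u, v) ⟨hu, hv⟩).le
    have hvk : (vk k : ℝ) = (k : ℝ)⁻¹ := by simp [vk]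
    refine (measure_mono hsub).trans ((measure_biUnion_finset_le _ _).trans ?_)
    refine (Finset.sum_le_card_nsmul _ _ (ENNReal.ofReal (2 * Real.exp (-(50 : ℝ) * k)))
      fun p hp => ?_).trans ?_
    · simp only [Finset.mem_product, Finset.mem_univ, true_and] at hp
      refine (gauss_tail (vk_ne hk) _ ?_ (by norm_num : (0 : ℝ) < 10)).trans (le_of_eq ?_)
      · rw [Fintype.sum_prod_type, Finset.sum_eq_single p.1]
        · simp only [a, if_true]
          have h := norm_sub_vecHerm_sq_le 0 (Matrix.of fun i l => p.2.1 i * (starRingEnd ℂ) (p.2.2 l))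
          rw [zero_sub, norm_neg, EuclideanSpace.norm_sq_eq] at h
          simp only [Real.norm_eq_abs, sq_abs] at h
          refine h.trans (le_of_eq ?_)
          have h0 : hermMatrix (0 : EuclideanSpace ℝ (Fin k × Fin k)) = 0 := (hermLin k).map_zero
          simp only [h0, Matrix.zero_apply, zero_sub, norm_neg, Matrix.of_apply, norm_mul,
            RCLike.norm_conj, mul_pow, ← Finset.mul_sum, ← Finset.sum_mul]
          rw [← EuclideanSpace.norm_sq_eq, ← EuclideanSpace.norm_sq_eq, hN1 _ hp.1, hN1 _ hp.2]
          norm_num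
        · intro b _ hb; simp [a, hb]
        · simp
      · congr 3
        rw [hvk]; field_simp; ring
    · rw [nsmul_eq_mul, Finset.card_product, Finset.card_product, Finset.card_univ,
        ← ENNReal.ofReal_natCast, ← ENNReal.ofReal_mul (Nat.cast_nonneg _)]
      refine ENNReal.ofReal_le_ofReal ?_
      push_cast
      have hN4 : (N.card : ℝ) * N.card ≤ ((9 : ℝ) ^ 4) ^ k := by
        refine (mul_le_mul hN2 hN2 (Nat.cast_nonneg _) (by positivity)).trans (le_of_eq ?_)
        rw [← pow_mul, ← pow_add]; congr 1; omega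
      rw [show Real.exp (-(50 : ℝ) * k) = Real.exp (-50) ^ k by rw [← Real.exp_nat_mul, mul_comm],
        mul_pow]
      calc M * ((N.card : ℝ) * N.card) * (2 * Real.exp (-50) ^ k)
          ≤ M * ((9 : ℝ) ^ 4) ^ k * (2 * Real.exp (-50) ^ k) := by gcongr
        _ = _ := by ring
  have hq : (9 : ℝ) ^ 4 * Real.exp (-50) < 1 := by
    rw [Real.exp_neg, ← div_eq_mul_inv, div_lt_one (Real.exp_pos _)]
    have : (9 : ℝ) ^ 4 < 2 ^ 50 := by norm_num
    refine this.trans_le ?_
    rw [show Real.exp 50 = Real.exp 1 ^ 50 by rw [← Real.exp_nat_mul]; norm_num]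
    exact pow_le_pow_left₀ two_pos.le (by linarith [Real.add_one_le_exp 1]) 50
  have hlim : Tendsto (fun k => ENNReal.ofReal (2 * M * ((9 : ℝ) ^ 4 * Real.exp (-50)) ^ k)) atTop
      (𝓝 0) := by
    have := ENNReal.tendsto_ofReal
      ((tendsto_pow_atTop_nhds_zero_of_lt_one (by positivity) hq).const_mul (2 * M))
    simpa using this
  exact tendsto_of_tendsto_of_tendsto_of_le_of_le' tendsto_const_nhds hlim
    (Eventually.of_forall fun k => bot_le) ((eventually_gt_atTop 0).mono hb)

/-- The good set of Gaussian matrices. -/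
def goodSet (K : Type) [Fintype K] [DecidableEq K] (m : ℕ) (δ : ℝ) (k : ℕ) : Set (Crd K k → ℝ) :=
  {x | (∀ j, ‖Matrix.toEuclideanCLM (𝕜 := ℂ) (hermMatrix (coords x j))‖ ≤ 20) ∧
    ∀ w : List K, w.length ≤ m →
      ‖((w.map fun j => hermMatrix (coords x j)).prod).trace / (k : ℂ) - fockMoment w‖ < δ}

lemma eventually_goodSet (m : ℕ) {δ : ℝ} (hδ : 0 < δ) :
    ∀ᶠ k in atTop, (1 / 2 : ℝ≥0∞) ≤ gauss (Crd K k) (vk k) (goodSet K m δ k) := by
  set Wd : Finset (List K) := (Finset.range (m + 1)).biUnion (words K)
  have h1 : Tendsto (fun k => gauss (Crd K k) (vk k)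
      {x | ∃ j, 20 < ‖Matrix.toEuclideanCLM (𝕜 := ℂ) (hermMatrix (coords x j))‖} +
      ∑ w ∈ Wd, gauss (Crd K k) (vk k) {x | δ ≤
        ‖((w.map fun j => hermMatrix (coords x j)).prod).trace / (k : ℂ) - fockMoment w‖})
      atTop (𝓝 0) := by
    have := (tendsto_norm_tail (K := K)).add
      (tendsto_finsetSum Wd fun w _ => tendsto_moment_tail w hδ)
    simpa using this
  filter_upwards [h1.eventually_lt_const (show (0 : ℝ≥0∞) < 1 / 2 by simp)] with k hk
  have hcover : (Set.univ : Set (Crd K k → ℝ)) ⊆ goodSet K m δ k ∪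
      ({x | ∃ j, 20 < ‖Matrix.toEuclideanCLM (𝕜 := ℂ) (hermMatrix (coords x j))‖} ∪
      ⋃ w ∈ Wd, {x | δ ≤
        ‖((w.map fun j => hermMatrix (coords x j)).prod).trace / (k : ℂ) - fockMoment w‖}) := by
    intro x _
    by_cases h : x ∈ goodSet K m δ k
    · exact Or.inl h
    refine Or.inr ?_
    by_cases hn : ∃ j, 20 < ‖Matrix.toEuclideanCLM (𝕜 := ℂ) (hermMatrix (coords x j))‖
    · exact Or.inl hn
    refine Or.inr ?_
    simp only [not_exists, not_lt] at hn
    have hw : ¬ ∀ w : List K, w.length ≤ m →
        ‖((w.map fun j => hermMatrix (coords x j)).prod).trace / (k : ℂ) - fockMoment w‖ < δ :=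
      fun hw => h ⟨hn, hw⟩
    simp only [not_forall, not_lt] at hw
    obtain ⟨w, hl, hw⟩ := hw
    refine Set.mem_biUnion (x := w) ?_ hw
    exact Finset.mem_biUnion.2 ⟨w.length, Finset.mem_range.2 (Nat.lt_succ_of_le hl), mem_words.2 rfl⟩
  have h2 := (measure_mono hcover).trans ((measure_union_le (μ := gauss (Crd K k) (vk k)) _ _).trans
    (add_le_add le_rfl ((measure_union_le _ _).trans
      (add_le_add le_rfl (measure_biUnion_finset_le _ _)))))
  rw [measure_univ] at h2
  by_contra hc
  rw [not_le] at hc
  have h3 := h2.trans_lt (ENNReal.add_lt_add hc hk)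
  rw [ENNReal.add_halves] at h3
  exact lt_irrefl _ h3

lemma measurableSet_goodSet (m : ℕ) (δ : ℝ) (k : ℕ) : MeasurableSet (goodSet K m δ k) := by
  have hc : ∀ j : K, Continuous fun x : Crd K k → ℝ => hermMatrix (coords x j) := fun j =>
    continuous_hermMatrix.comp ((PiLp.continuous_toLp 2 _).comp
      (continuous_pi fun p => continuous_apply (j, p)))
  unfold goodSet
  rw [Set.ofPred_and, Set.ofPred_forall, Set.ofPred_forall]
  refine (MeasurableSet.iInter fun j => measurableSet_le (Continuous.measurable ?_)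
    measurable_const).inter (MeasurableSet.iInter fun w => ?_)
  · exact (LinearMap.continuous_of_finiteDimensional
      ((Matrix.toEuclideanCLM (n := Fin k) (𝕜 := ℂ)).toAlgEquiv.toLinearMap)).norm.comp (hc j)
  · by_cases hw : w.length ≤ m
    · simp only [hw, forall_const]
      refine measurableSet_lt (Continuous.measurable ?_) measurable_const
      have : Continuous fun x : Crd K k → ℝ => ‖evR x (trP k w) - fockMoment w‖ :=
        ((continuous_evR _).sub continuous_const).norm
      simpa only [evR_trP] using this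
    · simp [hw]

end Vale.Agent.P087
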