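import Mathlib

/-! Free Wick polynomials. -/

namespace Vale.Agent.P087

variable {α : Type} {A : Type*} [Ring A]

/-- The free Wick polynomial of a word, evaluated at `X`. -/
def wick [DecidableEq α] (X : α → A) : List α → A
  | [] => 1
  | [j] => X j
  | j :: a :: t => X j * wick X (a :: t) - if a = j then wick X t else 0

lemma map_wick [DecidableEq α] {B : Type*} [Ring B] {F : Type*} [FunLike F A B]
    [RingHomClass F A B] (φ : F) (X : α → A) :
    ∀ w : List α, φ (wick X w) = wick (fun j => φ (X j)) w
  | [] => map_one φ
  | [j] => rfl
  | j :: a :: t => by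
    simp only [wick, map_sub, map_mul]
    rw [map_wick φ X (a :: t)]
    by_cases h : a = j
    · simp only [if_pos h, map_wick φ X t]
    · simp only [if_neg h, map_zero]

lemma wick_comp [DecidableEq α] {β : Type} [DecidableEq β] (f : α → β) (hf : Function.Injective f)
    (X : β → A) : ∀ w : List α, wick (fun j => X (f j)) w = wick X (w.map f)
  | [] => rfl
  | [j] => rfl
  | j :: a :: t => by
    simp only [wick, List.map_cons]
    rw [wick_comp f hf X (a :: t), List.map_cons, wick_comp f hf X t]
    by_cases h : a = j
    · rw [if_pos h, if_pos (congrArg f h)]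
    · rw [if_neg h, if_neg (fun hh => h (hf hh))]

lemma wick_mem [DecidableEq α] {σ : Type*} [SetLike σ A] [SubringClass σ A] (S : σ) (X : α → A)
    (hX : ∀ j, X j ∈ S) : ∀ w : List α, wick X w ∈ S
  | [] => one_mem S
  | [j] => hX j
  | j :: a :: t => by
    simp only [wick]
    refine sub_mem (mul_mem (hX j) (wick_mem S X hX (a :: t))) ?_
    split_ifs
    · exact wick_mem S X hX t
    · exact zero_mem S

set_option linter.unusedSectionVars false

variable [StarRing A]

/-- The product of creators along a word. -/
def lprod (l : α → A) (u : List α) : A := (u.map l).prod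

/-- The normally ordered expansion of a Wick polynomial. -/
def wickOp (l : α → A) (w : List α) : A :=
  ∑ s ∈ Finset.range (w.length + 1), lprod l (w.take s) * star (lprod l (w.drop s).reverse)

@[simp] lemma lprod_nil (l : α → A) : lprod l [] = 1 := rfl

@[simp] lemma lprod_cons (l : α → A) (a : α) (u : List α) :
    lprod l (a :: u) = l a * lprod l u := by simp [lprod]

lemma lprod_append (l : α → A) (u v : List α) : lprod l (u ++ v) = lprod l u * lprod l v := by
  simp [lprod]

lemma star_lprod_mul_lprod [DecidableEq α] (l : α → A)
    (hl : ∀ i j, star (l i) * l j = if i = j then 1 else 0) :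
    ∀ u v : List α, u.length = v.length →
      star (lprod l u) * lprod l v = if u = v then 1 else 0 := by
  intro u
  induction u with
  | nil =>
    intro v hv
    obtain rfl : v = [] := List.length_eq_zero_iff.1 (by simpa using hv.symm)
    simp
  | cons a u ih =>
    intro v hv
    cases v with
    | nil => simp at hv
    | cons b v =>
      rw [lprod_cons, lprod_cons, star_mul, mul_assoc, ← mul_assoc (star (l a)), hl]
      by_cases h : a = b
      · subst h
        rw [if_pos rfl, one_mul, ih v (by simpa using hv)]
        simp
      · simp [h]

lemma add_star_mul_wickOp [DecidableEq α] (l : α → A)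
    (hl : ∀ i j, star (l i) * l j = if i = j then 1 else 0) (j a : α) (t : List α) :
    (l j + star (l j)) * wickOp l (a :: t) =
      wickOp l (j :: a :: t) + if a = j then wickOp l t else 0 := by
  have h1 : l j * wickOp l (a :: t) =
      ∑ s ∈ Finset.range (t.length + 2), lprod l ((j :: a :: t).take (s + 1)) *
        star (lprod l ((j :: a :: t).drop (s + 1)).reverse) := by
    rw [wickOp, Finset.mul_sum]
    refine Finset.sum_congr (by simp) fun s _ => ?_
    rw [← mul_assoc, List.take_succ_cons, List.drop_succ_cons, lprod_cons]
  have h2 : star (l j) * wickOp l (a :: t) =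
      lprod l ((j :: a :: t).take 0) * star (lprod l ((j :: a :: t).drop 0).reverse) +
        if a = j then wickOp l t else 0 := by
    rw [wickOp, Finset.mul_sum, List.length_cons, Finset.sum_range_succ', add_comm]
    congr 1
    · simp [lprod_append, mul_assoc]
    · by_cases h : a = j
      · subst h
        rw [if_pos rfl, wickOp]
        refine Finset.sum_congr rfl fun s _ => ?_
        rw [List.take_succ_cons, List.drop_succ_cons, lprod_cons, ← mul_assoc, ← mul_assoc, hl,
          if_pos rfl, one_mul]
      · rw [if_neg h]
        refine Finset.sum_eq_zero fun s _ => ?_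
        rw [List.take_succ_cons, lprod_cons, ← mul_assoc, ← mul_assoc, hl,
          if_neg (Ne.symm h), zero_mul, zero_mul]
  have h3 : wickOp l (j :: a :: t) =
      (∑ s ∈ Finset.range (t.length + 2), lprod l ((j :: a :: t).take (s + 1)) *
        star (lprod l ((j :: a :: t).drop (s + 1)).reverse)) +
      lprod l ((j :: a :: t).take 0) * star (lprod l ((j :: a :: t).drop 0).reverse) := by
    rw [wickOp, List.length_cons, List.length_cons, Finset.sum_range_succ']
  rw [add_mul, h1, h2, h3]
  abel

/-- The normally ordered expansion agrees with the recursion. -/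
lemma wick_eq_wickOp [DecidableEq α] (l : α → A)
    (hl : ∀ i j, star (l i) * l j = if i = j then 1 else 0) :
    ∀ w : List α, wick (fun j => l j + star (l j)) w = wickOp l w
  | [] => by simp [wick, wickOp]
  | [j] => by simp [wick, wickOp, Finset.sum_range_succ, add_comm]
  | j :: a :: t => by
    simp only [wick]
    rw [wick_eq_wickOp l hl (a :: t), wick_eq_wickOp l hl t, add_star_mul_wickOp l hl,
      add_sub_cancel_right]

lemma star_wickOp (l : α → A) (w : List α) (hw : w.reverse = w) :
    star (wickOp l w) = wickOp l w := by
  rw [wickOp, star_sum, ← Finset.sum_range_reflect]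
  refine Finset.sum_congr rfl fun s hs => ?_
  rw [Finset.mem_range] at hs
  rw [star_mul, star_star]
  have e : w.length + 1 - 1 - s = w.length - s := by omega
  rw [e]
  congr 1
  · congr 1
    rw [List.reverse_drop, hw]
    congr 1
    omega
  · congr 2
    conv_lhs => rw [← hw]
    rw [List.take_reverse]
    congr 2
    simp only [List.length_reverse]
    omega

end Vale.Agent.P087
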