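import Vale.Agent.P087.Fock
import Vale.Agent.P087.Wick

/-! Tensor norm bounds for sums of normally ordered monomials. -/

open scoped InnerProductSpace TensorProduct

namespace Vale.Agent.P087

set_option linter.unusedSectionVars false

variable {α : Type} [DecidableEq α]

lemma inner_star_star (u v : L2 α) :
    inner ℂ (star u) (star v) = (starRingEnd ℂ) (inner ℂ u v) := by
  rw [lp.inner_eq_tsum, lp.inner_eq_tsum, Complex.conj_tsum]
  refine tsum_congr fun a => ?_
  simp [RCLike.inner_apply, lp.star_apply, mul_comm]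

/-- An operator with real matrix coefficients. -/
def IsRealOp (T : L2 α →L[ℂ] L2 α) : Prop := ∀ v, T (star v) = star (T v)

lemma isRealOp_shift (f : α → α) (hf : Function.Injective f) : IsRealOp (shift f hf) := by
  intro v
  apply lp.ext; funext b
  rw [lp.star_apply]
  by_cases hb : ∃ a, f a = b
  · obtain ⟨a, rfl⟩ := hb
    rw [shift_apply_image, shift_apply_image, lp.star_apply]
  · rw [not_exists] at hb
    rw [shift_apply_of_notMem f hf _ hb, shift_apply_of_notMem f hf _ hb, star_zero]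

lemma isRealOp_star_shift (f : α → α) (hf : Function.Injective f) :
    IsRealOp (star (shift f hf)) := by
  intro v
  apply lp.ext; funext a
  rw [lp.star_apply, ContinuousLinearMap.star_eq_adjoint, adjoint_shift_apply,
    adjoint_shift_apply, lp.star_apply]

lemma IsRealOp.add {S T : L2 α →L[ℂ] L2 α} (hS : IsRealOp S) (hT : IsRealOp T) :
    IsRealOp (S + T) := fun v => by simp [hS v, hT v]

lemma IsRealOp.sub {S T : L2 α →L[ℂ] L2 α} (hS : IsRealOp S) (hT : IsRealOp T) :
    IsRealOp (S - T) := fun v => by simp [hS v, hT v]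

lemma IsRealOp.mul {S T : L2 α →L[ℂ] L2 α} (hS : IsRealOp S) (hT : IsRealOp T) :
    IsRealOp (S * T) := fun v => by
  show S (T (star v)) = star (S (T v))
  rw [hT v, hS]

lemma IsRealOp.one : IsRealOp (1 : L2 α →L[ℂ] L2 α) := fun _ => rfl

lemma IsRealOp.zero : IsRealOp (0 : L2 α →L[ℂ] L2 α) := fun _ => by simp

lemma IsRealOp.ofReal_smul {T : L2 α →L[ℂ] L2 α} (c : ℝ) (hT : IsRealOp T) :
    IsRealOp ((c : ℂ) • T) := fun v => by
  show (c : ℂ) • T (star v) = star ((c : ℂ) • T v)
  rw [star_smul, hT v, Complex.star_def, Complex.conj_ofReal]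

lemma IsRealOp.wick {β : Type} [DecidableEq β] {X : β → L2 α →L[ℂ] L2 α}
    (hX : ∀ j, IsRealOp (X j)) : ∀ w : List β, IsRealOp (wick X w)
  | [] => IsRealOp.one
  | [j] => hX j
  | j :: a :: t => by
    refine ((hX j).mul (IsRealOp.wick hX (a :: t))).sub ?_
    split_ifs
    · exact IsRealOp.wick hX t
    · exact IsRealOp.zero

/-- The vector `∑ y_a ⊗ conj y_a`. -/
noncomputable def gaugeVec {κ : Type} [Fintype κ] (y : κ → L2 α) : L2 α ⊗[ℂ] L2 α :=
  ∑ a, y a ⊗ₜ[ℂ] star (y a)

lemma gauge_eq_norm {κ : Type} [Fintype κ] (y : κ → L2 α) : gauge y = ‖gaugeVec y‖ := by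
  rw [gauge, @norm_eq_sqrt_re_inner ℂ]
  congr 1
  simp only [gaugeVec, inner_sum, sum_inner, TensorProduct.inner_tmul, inner_star_star,
    Complex.mul_conj', map_sum]
  rw [Finset.sum_comm]
  refine Finset.sum_congr rfl fun a _ => Finset.sum_congr rfl fun b _ => ?_
  rw [norm_inner_symm]
  norm_cast

/-- The action of a pair of operators on the tensor square. -/
noncomputable def pairMap (S T : L2 α →L[ℂ] L2 α) : L2 α ⊗[ℂ] L2 α →ₗ[ℂ] L2 α ⊗[ℂ] L2 α :=
  TensorProduct.map S.toLinearMap T.toLinearMap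

@[simp] lemma pairMap_tmul (S T : L2 α →L[ℂ] L2 α) (u v : L2 α) :
    pairMap S T (u ⊗ₜ v) = S u ⊗ₜ T v := rfl

lemma pairMap_comp (S T S' T' : L2 α →L[ℂ] L2 α) (z : L2 α ⊗[ℂ] L2 α) :
    pairMap S T (pairMap S' T' z) = pairMap (S * S') (T * T') z := by
  induction z using TensorProduct.induction_on with
  | zero => simp
  | tmul u v => rfl
  | add x y hx hy => simp [hx, hy]

lemma inner_pairMap (S T : L2 α →L[ℂ] L2 α) (z w : L2 α ⊗[ℂ] L2 α) :
    inner ℂ (pairMap S T z) w = inner ℂ z (pairMap (star S) (star T) w) := by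
  induction z using TensorProduct.induction_on with
  | zero => simp
  | add x y hx hy => simp [inner_add_left, hx, hy]
  | tmul u v =>
    induction w using TensorProduct.induction_on with
    | zero => simp
    | add x y hx hy => rw [inner_add_right, hx, hy, map_add, inner_add_right]
    | tmul a b =>
      simp only [pairMap_tmul, TensorProduct.inner_tmul, ContinuousLinearMap.star_eq_adjoint,
        ContinuousLinearMap.adjoint_inner_right]

lemma pairMap_one (z : L2 α ⊗[ℂ] L2 α) : pairMap 1 1 z = z := by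
  induction z using TensorProduct.induction_on with
  | zero => simp
  | tmul u v => rfl
  | add x y hx hy => simp [hx, hy]

lemma pairMap_zero_left (T : L2 α →L[ℂ] L2 α) (z : L2 α ⊗[ℂ] L2 α) : pairMap 0 T z = 0 := by
  induction z using TensorProduct.induction_on with
  | zero => simp
  | tmul u v => simp
  | add x y hx hy => simp [hx, hy]

lemma pairMap_zero_right (S : L2 α →L[ℂ] L2 α) (z : L2 α ⊗[ℂ] L2 α) : pairMap S 0 z = 0 := by
  induction z using TensorProduct.induction_on with
  | zero => simp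
  | tmul u v => simp
  | add x y hx hy => simp [hx, hy]

/-- Bessel's inequality for products of creators with distinct labels. -/
lemma sum_norm_sq_pairMap_star_le {κ β : Type} [DecidableEq β] (l : β → L2 α →L[ℂ] L2 α)
    (hl : ∀ i j, star (l i) * l j = if i = j then 1 else 0) (F : Finset κ)
    (Q Q' : κ → List β) {b b' : ℕ} (hb : ∀ k, (Q k).length = b) (hb' : ∀ k, (Q' k).length = b')
    (hinj : ∀ i ∈ F, ∀ k ∈ F, Q i = Q k → Q' i = Q' k → i = k) (Z : L2 α ⊗[ℂ] L2 α) :
    ∑ k ∈ F, ‖pairMap (star (lprod l (Q k))) (star (lprod l (Q' k))) Z‖ ^ 2 ≤ ‖Z‖ ^ 2 := by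
  classical
  set u := fun k => pairMap (star (lprod l (Q k))) (star (lprod l (Q' k))) Z
  set w := fun k => pairMap (lprod l (Q k)) (lprod l (Q' k)) (u k)
  set S := ∑ k ∈ F, ‖u k‖ ^ 2
  have horth : ∀ i ∈ F, ∀ k ∈ F,
      inner ℂ (w i) (w k) = if i = k then inner ℂ (u i) (u i) else 0 := by
    intro i hi k hk
    simp only [w]
    rw [inner_pairMap, pairMap_comp, star_lprod_mul_lprod l hl _ _ (by rw [hb, hb]),
      star_lprod_mul_lprod l hl _ _ (by rw [hb', hb'])]
    by_cases h : i = k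
    · subst h; simp [pairMap_one]
    · by_cases h1 : Q i = Q k
      · have h2 : Q' i ≠ Q' k := fun h2 => h (hinj i hi k hk h1 h2)
        simp [h, h2, pairMap_zero_right]
      · simp [h, h1, pairMap_zero_left]
  have hsum : ‖∑ k ∈ F, w k‖ ^ 2 = S := by
    rw [← inner_self_eq_norm_sq (𝕜 := ℂ), sum_inner, map_sum]
    refine Finset.sum_congr rfl fun i hi => ?_
    rw [inner_sum, Finset.sum_congr rfl (fun k hk => horth i hi k hk), Finset.sum_ite_eq, if_pos hi]
    exact inner_self_eq_norm_sq (𝕜 := ℂ) (E := L2 α ⊗[ℂ] L2 α) _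
  have hin : RCLike.re (inner ℂ (∑ k ∈ F, w k) Z) = S := by
    rw [sum_inner, map_sum]
    refine Finset.sum_congr rfl fun i _ => ?_
    simp only [w]
    rw [inner_pairMap]
    exact inner_self_eq_norm_sq (𝕜 := ℂ) (E := L2 α ⊗[ℂ] L2 α) _
  have h1 : S ≤ ‖∑ k ∈ F, w k‖ * ‖Z‖ :=
    hin ▸ (RCLike.re_le_norm _).trans (norm_inner_le_norm (𝕜 := ℂ) (E := L2 α ⊗[ℂ] L2 α) _ _)
  have h2 := sq_nonneg (‖∑ k ∈ F, w k‖ - ‖Z‖)
  show S ≤ _
  nlinarith

/-- A sum of normally ordered monomials with distinct labels has norm at most the square root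
of the number of terms on the tensor square. -/
lemma norm_sum_pairMap_le {κ β : Type} [Fintype κ] [DecidableEq β] (l : β → L2 α →L[ℂ] L2 α)
    (hl : ∀ i j, star (l i) * l j = if i = j then 1 else 0)
    (P P' Q Q' : κ → List β) {a a' b b' : ℕ} (ha : ∀ k, (P k).length = a)
    (ha' : ∀ k, (P' k).length = a') (hb : ∀ k, (Q k).length = b) (hb' : ∀ k, (Q' k).length = b')
    (hinj : ∀ i k, P i = P k → P' i = P' k → Q i = Q k → Q' i = Q' k → i = k)
    (Z : L2 α ⊗[ℂ] L2 α) :
    ‖∑ k, pairMap (lprod l (P k) * star (lprod l (Q k)))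
        (lprod l (P' k) * star (lprod l (Q' k))) Z‖ ≤ Real.sqrt (Fintype.card κ) * ‖Z‖ := by
  classical
  set u := fun k => pairMap (star (lprod l (Q k))) (star (lprod l (Q' k))) Z
  set f := fun k => (P k, P' k)
  set T : List β × List β → Finset κ := fun p => Finset.univ.filter (fun k => f k = p)
  set U := fun p => ∑ k ∈ T p, u k
  have hdecomp : ∑ k, pairMap (lprod l (P k) * star (lprod l (Q k)))
      (lprod l (P' k) * star (lprod l (Q' k))) Z =
      ∑ p ∈ Finset.univ.image f, pairMap (lprod l p.1) (lprod l p.2) (U p) := by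
    rw [← Finset.sum_fiberwise_of_maps_to (g := f) (t := Finset.univ.image f)
      (fun k _ => Finset.mem_image_of_mem f (Finset.mem_univ k))]
    refine Finset.sum_congr rfl fun p _ => ?_
    rw [map_sum]
    refine Finset.sum_congr rfl fun k hk => ?_
    have hk' : f k = p := (Finset.mem_filter.1 hk).2
    rw [← hk', ← pairMap_comp]
  set V := ∑ p ∈ Finset.univ.image f, pairMap (lprod l p.1) (lprod l p.2) (U p)
  have horth : ∀ p ∈ Finset.univ.image f, ∀ r ∈ Finset.univ.image f,
      inner ℂ (pairMap (lprod l p.1) (lprod l p.2) (U p))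
        (pairMap (lprod l r.1) (lprod l r.2) (U r)) =
      if p = r then inner ℂ (U p) (U p) else 0 := by
    intro p hp r hr
    rw [Finset.mem_image] at hp hr
    obtain ⟨i, _, rfl⟩ := hp
    obtain ⟨k, _, rfl⟩ := hr
    simp only [f]
    rw [inner_pairMap, pairMap_comp, star_lprod_mul_lprod l hl _ _ (by rw [ha, ha]),
      star_lprod_mul_lprod l hl _ _ (by rw [ha', ha'])]
    by_cases h1 : P i = P k
    · by_cases h2 : P' i = P' k
      · simp [h1, h2, pairMap_one]
      · simp [h1, h2, pairMap_zero_right]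
    · simp [h1, pairMap_zero_left]
  have hV : ‖V‖ ^ 2 = ∑ p ∈ Finset.univ.image f, ‖U p‖ ^ 2 := by
    rw [← inner_self_eq_norm_sq (𝕜 := ℂ), sum_inner, map_sum]
    refine Finset.sum_congr rfl fun p hp => ?_
    rw [inner_sum, Finset.sum_congr rfl (fun r hr => horth p hp r hr), Finset.sum_ite_eq,
      if_pos hp]
    exact inner_self_eq_norm_sq (𝕜 := ℂ) (E := L2 α ⊗[ℂ] L2 α) _
  have hU : ∀ p, ‖U p‖ ^ 2 ≤ ((T p).card : ℝ) * ‖Z‖ ^ 2 := by
    intro p
    have h1 : ‖U p‖ ≤ ∑ k ∈ T p, ‖u k‖ := norm_sum_le _ _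
    refine ((pow_le_pow_left₀ (norm_nonneg _) h1 2).trans sq_sum_le_card_mul_sum_sq).trans ?_
    refine mul_le_mul_of_nonneg_left ?_ (by positivity)
    refine sum_norm_sq_pairMap_star_le l hl (T p) Q Q' hb hb' ?_ Z
    intro i hi k hk hQ hQ'
    have hi' : f i = p := by simpa [T] using hi
    have hk' : f k = p := by simpa [T] using hk
    have he := hi'.trans hk'.symm
    simp only [f, Prod.mk.injEq] at he
    exact hinj i k he.1 he.2 hQ hQ'
  have hcard : ∑ p ∈ Finset.univ.image f, ((T p).card : ℝ) = Fintype.card κ := by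
    rw [← Nat.cast_sum, ← Finset.card_univ, Finset.card_eq_sum_card_image f Finset.univ]
  have hV2 : ‖V‖ ^ 2 ≤ (Fintype.card κ : ℝ) * ‖Z‖ ^ 2 := by
    rw [hV, ← hcard, Finset.sum_mul]
    exact Finset.sum_le_sum fun p _ => hU p
  rw [hdecomp]
  have := Real.sqrt_le_sqrt hV2
  rwa [Real.sqrt_mul (by positivity), Real.sqrt_sq (norm_nonneg _),
    Real.sqrt_sq (norm_nonneg _)] at this

lemma pairMap_sum_sum {κ κ' : Type} (s : Finset κ) (t : Finset κ')
    (S : κ → L2 α →L[ℂ] L2 α) (T : κ' → L2 α →L[ℂ] L2 α) (z : L2 α ⊗[ℂ] L2 α) :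
    pairMap (∑ i ∈ s, S i) (∑ k ∈ t, T k) z = ∑ i ∈ s, ∑ k ∈ t, pairMap (S i) (T k) z := by
  induction z using TensorProduct.induction_on with
  | zero => simp
  | tmul u v =>
    simp only [pairMap_tmul, sum_apply, TensorProduct.sum_tmul, TensorProduct.tmul_sum]
    first
      | rfl
      | exact Finset.sum_comm
  | add x y hx hy => simp [hx, hy, Finset.sum_add_distrib]

lemma pairMap_smul_smul (c : ℂ) (S T : L2 α →L[ℂ] L2 α) (z : L2 α ⊗[ℂ] L2 α) :
    pairMap (c • S) (c • T) z = (c * c) • pairMap S T z := by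
  induction z using TensorProduct.induction_on with
  | zero => simp
  | tmul u v =>
    simp only [pairMap_tmul, smul_apply, TensorProduct.smul_tmul', TensorProduct.tmul_smul,
      smul_smul]
  | add x y hx hy => simp [hx, hy]

end Vale.Agent.P087
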