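import Vale.Agent.P087.Volume
import Vale.Agent.P087.GUE

/-! Finiteness of the microstates entropy of the tuple. -/

open scoped ENNReal NNReal InnerProductSpace
open MeasureTheory Filter Topology

namespace Vale.Agent.P087

set_option linter.unusedSectionVars false

/-- The labels of the Gaussian matrices. -/
abbrev KL (q : ℕ) : Type := Fin 2 ⊕ Model.I q

/-- Gaussian matrices in the form of tuples. -/
def goodTuples (K : Type) [Fintype K] [DecidableEq K] (m : ℕ) (δ : ℝ) (k : ℕ) :
    Set (K → EuclideanSpace ℝ (Fin k × Fin k)) :=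
  {A | (∀ j, ‖Matrix.toEuclideanCLM (𝕜 := ℂ) (hermMatrix (A j))‖ ≤ 20) ∧
    ∀ w : List K, w.length ≤ m →
      ‖((w.map fun j => hermMatrix (A j)).prod).trace / (k : ℂ) - fockMoment w‖ < δ}

lemma volume_preserving_uncurry (K P : Type) [Fintype K] [Fintype P] :
    MeasurePreserving (fun (y : K → P → ℝ) (c : K × P) => y c.1 c.2) := by
  refine ⟨measurable_pi_lambda _ fun c => (measurable_pi_apply c.2).comp (measurable_pi_apply c.1), ?_⟩
  refine (Measure.pi_eq (μ := fun _ : K × P => (volume : Measure ℝ)) fun t ht => ?_).symm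
  rw [Measure.map_apply (measurable_pi_lambda _ fun c =>
    (measurable_pi_apply c.2).comp (measurable_pi_apply c.1)) (MeasurableSet.univ_pi ht)]
  have : (fun (y : K → P → ℝ) (c : K × P) => y c.1 c.2) ⁻¹' Set.univ.pi t =
      Set.univ.pi fun j => Set.univ.pi fun p => t (j, p) := by
    ext y
    simp [Set.mem_pi, Prod.forall]
  rw [this, volume_pi_pi, Fintype.prod_prod_type]
  exact Finset.prod_congr rfl fun j _ => volume_pi_pi _

lemma measurableSet_goodTuples (K : Type) [Fintype K] [DecidableEq K] (m : ℕ) (δ : ℝ) (k : ℕ) :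
    MeasurableSet (goodTuples K m δ k) := by
  have h : goodTuples K m δ k =
      (fun A : K → EuclideanSpace ℝ (Fin k × Fin k) => fun c : Crd K k => A c.1 c.2) ⁻¹'
        goodSet K m δ k := rfl
  rw [h]
  refine measurableSet_goodSet m δ k |>.preimage (measurable_pi_lambda _ fun c => ?_)
  exact ((PiLp.continuous_apply 2 (fun _ : Fin k × Fin k => ℝ) c.2).comp
    (continuous_apply c.1)).measurable

lemma volume_goodTuples (K : Type) [Fintype K] [DecidableEq K] (m : ℕ) (δ : ℝ) (k : ℕ) :
    volume (goodTuples K m δ k) = volume (goodSet K m δ k) := by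
  have h1 : MeasurePreserving (fun (y : K → Fin k × Fin k → ℝ) j =>
      (WithLp.toLp 2 (y j) : EuclideanSpace ℝ (Fin k × Fin k))) :=
    measurePreserving_pi (fun _ : K => (volume : Measure (Fin k × Fin k → ℝ)))
      (fun _ : K => (volume : Measure (EuclideanSpace ℝ (Fin k × Fin k))))
      fun _ => PiLp.volume_preserving_toLp _
  rw [← h1.measure_preimage (measurableSet_goodTuples K m δ k).nullMeasurableSet,
    ← (volume_preserving_uncurry K (Fin k × Fin k)).measure_preimage
      (measurableSet_goodSet m δ k).nullMeasurableSet]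
  rfl

namespace Model

variable {q : ℕ}

/-- The polynomials producing the tuple from Gaussian matrices. -/
noncomputable def QP : I q → NCPoly (KL q)
  | Sum.inl i => (cs q : ℂ) • varP (Sum.inl i) +
      (Real.sqrt (eta (Sum.inl i : I q)) : ℂ) • varP (Sum.inr (Sum.inl i))
  | Sum.inr v => (1 / 2 : ℂ) • (wick (fun i => varP (Sum.inl i)) (base v) +
      wickAdj (fun i => varP (Sum.inl i)) (base v)) +
      (Real.sqrt (eta (Sum.inr v : I q)) : ℂ) • varP (Sum.inr (Sum.inr v))

/-- The Fock space operators attached to the labels. -/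
noncomputable def opK (q : ℕ) (l : KL q) : Fock (Lab q) →L[ℂ] Fock (Lab q) := sL (Sum.inl l)

lemma evalP_QP : ∀ j : I q, evalP (opK q) (QP j) = Z j
  | Sum.inl i => by
    simp only [QP, map_add, map_smul, evalP_varP, opK]
    rfl
  | Sum.inr v => by
    simp only [QP, map_add, map_smul, map_wick, map_wickAdj, evalP_varP, opK]
    rw [show (fun i => sL (Sum.inl (Sum.inl i) : Lab q)) = a0 from rfl,
      ← star_wick a0 (fun i => isSelfAdjoint_sL _), show wick a0 (base v) = xel v from rfl, star_xel,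
      ← two_smul ℂ, smul_smul, one_div, inv_mul_cancel₀ two_ne_zero, one_smul]
    rfl

/-- The centres of the affine map from the noise to the tuple. -/
noncomputable def shiftC {k : ℕ} (a : Fin 2 → EuclideanSpace ℝ (Fin k × Fin k)) :
    I q → EuclideanSpace ℝ (Fin k × Fin k)
  | Sum.inl i => cs q • a i
  | Sum.inr v => centre a v

/-- The affine map from the noise to the tuple. -/
noncomputable def affineC {k : ℕ} (a : Fin 2 → EuclideanSpace ℝ (Fin k × Fin k))
    (b : I q → EuclideanSpace ℝ (Fin k × Fin k)) (j : I q) : EuclideanSpace ℝ (Fin k × Fin k) :=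
  shiftC a j + Real.sqrt (eta j) • b j

lemma evalP_QP_matrix {k : ℕ} (A : KL q → EuclideanSpace ℝ (Fin k × Fin k)) :
    ∀ j : I q, evalP (fun l => hermMatrix (A l)) (QP j) =
      hermMatrix (affineC (fun i => A (Sum.inl i)) (fun l => A (Sum.inr l)) j)
  | Sum.inl i => by
    simp only [QP, map_add, map_smul, evalP_varP, affineC, shiftC, hermMatrix_add, hermMatrix_smul]
  | Sum.inr v => by
    simp only [QP, map_add, map_smul, map_wick, map_wickAdj, evalP_varP, affineC, shiftC,
      hermMatrix_add, hermMatrix_smul]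
    congr 1
    rw [← star_wick _ (fun i => star_hermMatrix _)]
    ext r c
    rw [centre, hermMatrix_vecHerm, Matrix.smul_apply, Matrix.add_apply,
      Matrix.star_apply, smul_eq_mul]
    show _ = _ / 2
    rw [Complex.star_def]
    ring

lemma fockMoment_inl : ∀ (n : ℕ) (w : List (KL q)), w.length ≤ n →
    fockMoment w = vecState (vac (Lab q)) (wordEval (opK q) w) := by
  intro n
  induction n with
  | zero =>
    intro w hw
    have hw : w = [] := List.length_eq_zero_iff.1 (Nat.le_zero.1 hw)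
    subst hw
    rw [fockMoment_nil]
    exact (vecState_one norm_vac).symm
  | succ n ih =>
    intro w hw
    cases w with
    | nil => exact ih [] (Nat.zero_le _)
    | cons j w =>
      have e : ∀ u : List (KL q), vecState (vac (Lab q)) (wordEval (opK q) u) =
          fockMoment (u.map (Sum.inl : KL q → Lab q)) := fun u => by
        simp only [fockMoment, wordEval, List.map_map]; rfl
      rw [e, List.map_cons, fockMoment_cons, fockMoment_cons]
      have hs : ∀ (u : List (KL q)) (f : List (Lab q) → Lab q → List (Lab q) → ℂ),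
          sumSplit (u.map (Sum.inl : KL q → Lab q)) f =
            sumSplit u (fun g i r => f (g.map Sum.inl) (Sum.inl i) (r.map Sum.inl)) := by
        intro u
        induction u with
        | nil => intro f; rfl
        | cons a u ihu =>
          intro f
          rw [List.map_cons, sumSplit_cons, sumSplit_cons, ihu]
          rfl
      rw [hs]
      refine sumSplit_congr fun g i r h => ?_
      have hl := congrArg List.length h
      simp only [List.length_append, List.length_cons] at hl hw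
      by_cases hi : i = j
      · rw [if_pos hi, if_pos (congrArg Sum.inl hi), ih g (by omega), ih r (by omega), e, e]
      · rw [if_neg hi, if_neg (fun hh => hi (Sum.inl_injective hh))]

lemma goodTuples_subset {m : ℕ} {δ : ℝ} {k : ℕ} :
    goodTuples (KL q) m δ k ⊆ microstates (vac (Lab q)) (opK q) 20 m δ k := by
  intro A hA
  refine ⟨hA.1, fun w _ hw => ?_⟩
  rw [← fockMoment_inl w.length w le_rfl]
  exact hA.2 w hw

/-- Uniform norm bound for polynomials on operator norm balls. -/
lemma exists_norm_bound {K : Type} (P : NCPoly K) :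
    ∃ B : ℝ, 0 ≤ B ∧ ∀ (k : ℕ) (A : K → EuclideanSpace ℝ (Fin k × Fin k)),
      (∀ j, ‖Matrix.toEuclideanCLM (𝕜 := ℂ) (hermMatrix (A j))‖ ≤ 20) →
      ‖Matrix.toEuclideanCLM (𝕜 := ℂ) (evalP (fun j => hermMatrix (A j)) P)‖ ≤ B := by
  induction P using MonoidAlgebra.induction_linear with
  | zero => exact ⟨0, le_rfl, fun k A _ => by simp⟩
  | add P Q hP hQ =>
    obtain ⟨B₁, h₁, hP⟩ := hP
    obtain ⟨B₂, h₂, hQ⟩ := hQ
    refine ⟨B₁ + B₂, by positivity, fun k A hA => ?_⟩
    rw [map_add, map_add]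
    exact (norm_add_le _ _).trans (add_le_add (hP k A hA) (hQ k A hA))
  | single w c =>
    refine ⟨‖c‖ * 20 ^ w.toList.length, by positivity, fun k A hA => ?_⟩
    simp only [evalP, MonoidAlgebra.lift_single, map_smul, lift_eq_prod, norm_smul]
    refine mul_le_mul_of_nonneg_left ?_ (norm_nonneg _)
    generalize w.toList = l
    induction l with
    | nil =>
      rw [List.map_nil, List.prod_nil, map_one, List.length_nil, pow_zero]
      exact ContinuousLinearMap.norm_id_le
    | cons a t ih =>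
      rw [List.map_cons, List.prod_cons, map_mul, List.length_cons, pow_succ']
      exact (norm_mul_le _ _).trans (mul_le_mul (hA a) ih (norm_nonneg _) (by norm_num))

lemma exists_good_transfer :
    ∃ R : ℝ, 0 < R ∧ ∀ (m : ℕ) (δ : ℝ), 0 < δ → ∃ (m' : ℕ) (δ' : ℝ), 0 < δ' ∧ δ' ≤ 1 ∧ 2 ≤ m' ∧
      ∀ (k : ℕ), 0 < k → ∀ A ∈ goodTuples (KL q) m' δ' k,
        affineC (fun i => A (Sum.inl i)) (fun l => A (Sum.inr l)) ∈
          microstates (vac (Lab q)) Z R m δ k := by
  choose B hB0 hB using fun j : I q => exists_norm_bound (QP j)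
  refine ⟨(∑ j, B j) + 1, by
    have : (0 : ℝ) ≤ ∑ j, B j := Finset.sum_nonneg fun j _ => hB0 j
    linarith, fun m δ hδ => ?_⟩
  set Wd : Finset (List (I q)) := (Finset.range (m + 1)).biUnion (words (I q))
  choose mW CW hCW hW using fun w : List (I q) =>
    exists_trace_bound (vac (Lab q)) norm_vac (opK q) ((w.map QP).prod)
  set C : ℝ := ∑ w ∈ Wd, CW w + 1
  have hC : 1 ≤ C := by
    have : (0 : ℝ) ≤ ∑ w ∈ Wd, CW w := Finset.sum_nonneg fun w _ => hCW w
    simp only [C]; linarith
  refine ⟨Wd.sup mW + 2, min 1 (δ / C), lt_min one_pos (by positivity), min_le_left _ _, by omega,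
    fun k hk A hA => ⟨fun j => ?_, fun w hw1 hw => ?_⟩⟩
  · rw [← evalP_QP_matrix]
    refine (hB j k A hA.1).trans ?_
    have := Finset.single_le_sum (fun j _ => hB0 j) (Finset.mem_univ j)
    linarith
  · have hwm : w ∈ Wd :=
      Finset.mem_biUnion.2 ⟨w.length, Finset.mem_range.2 (Nat.lt_succ_of_le hw), mem_words.2 rfl⟩
    have h := hW w 20 (Wd.sup mW + 2) (le_trans (Finset.le_sup hwm) (Nat.le_add_right _ _))
      (min 1 (δ / C)) k (lt_min one_pos (by positivity)) hk A (goodTuples_subset hA)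
    simp only [map_list_prod, List.map_map] at h
    have e1 : (evalP (fun j => hermMatrix (A j))) ∘ QP =
        fun j : I q => hermMatrix (affineC (fun i => A (Sum.inl i)) (fun l => A (Sum.inr l)) j) :=
      funext fun j => evalP_QP_matrix A j
    have e2 : (evalP (opK q)) ∘ QP = (Z : I q → _) := funext evalP_QP
    rw [e1, e2] at h
    refine lt_of_le_of_lt h ?_
    have hle : CW w ≤ C - 1 := by
      have := Finset.single_le_sum (fun w _ => hCW w) hwm
      simp only [C]; linarith
    calc CW w * min 1 (δ / C) ≤ (C - 1) * (δ / C) :=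
          mul_le_mul hle (min_le_right _ _) (le_min zero_le_one (by positivity)) (by linarith)
      _ < C * (δ / C) := mul_lt_mul_of_pos_right (by linarith) (by positivity)
      _ = δ := by field_simp

lemma map_affine_volume {k : ℕ} (c : EuclideanSpace ℝ (Fin k × Fin k)) {r : ℝ} (hr : 0 < r) :
    Measure.map (fun y : EuclideanSpace ℝ (Fin k × Fin k) => c + r • y) volume =
      ENNReal.ofReal (r ^ (k * k))⁻¹ • (volume : Measure (EuclideanSpace ℝ (Fin k × Fin k))) := by
  have h1 : (fun y : EuclideanSpace ℝ (Fin k × Fin k) => c + r • y) =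
      (fun y => c + y) ∘ (fun y => r • y) := rfl
  rw [h1, ← Measure.map_map (measurable_const_add c) (measurable_const_smul r),
    Measure.map_addHaar_smul volume hr.ne', Measure.map_smul, map_add_left_eq_self,
    finrank_euclideanSpace, Fintype.card_prod, Fintype.card_fin,
    abs_of_nonneg (inv_nonneg.2 (pow_nonneg hr.le _))]

lemma volume_affine_preimage_le (hq : 1 ≤ q) {k : ℕ}
    (a : Fin 2 → EuclideanSpace ℝ (Fin k × Fin k))
    (s : Set (I q → EuclideanSpace ℝ (Fin k × Fin k))) :
    volume (affineC a ⁻¹' s) ≤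
      ENNReal.ofReal (∏ j : I q, (Real.sqrt (eta j) ^ (k * k))⁻¹) * volume s := by
  have hm : Measurable (affineC (q := q) a) :=
    (show Continuous (affineC (q := q) a) by unfold affineC; fun_prop).measurable
  refine (Measure.le_map_apply hm.aemeasurable s).trans (le_of_eq ?_)
  have : ∀ j : I q, SigmaFinite (ENNReal.ofReal (Real.sqrt (eta j) ^ (k * k))⁻¹ •
      (volume : Measure (EuclideanSpace ℝ (Fin k × Fin k)))) := fun j =>
    (inferInstance : SigmaFinite ((Real.sqrt (eta j) ^ (k * k))⁻¹.toNNReal •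
      (volume : Measure (EuclideanSpace ℝ (Fin k × Fin k)))))
  have hmp : MeasurePreserving (affineC (q := q) a) volume
      (Measure.pi fun j : I q => ENNReal.ofReal (Real.sqrt (eta j) ^ (k * k))⁻¹ •
        (volume : Measure (EuclideanSpace ℝ (Fin k × Fin k)))) :=
    measurePreserving_pi (fun _ : I q => (volume : Measure (EuclideanSpace ℝ (Fin k × Fin k))))
      _ (f := fun j y => shiftC a j + Real.sqrt (eta j) • y) fun j =>
      ⟨(show Continuous fun y : EuclideanSpace ℝ (Fin k × Fin k) =>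
          shiftC a j + Real.sqrt (eta j) • y by fun_prop).measurable,
        map_affine_volume (shiftC a j) (Real.sqrt_pos.2 (eta_pos hq j))⟩
  rw [hmp.map_eq]
  have : (Measure.pi fun j : I q => ENNReal.ofReal (Real.sqrt (eta j) ^ (k * k))⁻¹ •
      (volume : Measure (EuclideanSpace ℝ (Fin k × Fin k)))) =
      ENNReal.ofReal (∏ j : I q, (Real.sqrt (eta j) ^ (k * k))⁻¹) •
        (volume : Measure (I q → EuclideanSpace ℝ (Fin k × Fin k))) := by
    refine Measure.pi_eq fun t ht => ?_
    rw [Measure.smul_apply, volume_pi_pi, ENNReal.ofReal_prod_of_nonneg (fun j _ => by positivity),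
      smul_eq_mul, ← Finset.prod_mul_distrib]
    exact Finset.prod_congr rfl fun j _ => rfl
  rw [this, Measure.smul_apply, smul_eq_mul]

lemma volume_goodTuples_ge {m : ℕ} {δ : ℝ} {k : ℕ} (hk : 0 < k)
    (hgood : (1 / 2 : ℝ≥0∞) ≤ gauss (Crd (KL q) k) (vk k) (goodSet (KL q) m δ k)) :
    ENNReal.ofReal (1 / 2 * Real.sqrt (2 * Real.pi / k) ^ (Fintype.card (KL q) * (k * k))) ≤
      volume (goodTuples (KL q) m δ k) := by
  have hkR : (0 : ℝ) < k := Nat.cast_pos.2 hk
  have hsq : 0 < Real.sqrt (2 * Real.pi / k) ^ (Fintype.card (KL q) * (k * k)) := by positivity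
  have hcard : Fintype.card (Crd (KL q) k) = Fintype.card (KL q) * (k * k) := by
    simp only [Crd, Fintype.card_prod, Fintype.card_fin]
  have hM : (Real.sqrt (2 * Real.pi * (vk k : ℝ)))⁻¹ ^ Fintype.card (Crd (KL q) k) =
      (Real.sqrt (2 * Real.pi / k) ^ (Fintype.card (KL q) * (k * k)))⁻¹ := by
    rw [hcard, inv_pow, show (2 * Real.pi * (vk k : ℝ)) = 2 * Real.pi / k by
      simp [vk, div_eq_mul_inv]]
  rw [volume_goodTuples]
  have h := hgood.trans (gauss_le_volume (vk_ne hk) (measurableSet_goodSet m δ k))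
  rw [hM] at h
  set S : ℝ := Real.sqrt (2 * Real.pi / k) ^ (Fintype.card (KL q) * (k * k))
  have h' := mul_le_mul' (le_refl (ENNReal.ofReal S)) h
  rw [← mul_assoc, ← ENNReal.ofReal_mul hsq.le, mul_inv_cancel₀ hsq.ne', ENNReal.ofReal_one,
    one_mul] at h'
  refine le_trans (le_of_eq ?_) h'
  rw [mul_comm, ENNReal.ofReal_mul hsq.le, ENNReal.ofReal_div_of_pos two_pos, ENNReal.ofReal_one,
    ENNReal.ofReal_ofNat]

lemma volume_ball2_le {k : ℕ} (hk : 0 < k) :
    volume (Set.univ.pi fun _ : Fin 2 =>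
      Metric.closedBall (0 : EuclideanSpace ℝ (Fin k × Fin k)) (Real.sqrt ((k : ℝ) * 2))) ≤
    ENNReal.ofReal (((2 * Real.pi * Real.exp 1 * 2 / k) ^ (((k : ℝ) ^ 2) / 2)) ^ 2) := by
  have : Nonempty (Fin k × Fin k) := ⟨(⟨0, hk⟩, ⟨0, hk⟩)⟩
  have h0 : volume (Metric.closedBall (0 : EuclideanSpace ℝ (Fin k × Fin k))
      (Real.sqrt ((k : ℝ) * 2))) ≤
      ENNReal.ofReal ((2 * Real.pi * Real.exp 1 * 2 / k) ^ (((k : ℝ) ^ 2) / 2)) := by
    refine (volume_closedBall_le _ (Real.sqrt_pos.2 (by positivity))).trans (le_of_eq ?_)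
    rw [Real.sq_sqrt (by positivity), Fintype.card_prod, Fintype.card_fin, Nat.cast_mul, ← pow_two]
    congr 2
    field_simp
  rw [volume_pi_pi, Fin.prod_univ_two, pow_two, ENNReal.ofReal_mul (by positivity)]
  exact mul_le_mul' h0 h0

lemma mem_ball2_of_good {m : ℕ} {δ : ℝ} {k : ℕ} (hk : 0 < k) (hm : 2 ≤ m) (hδ : δ ≤ 1)
    {A : KL q → EuclideanSpace ℝ (Fin k × Fin k)} (hA : A ∈ goodTuples (KL q) m δ k) (i : Fin 2) :
    ‖A (Sum.inl i)‖ ≤ Real.sqrt ((k : ℝ) * 2) := by
  have hkR : (0 : ℝ) < k := Nat.cast_pos.2 hk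
  have h2 := hA.2 [Sum.inl i, Sum.inl i] (by simpa using hm)
  simp only [List.map_cons, List.map_nil, List.prod_cons, List.prod_nil, mul_one] at h2
  have hf : fockMoment ([Sum.inl i, Sum.inl i] : List (KL q)) = 1 := by
    rw [fockMoment_cons, sumSplit_cons, sumSplit_nil]; simp
  rw [hf] at h2
  have hre := (Complex.abs_re_le_norm _).trans (h2.le.trans hδ)
  rw [Complex.sub_re, Complex.one_re, Complex.div_natCast_re,
    show ((hermMatrix (A (Sum.inl i)) * hermMatrix (A (Sum.inl i))).trace).re =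
      ‖A (Sum.inl i)‖ ^ 2 by
      rw [← sum_norm_sq_hermMatrix, sum_norm_sq_eq_trace, hermMatrix_isHermitian]] at hre
  refine Real.le_sqrt_of_sq_le ?_
  have := (abs_le.1 hre).2
  rw [sub_le_iff_le_add, div_le_iff₀ hkR] at this
  linarith

lemma exists_slice {m : ℕ} {δ : ℝ} {k : ℕ} (hk : 0 < k) (hm : 2 ≤ m) (hδ : δ ≤ 1) {g : ℝ}
    (hg : 0 < g) (hvol : ENNReal.ofReal g ≤ volume (goodTuples (KL q) m δ k)) :
    ∃ a : Fin 2 → EuclideanSpace ℝ (Fin k × Fin k),
      ENNReal.ofReal (g / 2 / ((2 * Real.pi * Real.exp 1 * 2 / k) ^ (((k : ℝ) ^ 2) / 2)) ^ 2) ≤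
      volume {b : I q → EuclideanSpace ℝ (Fin k × Fin k) |
        (MeasurableEquiv.sumPiEquivProdPi fun _ : KL q => EuclideanSpace ℝ (Fin k × Fin k)).symm
          (a, b) ∈ goodTuples (KL q) m δ k} := by
  set E := EuclideanSpace ℝ (Fin k × Fin k)
  set BA : ℝ := ((2 * Real.pi * Real.exp 1 * 2 / k) ^ (((k : ℝ) ^ 2) / 2)) ^ 2
  have hkR : (0 : ℝ) < k := Nat.cast_pos.2 hk
  have hBA : 0 < BA := by positivity
  set e := (MeasurableEquiv.sumPiEquivProdPi fun _ : KL q => E).symm
  set G : Set ((Fin 2 → E) × (I q → E)) := e ⁻¹' goodTuples (KL q) m δ k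
  have hGm : MeasurableSet G := (measurableSet_goodTuples _ _ _ _).preimage e.measurable
  have hG : (volume.prod volume) G = volume (goodTuples (KL q) m δ k) :=
    (volume_measurePreserving_sumPiEquivProdPi fun _ : KL q => E).symm.measure_preimage
      (measurableSet_goodTuples _ _ _ _).nullMeasurableSet
  rw [Measure.prod_apply hGm] at hG
  by_contra hc
  simp only [not_exists, not_le] at hc
  set ball2 : Set (Fin 2 → E) :=
    Set.univ.pi fun _ : Fin 2 => Metric.closedBall (0 : E) (Real.sqrt ((k : ℝ) * 2))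
  have key : ∀ a, volume (Prod.mk a ⁻¹' G) ≤
      ball2.indicator (fun _ => ENNReal.ofReal (g / 2 / BA)) a := by
    intro a
    by_cases ha : a ∈ ball2
    · rw [Set.indicator_of_mem ha]; exact (hc a).le
    · rw [Set.indicator_of_notMem ha]
      refine le_of_eq (measure_mono_null (fun b hb => ?_) (measure_empty (μ := volume)))
      refine ha fun i _ => ?_
      rw [Metric.mem_closedBall, dist_zero_right]
      exact mem_ball2_of_good hk hm hδ hb i
  have h1 : ENNReal.ofReal g ≤ ENNReal.ofReal (g / 2) := by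
    calc ENNReal.ofReal g ≤ ∫⁻ a, volume (Prod.mk a ⁻¹' G) := hG ▸ hvol
      _ ≤ ∫⁻ a, ball2.indicator (fun _ => ENNReal.ofReal (g / 2 / BA)) a := lintegral_mono key
      _ ≤ ENNReal.ofReal (g / 2 / BA) * volume ball2 := lintegral_indicator_const_le _ _
      _ ≤ ENNReal.ofReal (g / 2 / BA) * ENNReal.ofReal BA := mul_le_mul' le_rfl (volume_ball2_le hk)
      _ = _ := by rw [← ENNReal.ofReal_mul (by positivity), div_mul_cancel₀ _ hBA.ne']
  rw [ENNReal.ofReal_le_ofReal_iff (by positivity)] at h1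
  linarith

lemma slice_subset {m m' : ℕ} {δ δ' R : ℝ} {k : ℕ}
    (a : Fin 2 → EuclideanSpace ℝ (Fin k × Fin k))
    (h : ∀ A ∈ goodTuples (KL q) m' δ' k,
        affineC (fun i => A (Sum.inl i)) (fun l => A (Sum.inr l)) ∈
          microstates (vac (Lab q)) Z R m δ k) :
    {b : I q → EuclideanSpace ℝ (Fin k × Fin k) |
        (MeasurableEquiv.sumPiEquivProdPi fun _ : KL q => EuclideanSpace ℝ (Fin k × Fin k)).symm
          (a, b) ∈ goodTuples (KL q) m' δ' k} ⊆
      affineC a ⁻¹' microstates (vac (Lab q)) Z R m δ k := by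
  intro b hb
  have h1 := h _ hb
  have e1 : (fun i : Fin 2 => (MeasurableEquiv.sumPiEquivProdPi fun _ : KL q =>
      EuclideanSpace ℝ (Fin k × Fin k)).symm (a, b) (Sum.inl i)) = a := funext fun i => rfl
  have e2 : (fun l : I q => (MeasurableEquiv.sumPiEquivProdPi fun _ : KL q =>
      EuclideanSpace ℝ (Fin k × Fin k)).symm (a, b) (Sum.inr l)) = b := funext fun l => rfl
  rw [e1, e2] at h1
  exact h1

lemma ennreal_final {g BA P : ℝ} (hP : 0 < P) {v : ℝ≥0∞}
    (h : ENNReal.ofReal (1 / 2 * g / 2 / BA) ≤ ENNReal.ofReal P⁻¹ * v) :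
    ENNReal.ofReal ((1 / 4) * P * g / BA) ≤ v := by
  have h2 := mul_le_mul' (le_refl (ENNReal.ofReal P)) h
  rw [← mul_assoc, ← ENNReal.ofReal_mul hP.le, ← ENNReal.ofReal_mul hP.le,
    mul_inv_cancel₀ hP.ne', ENNReal.ofReal_one, one_mul] at h2
  refine le_trans (le_of_eq (congrArg _ ?_)) h2
  ring

lemma volume_lower (hq : 1 ≤ q) : ∃ R : ℝ, 0 < R ∧ ∀ (m : ℕ) (δ : ℝ), 0 < δ → ∀ᶠ k : ℕ in atTop,
    ENNReal.ofReal ((1 / 4) * (∏ j : I q, Real.sqrt (eta j) ^ (k * k)) *
      (Real.sqrt (2 * Real.pi / k)) ^ (Fintype.card (KL q) * (k * k)) /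
        ((2 * Real.pi * Real.exp 1 * 2 / k) ^ (((k : ℝ) ^ 2) / 2)) ^ 2) ≤
      volume (microstates (vac (Lab q)) Z R m δ k) := by
  obtain ⟨R, hR, htr⟩ := exists_good_transfer (q := q)
  refine ⟨R, hR, fun m δ hδ => ?_⟩
  obtain ⟨m', δ', hδ', hδ1, hm', hmap⟩ := htr m δ hδ
  filter_upwards [eventually_goodSet (K := KL q) m' hδ', eventually_gt_atTop 0] with k hgood hk
  have hkR : (0 : ℝ) < k := Nat.cast_pos.2 hk
  have hg : (0 : ℝ) < 1 / 2 * Real.sqrt (2 * Real.pi / k) ^ (Fintype.card (KL q) * (k * k)) :=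
    mul_pos one_half_pos (pow_pos (Real.sqrt_pos.2 (div_pos (by positivity) hkR)) _)
  obtain ⟨a, ha⟩ := exists_slice hk hm' hδ1 hg (volume_goodTuples_ge hk hgood)
  have h1 := (measure_mono (μ := volume) (slice_subset a (hmap k hk))).trans
    (volume_affine_preimage_le hq a _)
  rw [Finset.prod_inv_distrib] at h1
  exact ennreal_final (Finset.prod_pos fun j _ => pow_pos (Real.sqrt_pos.2 (eta_pos hq j)) _)
    (ha.trans h1)

/-- **`χ > -∞`.** -/
theorem chi_lower (hq : 1 ≤ q) : ⊥ < chi (vac (Lab q)) Z := by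
  obtain ⟨R, hR, hvol⟩ := volume_lower hq
  set c : ℝ := -2 + (∑ j : I q, Real.log (eta j)) / 2 +
    (Fintype.card (KL q) : ℝ) / 2 * Real.log (2 * Real.pi) - Real.log (2 * Real.pi * Real.exp 1 * 2)
  refine lt_of_lt_of_le (EReal.bot_lt_coe c) (le_iSup₂_of_le R hR ?_)
  refine le_iInf fun m => le_iInf₂ fun δ hδ => ?_
  refine le_trans ?_ (Filter.liminf_le_limsup)
  refine Filter.le_liminf_of_le ?_ ?_
  · exact Filter.isCobounded_ge_of_top
  filter_upwards [hvol m δ hδ, eventually_gt_atTop 0] with k hk hk0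
  have hkR : (0 : ℝ) < k := Nat.cast_pos.2 hk0
  have hP : 0 < ∏ j : I q, Real.sqrt (eta j) ^ (k * k) :=
    Finset.prod_pos fun j _ => by
      have := Real.sqrt_pos.2 (eta_pos hq j)
      positivity
  unfold microstatesLogVol
  refine le_trans ?_ (add_le_add (mul_le_mul_of_nonneg_left
    (ENNReal.log_monotone hk) (EReal.coe_nonneg.2 (by positivity))) le_rfl)
  rw [ENNReal.log_ofReal_of_pos (by positivity), ← EReal.coe_mul, ← EReal.coe_add,
    EReal.coe_le_coe_iff, Real.log_div (by positivity) (by positivity),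
    Real.log_mul (by positivity) (by positivity), Real.log_mul (by norm_num) hP.ne',
    Real.log_pow, Real.log_pow, Real.log_prod (fun j _ => by
      have := Real.sqrt_pos.2 (eta_pos hq j)
      positivity)]
  simp only [Real.log_pow]
  rw [Real.log_rpow (by positivity), Real.log_sqrt (by positivity),
    Real.log_div (by positivity) hkR.ne', Real.log_div (by positivity) hkR.ne',
    show ∑ j : I q, ((k * k : ℕ) : ℝ) * Real.log (Real.sqrt (eta j)) =
      ((k * k : ℕ) : ℝ) * ((∑ j : I q, Real.log (eta j)) / 2) by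
      rw [Finset.sum_div, Finset.mul_sum]
      exact Finset.sum_congr rfl fun j _ => by rw [Real.log_sqrt (eta_pos hq j).le],
    show (Fintype.card (I q) : ℝ) = (Fintype.card (KL q) : ℝ) - 2 by simp [Fintype.card_sum]]
  have h4 : -2 ≤ ((k : ℝ) ^ 2)⁻¹ * Real.log (1 / 4) := by
    have hk1 : ((k : ℝ) ^ 2)⁻¹ ≤ 1 := inv_le_one_of_one_le₀ (one_le_pow₀ (by exact_mod_cast hk0))
    have hl : -2 ≤ Real.log (1 / 4) := by
      rw [one_div, Real.log_inv, show (4 : ℝ) = 2 ^ 2 by norm_num, Real.log_pow]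
      have := Real.log_two_lt_d9
      norm_num; linarith
    have hl0 : Real.log (1 / 4) ≤ 0 := Real.log_nonpos (by norm_num) (by norm_num)
    nlinarith
  simp only [c]
  push_cast
  have hk2 : (k : ℝ) ≠ 0 := hkR.ne'
  refine le_trans ?_ (le_of_eq (?_ : ((k : ℝ) ^ 2)⁻¹ * Real.log (1 / 4) +
    ((∑ j : I q, Real.log (eta j)) / 2 +
    (Fintype.card (KL q) : ℝ) / 2 * Real.log (2 * Real.pi) -
      Real.log (2 * Real.pi * Real.exp 1 * 2)) = _))
  · linarith
  · field_simp
    ring

end Model

end Vale.Agent.P087
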