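import Vale.Agent.P087.Fisher
import Vale.Agent.P087.Lower

/-! The two free entropies differ for the tuple of `Model`. -/

open scoped ENNReal NNReal InnerProductSpace
open MeasureTheory

namespace Vale.Agent.P087

set_option linter.unusedSectionVars false

namespace Model

variable {q : ℕ}

lemma card_V (q : ℕ) : (Fintype.card (V q) : ℝ) = ((2 : ℝ) ^ q) ^ 2 := by
  rw [Fintype.card_fun, Fintype.card_fin, Fintype.card_fin]
  push_cast
  rw [← pow_mul, mul_comm q 2]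

lemma chi_lt_chiStar (hq : 1 ≤ q)
    (hbig : (2 : ℝ) ^ 21 * q * (4 * q + 1) ^ 2 < (2 : ℝ) ^ q) :
    chi (vac (Lab q)) Z < chiStar (vac (Lab q)) Z S := by
  refine (chi_upper hq).trans_lt (lt_of_lt_of_le ?_ (chiStar_lower hq))
  rw [EReal.coe_lt_coe_iff]
  set n : ℝ := (Fintype.card (V q) : ℝ)
  set t : ℝ := tn q
  have hn : n = ((2 : ℝ) ^ q) ^ 2 := card_V q
  have hn0 : 0 ≤ n := Nat.cast_nonneg _
  have ht : 0 < t := tn_pos q
  have hqR : (1 : ℝ) ≤ q := by exact_mod_cast hq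
  have hts : s0 ≤ t := by
    unfold s0
    simp only [t, tn]
    have h1 : (25 : ℝ) ≤ (4 * q + 1) ^ 2 := by nlinarith
    have h2 : (1 : ℝ) ≤ 2 ^ q := one_le_pow₀ one_le_two
    calc (2 : ℝ) ^ 14 ≤ (2 : ℝ) ^ 11 * 25 * 1 := by norm_num
      _ ≤ (2 : ℝ) ^ 11 * (4 * (q : ℝ) + 1) ^ 2 * (2 : ℝ) ^ q := by gcongr
  have hlog : Real.log (t + 1 / 4) ≤ Real.log t + 1 / (4 * t) := by
    have h := Real.log_le_sub_one_of_pos (show 0 < (t + 1 / 4) / t by positivity)
    rw [Real.log_div (by linarith) ht.ne'] at h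
    have : (t + 1 / 4) / t - 1 = 1 / (4 * t) := by field_simp; ring
    linarith
  have hfrac : 3 / 8 * n / t ≤ 3 / 4 * n / (t + s0) := by
    have : 0 < t + s0 := by linarith [show (0 : ℝ) < s0 by unfold s0; norm_num]
    rw [div_le_div_iff₀ ht this]
    nlinarith
  have hmain : 2 * (Real.log 2 - Real.log (eps q)) < n / (8 * t) := by
    have h1 : Real.log 2 - Real.log (eps q) < 64 * q := by
      rw [eps, one_div, Real.log_inv, sub_neg_eq_add, ← Real.log_mul two_ne_zero (by positivity)]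
      have := Real.log_le_sub_one_of_pos (show (0 : ℝ) < 2 * (32 * q) by positivity)
      linarith
    have h2 : 2 * (64 * (q : ℝ)) < n / (8 * t) := by
      rw [lt_div_iff₀ (by positivity), hn]
      simp only [t, tn]
      calc 2 * (64 * (q : ℝ)) * (8 * (2 ^ 11 * (4 * q + 1) ^ 2 * 2 ^ q))
          = ((2 : ℝ) ^ 21 * q * (4 * q + 1) ^ 2) * 2 ^ q := by ring
        _ < (2 : ℝ) ^ q * 2 ^ q := mul_lt_mul_of_pos_right hbig (by positivity)
        _ = _ := by ring
    linarith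
  have hm := mul_le_mul_of_nonneg_left hlog (half_pos (lt_of_le_of_lt hn0 (lt_add_one n))).le
  have hm' : n / 2 * Real.log (t + 1 / 4) ≤ n / 2 * (Real.log t + 1 / (4 * t)) :=
    mul_le_mul_of_nonneg_left hlog (by positivity)
  have e1 : n / 2 * (Real.log t + 1 / (4 * t)) = n / 2 * Real.log t + n / (8 * t) := by
    field_simp; ring
  have e2 : 3 / 8 * n / t = 3 * (n / (8 * t)) := by field_simp
  linarith

lemma one_le_norm_sq (j : I q) {s : ℝ} {ξ : Fock (Lab q)}
    (hξ : IsConjugateVariable (vac (Lab q)) (heatFlow Z S s) j ξ) :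
    1 ≤ ‖ξ‖ ^ 2 * ‖heatFlow Z S s j (vac (Lab q))‖ ^ 2 := by
  have h := hξ.2 [j]
  have hd : freeDiffQuot (vac (Lab q)) (heatFlow Z S s) j [j] = 1 := by
    simp [freeDiffQuot, wordEval, vecState_one norm_vac]
  rw [hd] at h
  have h2 := norm_inner_le_norm (𝕜 := ℂ) ξ (wordEval (heatFlow Z S s) [j] (vac (Lab q)))
  rw [h, norm_one] at h2
  rw [← mul_pow]
  refine one_le_pow₀ ?_
  simpa [wordEval] using h2

lemma norm_sq_heat (hq : 1 ≤ q) {s : ℝ} (hs : 0 ≤ s) (j : I q) :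
    ‖heatFlow Z S s j (vac (Lab q))‖ ^ 2 ≤ 1 + u s j := by
  set Ω := vac (Lab q)
  have hx : ‖X0 j Ω‖ ≤ 1 := by
    cases j with
    | inl i =>
      show ‖((cs q : ℂ) • a0 i) Ω‖ ≤ 1
      rw [smul_apply, a0, sL_vac, norm_smul, norm_bv, mul_one, Complex.norm_real, cs,
        Real.norm_of_nonneg (Real.sqrt_nonneg _)]
      exact Real.sqrt_le_one.2 (by linarith [eps_pos hq])
    | inr v => exact (norm_xel_vac v).le
  have horth : inner ℂ (X0 j Ω) (rn s j Ω) = 0 := by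
    rw [← ContinuousLinearMap.adjoint_inner_left, ← ContinuousLinearMap.star_eq_adjoint]
    have h := DFunLike.congr_fun (rn_comm_sig s j (X0_mem_sigAlg j)) Ω
    rw [show star (rn s j) (X0 j Ω) = X0 j (star (rn s j) Ω) from h, rn_ann_vac, map_zero,
      inner_zero_left]
  have hdec : heatFlow Z S s j Ω = X0 j Ω + (Real.sqrt (u s j) : ℂ) • rn s j Ω := by
    rw [heat_eq hq hs, smul_apply, add_apply, Rn_vac, smul_add]
    congr 1
    show (Real.sqrt (u s j) : ℂ) • (((Real.sqrt (u s j))⁻¹ : ℂ) • X0 j Ω) = _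
    rw [smul_smul, mul_inv_cancel₀ (sqrt_u_ne hq hs j), one_smul]
  rw [hdec, @norm_add_sq ℂ, inner_smul_right, horth, norm_smul, norm_rn_vac hq hs,
    Complex.norm_real, Real.norm_of_nonneg (Real.sqrt_nonneg _), mul_one,
    Real.sq_sqrt (u_pos hq hs j).le]
  have := pow_le_one₀ (n := 2) (norm_nonneg _) hx
  simp
  linarith

lemma freeFisher_ge (hq : 1 ≤ q) {s : ℝ} (hs : 0 ≤ s) :
    ENNReal.ofReal (∑ j : I q, (1 + u s j)⁻¹) ≤ freeFisher (vac (Lab q)) (heatFlow Z S s) := by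
  rw [freeFisher, ENNReal.ofReal_sum_of_nonneg (fun j _ => by have := u_pos hq hs j; positivity)]
  refine Finset.sum_le_sum fun j _ => le_iInf₂ fun ξ hξ => ENNReal.ofReal_le_ofReal ?_
  have h1 := one_le_norm_sq j hξ
  have h2 := mul_le_mul_of_nonneg_left (norm_sq_heat hq hs j) (sq_nonneg ‖ξ‖)
  rw [inv_le_iff_one_le_mul₀ (by have := u_pos hq hs j; positivity)]
  linarith

lemma chiStar_lt_top (hq : 1 ≤ q) : chiStar (vac (Lab q)) Z S < ⊤ := by
  have hint : ∀ j : I q, IntegrableOn (fun s : ℝ => 1 / (1 + s) - 1 / (1 + eta j + s)) (Set.Ioi 0) :=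
    fun j => (integral_inv_sub (add_pos one_pos (eta_pos hq j))).1
  have hI : Integrable (fun s : ℝ => ∑ j : I q, (1 / (1 + s) - 1 / (1 + eta j + s)))
      (volume.restrict (Set.Ioi 0)) := integrable_finsetSum _ fun j _ => hint j
  have hpos : ∫⁻ s in Set.Ioi (0 : ℝ), (ENNReal.ofReal ((Fintype.card (I q) : ℝ) / (1 + s)) -
      freeFisher (vac (Lab q)) (heatFlow Z S s)) < ⊤ := by
    refine lt_of_le_of_lt (lintegral_mono_ae ((ae_restrict_iff' measurableSet_Ioi).2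
      (Filter.Eventually.of_forall fun s hs => ?_))) hI.lintegral_lt_top
    have hs0 : 0 ≤ s := le_of_lt hs
    refine (tsub_le_tsub_left (freeFisher_ge hq hs0) _).trans (le_of_eq ?_)
    rw [← ENNReal.ofReal_sub _ (Finset.sum_nonneg fun j _ => by
      have := u_pos hq hs0 j; positivity)]
    congr 1
    simp only [Finset.sum_sub_distrib, Finset.sum_const, Finset.card_univ, nsmul_eq_mul, u, one_div]
    ring_nf
  unfold chiStar
  refine EReal.add_lt_top ?_ (EReal.coe_ne_top _)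
  intro h
  rw [EReal.mul_eq_top] at h
  rcases h with ⟨h, _⟩ | ⟨h, _⟩ | ⟨h, _⟩ | ⟨_, h⟩
  · exact EReal.coe_ne_bot _ h
  · exact absurd h (not_lt.2 (EReal.coe_nonneg.2 (by norm_num)))
  · exact EReal.coe_ne_top _ h
  · have hp : ((∫⁻ s in Set.Ioi (0 : ℝ), (ENNReal.ofReal ((Fintype.card (I q) : ℝ) / (1 + s)) -
        freeFisher (vac (Lab q)) (heatFlow Z S s)) : ℝ≥0∞) : EReal) ≠ ⊤ := by
      rw [Ne, EReal.coe_ennreal_eq_top_iff]; exact hpos.ne
    rw [sub_eq_add_neg] at h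
    refine (EReal.add_lt_top hp ?_).ne h
    rw [Ne, EReal.neg_eq_top_iff]
    exact EReal.coe_ennreal_ne_bot _

/-- The tuple with `q = 48`. -/
theorem counterexample : ∃ q : ℕ, 1 ≤ q ∧ ⊥ < chi (vac (Lab q)) Z ∧
    chi (vac (Lab q)) Z < chiStar (vac (Lab q)) Z S ∧ chiStar (vac (Lab q)) Z S < ⊤ :=
  ⟨48, by norm_num, chi_lower (by norm_num), chi_lt_chiStar (by norm_num) (by norm_num),
    chiStar_lt_top (by norm_num)⟩

end Model

end Vale.Agent.P087
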