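import Vale.Agent.P087.Fisher

/-! Measurability of the free Fisher information along the heat flow, via a countable supremum. -/

open scoped InnerProductSpace ENNReal
open MeasureTheory

namespace Vale.Agent.P087

set_option linter.unusedSectionVars false

variable {ι : Type} [Fintype ι] [DecidableEq ι] {H : Type} [NormedAddCommGroup H]
  [InnerProductSpace ℂ H] [CompleteSpace H]

/-- A complex number with rational parts. -/
noncomputable def ratC (p : ℚ × ℚ) : ℂ := (p.1 : ℂ) + (p.2 : ℂ) * Complex.I

lemma denseRange_ratC : DenseRange ratC := by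
  have h1 : DenseRange (Prod.map (fun x : ℚ => (x : ℝ)) (fun x : ℚ => (x : ℝ))) :=
    Rat.denseRange_cast.prodMap Rat.denseRange_cast
  have h2 := (Complex.equivRealProdCLM.symm.surjective.denseRange).comp h1
    Complex.equivRealProdCLM.symm.continuous
  refine h2.mono ?_
  rintro _ ⟨p, rfl⟩
  refine ⟨p, ?_⟩
  apply Complex.ext <;> simp [ratC]

/-- The evaluation of a combination of monomials. -/
noncomputable def combEval (Ω : H) (Y : ι → H →L[ℂ] H) : (List ι →₀ ℂ) →ₗ[ℂ] H :=
  Finsupp.linearCombination ℂ fun w => wordEval Y w Ω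

/-- The functional attached to the `j`-th free difference quotient. -/
noncomputable def combQuot (Ω : H) (Y : ι → H →L[ℂ] H) (j : ι) : (List ι →₀ ℂ) →ₗ[ℂ] ℂ :=
  Finsupp.linearCombination ℂ fun w => freeDiffQuot Ω Y j w

/-- The countable supremum computing one term of the free Fisher information. -/
noncomputable def fisherSup (Ω : H) (Y : ι → H →L[ℂ] H) (j : ι) : ℝ≥0∞ :=
  ⨆ (c : List ι →₀ ℚ × ℚ), ENNReal.ofReal (‖∑ w ∈ c.support, ratC (c w) * freeDiffQuot Ω Y j w‖ ^ 2) /
    ENNReal.ofReal (‖∑ w ∈ c.support, ratC (c w) • wordEval Y w Ω‖ ^ 2)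

lemma fisherSup_eq (Ω : H) (Y : ι → H →L[ℂ] H) (j : ι) :
    (⨅ (ξ : H) (_ : IsConjugateVariable Ω Y j ξ), ENNReal.ofReal (‖ξ‖ ^ 2)) =
      fisherSup Ω Y j := by
  refine le_antisymm ?_ (iSup_le fun c => le_iInf₂ fun ξ hξ => ?_)
  · by_cases htop : fisherSup Ω Y j = ⊤
    · rw [htop]; exact le_top
    set K : ℝ := (fisherSup Ω Y j).toReal
    have hK0 : 0 ≤ K := ENNReal.toReal_nonneg
    have hrat : ∀ c : List ι →₀ ℚ × ℚ, ‖∑ w ∈ c.support, ratC (c w) * freeDiffQuot Ω Y j w‖ ^ 2 ≤
        K * ‖∑ w ∈ c.support, ratC (c w) • wordEval Y w Ω‖ ^ 2 := by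
      intro c
      have h := le_iSup (fun c : List ι →₀ ℚ × ℚ =>
        ENNReal.ofReal (‖∑ w ∈ c.support, ratC (c w) * freeDiffQuot Ω Y j w‖ ^ 2) /
          ENNReal.ofReal (‖∑ w ∈ c.support, ratC (c w) • wordEval Y w Ω‖ ^ 2)) c
      have h' := h.trans (le_of_eq (show _ = ENNReal.ofReal K from (ENNReal.ofReal_toReal htop).symm))
      rw [ENNReal.div_le_iff_le_mul (Or.inr ENNReal.ofReal_ne_top) (Or.inl ENNReal.ofReal_ne_top),
        ← ENNReal.ofReal_mul hK0, ENNReal.ofReal_le_ofReal_iff (by positivity)] at h'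
      exact h'
    have hall : ∀ c : List ι →₀ ℂ, ‖combQuot Ω Y j c‖ ^ 2 ≤ K * ‖combEval Ω Y c‖ ^ 2 := by
      intro c
      simp only [combQuot, combEval, Finsupp.linearCombination_apply, Finsupp.sum, smul_eq_mul]
      set s := c.support
      rw [← Finset.sum_coe_sort s, ← Finset.sum_coe_sort s]
      have key : ∀ z : s → ℂ, ‖∑ w, z w * freeDiffQuot Ω Y j w‖ ^ 2 ≤
          K * ‖∑ w, z w • wordEval Y (w : List ι) Ω‖ ^ 2 := by
        intro z
        refine (DenseRange.piMap (fun _ : s => denseRange_ratC)).induction_on z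
          (isClosed_le (by fun_prop) (by fun_prop)) fun p => ?_
        classical
        let c' : List ι →₀ ℚ × ℚ :=
          Finsupp.onFinset s (fun w => if h : w ∈ s then p ⟨w, h⟩ else 0) fun w hw => by
            by_contra hws; simp [hws] at hw
        have h := hrat c'
        have e : ∀ {M : Type} [AddCommMonoid M] (F : List ι → ℂ → M), (∀ w, F w 0 = 0) →
            ∑ w ∈ c'.support, F w (ratC (c' w)) = ∑ w : s, F w (ratC (p w)) := by
          intro M _ F hF
          rw [Finset.sum_subset (show c'.support ⊆ s from Finsupp.support_onFinset_subset)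
            (fun w _ hw => by
              rw [Finsupp.notMem_support_iff.1 hw]
              simp [ratC, hF]), ← Finset.sum_coe_sort s]
          refine Finset.sum_congr rfl fun w _ => ?_
          simp [c']
        rw [e (fun w r => r * freeDiffQuot Ω Y j w) (fun w => zero_mul _),
          e (fun w r => r • wordEval Y w Ω) (fun w => zero_smul ℂ (wordEval Y w Ω))] at h
        exact h
      exact key fun w => c w
    have hker : LinearMap.ker (combEval Ω Y) ≤ LinearMap.ker (combQuot Ω Y j) := by
      intro c hc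
      rw [LinearMap.mem_ker] at hc ⊢
      have := hall c
      rw [hc, norm_zero, zero_pow two_ne_zero, mul_zero] at this
      exact norm_eq_zero.1 (pow_eq_zero_iff two_ne_zero |>.1 (le_antisymm this (sq_nonneg _)))
    let f : LinearMap.range (combEval Ω Y) →ₗ[ℂ] ℂ :=
      ((LinearMap.ker (combEval Ω Y)).liftQ (combQuot Ω Y j) hker).comp
        (combEval Ω Y).quotKerEquivRange.symm.toLinearMap
    have hf : ∀ c, f ⟨combEval Ω Y c, LinearMap.mem_range_self _ c⟩ = combQuot Ω Y j c := by
      intro c
      show ((LinearMap.ker (combEval Ω Y)).liftQ (combQuot Ω Y j) hker)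
        ((combEval Ω Y).quotKerEquivRange.symm _) = _
      have : (combEval Ω Y).quotKerEquivRange.symm ⟨combEval Ω Y c, LinearMap.mem_range_self _ c⟩ =
          Submodule.Quotient.mk c := by
        apply (combEval Ω Y).quotKerEquivRange.injective
        rw [LinearEquiv.apply_symm_apply]
        exact Subtype.ext ((combEval Ω Y).quotKerEquivRange_apply_mk c).symm
      rw [this, Submodule.liftQ_apply]
    have hfb : ∀ x, ‖f x‖ ≤ Real.sqrt K * ‖x‖ := by
      rintro ⟨x, c, rfl⟩
      rw [hf c]
      have h := Real.sqrt_le_sqrt (hall c)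
      rwa [Real.sqrt_sq (norm_nonneg _), Real.sqrt_mul hK0, Real.sqrt_sq (norm_nonneg _)] at h
    obtain ⟨g, hg, hgn⟩ := exists_extension_norm_eq _ (f.mkContinuous (Real.sqrt K) hfb)
    set v : H := (InnerProductSpace.toDual ℂ H).symm g with hv
    have hvn : ‖v‖ ≤ Real.sqrt K := by
      rw [hv, LinearIsometryEquiv.norm_map, hgn]
      exact LinearMap.mkContinuous_norm_le _ (Real.sqrt_nonneg _) _
    obtain ⟨ξ, hξ, hn⟩ := exists_conjugate_le Ω Y j v fun w => by
      rw [hv, InnerProductSpace.toDual_symm_apply]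
      have h1 : combEval Ω Y (Finsupp.single w 1) = wordEval Y w Ω := by
        simp [combEval]
      rw [← h1, hg ⟨_, LinearMap.mem_range_self _ _⟩]
      show f _ = _
      rw [hf]
      simp [combQuot]
    refine (iInf₂_le ξ hξ).trans ?_
    refine (ENNReal.ofReal_le_ofReal (q := K) ?_).trans (ENNReal.ofReal_toReal htop).le
    calc ‖ξ‖ ^ 2 ≤ Real.sqrt K ^ 2 := pow_le_pow_left₀ (norm_nonneg _) (hn.trans hvn) 2
      _ = K := Real.sq_sqrt hK0
  · refine ENNReal.div_le_of_le_mul ?_
    rw [← ENNReal.ofReal_mul (sq_nonneg _)]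
    refine ENNReal.ofReal_le_ofReal ?_
    have h : ∑ w ∈ c.support, ratC (c w) * freeDiffQuot Ω Y j w =
        inner ℂ ξ (∑ w ∈ c.support, ratC (c w) • wordEval Y w Ω) := by
      rw [inner_sum]
      exact Finset.sum_congr rfl fun w _ => by rw [inner_smul_right, hξ.2 w]
    rw [h, ← mul_pow]
    exact pow_le_pow_left₀ (norm_nonneg _) (norm_inner_le_norm (𝕜 := ℂ) _ _) 2

lemma continuous_wordEval_heat (X S : ι → H →L[ℂ] H) :
    ∀ w : List ι, Continuous fun s : ℝ => wordEval (heatFlow X S s) w
  | [] => continuous_const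
  | i :: w => by
    show Continuous fun s : ℝ => heatFlow X S s i * wordEval (heatFlow X S s) w
    refine Continuous.mul ?_ (continuous_wordEval_heat X S w)
    unfold heatFlow
    fun_prop

lemma measurable_freeFisher (Ω : H) (X S : ι → H →L[ℂ] H) :
    Measurable fun s : ℝ => freeFisher Ω (heatFlow X S s) := by
  simp only [freeFisher, fisherSup_eq, fisherSup]
  refine Finset.measurable_fun_sum _ fun j _ => Measurable.iSup fun c => ?_
  have hw : ∀ w, Continuous fun s : ℝ => vecState Ω (wordEval (heatFlow X S s) w) := fun w =>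
    continuous_const.inner ((continuous_wordEval_heat X S w).clm_apply continuous_const)
  have hd : ∀ w, Continuous fun s : ℝ => freeDiffQuot Ω (heatFlow X S s) j w := by
    intro w
    unfold freeDiffQuot
    refine continuous_finsetSum _ fun l _ => ?_
    split_ifs
    · exact (hw _).mul (hw _)
    · exact continuous_const
  refine Measurable.div (ENNReal.continuous_ofReal.comp ?_).measurable
    (ENNReal.continuous_ofReal.comp ?_).measurable
  · exact ((continuous_finsetSum _ fun w _ => continuous_const.mul (hd w)).norm).pow 2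
  · exact ((continuous_finsetSum _ fun w _ =>
      continuous_const.smul ((continuous_wordEval_heat X S w).clm_apply continuous_const)).norm).pow 2

end Vale.Agent.P087
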