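import Vale.Agent.P087.Gauge

/-! The tuple refuting `χ = χ*`. -/

open scoped InnerProductSpace TensorProduct

namespace Vale.Agent.P087

set_option linter.unusedSectionVars false

namespace Model

variable (q : ℕ)

/-- The labels of the high degree variables. -/
abbrev V : Type := Fin (2 * q) → Fin 2

/-- The index type of the tuple. -/
abbrev I : Type := Fin 2 ⊕ V q

/-- The labels of the Fock space: signal, noise, heat. -/
abbrev Lab : Type := (Fin 2 ⊕ I q) ⊕ I q

variable {q}

/-- Signal label. -/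
def al (i : Fin 2) : Lab q := Sum.inl (Sum.inl i)

/-- Noise label. -/
def nz (j : I q) : Lab q := Sum.inl (Sum.inr j)

/-- Heat label. -/
def ht (j : I q) : Lab q := Sum.inr j

lemma al_inj : Function.Injective (al (q := q)) := fun a b h => by simpa [al] using h

/-- The palindrome attached to a label. -/
def base (v : V q) : List (Fin 2) := List.ofFn v ++ (List.ofFn v).reverse

lemma base_length (v : V q) : (base v).length = 4 * q := by simp [base]; omega

lemma base_palindrome (v : V q) : (base v).reverse = base v := by simp [base]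

lemma base_inj : Function.Injective (base (q := q)) := by
  intro v w h
  apply List.ofFn_injective
  exact List.append_inj_left h (by simp)

/-- The variance of the regularising noise of the first two variables. -/
noncomputable def eps (q : ℕ) : ℝ := 1 / (32 * q)

/-- The variance of the noise of the high degree variables. -/
noncomputable def tn (q : ℕ) : ℝ := 2 ^ 11 * (4 * q + 1) ^ 2 * 2 ^ q

/-- The threshold time. -/
def s0 : ℝ := 2 ^ 14

/-- The coefficient of the signal. -/
noncomputable def cs (q : ℕ) : ℝ := Real.sqrt (1 - eps q)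

lemma eps_pos (hq : 1 ≤ q) : 0 < eps q := by
  have : (1 : ℝ) ≤ q := by exact_mod_cast hq
  unfold eps; positivity

lemma eps_le (hq : 1 ≤ q) : eps q ≤ 1 / 32 := by
  have : (1 : ℝ) ≤ q := by exact_mod_cast hq
  unfold eps
  gcongr
  linarith

lemma cs_sq (hq : 1 ≤ q) : cs q ^ 2 = 1 - eps q :=
  Real.sq_sqrt (by linarith [eps_le hq])

lemma tn_pos (q : ℕ) : 0 < tn q := by unfold tn; positivity

/-- The noise variance. -/
noncomputable def eta : I q → ℝ
  | Sum.inl _ => eps q
  | Sum.inr _ => tn q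

lemma eta_pos (hq : 1 ≤ q) : ∀ j : I q, 0 < eta j
  | Sum.inl _ => eps_pos hq
  | Sum.inr _ => tn_pos q

/-- The two signal semicircular elements. -/
noncomputable def a0 (i : Fin 2) : Fock (Lab q) →L[ℂ] Fock (Lab q) := sL (al i)

/-- The high degree elements. -/
noncomputable def xel (v : V q) : Fock (Lab q) →L[ℂ] Fock (Lab q) := wick a0 (base v)

/-- The noiseless tuple. -/
noncomputable def X0 : I q → Fock (Lab q) →L[ℂ] Fock (Lab q)
  | Sum.inl i => (cs q : ℂ) • a0 i
  | Sum.inr v => xel v

/-- The tuple. -/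
noncomputable def Z (j : I q) : Fock (Lab q) →L[ℂ] Fock (Lab q) :=
  X0 j + (Real.sqrt (eta j) : ℂ) • sL (nz j)

/-- The free semicircular family free from the tuple. -/
noncomputable def S (j : I q) : Fock (Lab q) →L[ℂ] Fock (Lab q) := sL (ht j)

lemma crL_orth {L : Type} [DecidableEq L] (i j : L) :
    star (crL i) * crL j = if i = j then (1 : Fock L →L[ℂ] Fock L) else 0 := by
  refine op_ext fun w => ?_
  show star (crL i) (crL j (bv w)) = _
  rw [crL_bv, star_crL_cons]
  by_cases h : i = j
  · subst h; simp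
  · simp [h, Ne.symm h]

lemma crR_orth {L : Type} [DecidableEq L] (i j : L) :
    star (crR i) * crR j = if i = j then (1 : Fock L →L[ℂ] Fock L) else 0 := by
  refine op_ext fun w => ?_
  show star (crR i) (crR j (bv w)) = _
  rw [crR_bv, star_crR_snoc]
  by_cases h : i = j
  · subst h; simp
  · simp [h, Ne.symm h]

lemma crL_al_orth (i j : Fin 2) : star (crL (al (q := q) i)) * crL (al j) =
    if i = j then 1 else 0 := by
  rw [crL_orth]
  exact if_congr al_inj.eq_iff rfl rfl

lemma xel_eq (v : V q) : xel v = wickOp (crL (L := Lab q)) ((base v).map al) := by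
  rw [← wick_eq_wickOp crL crL_orth, ← wick_comp al al_inj]
  rfl

lemma star_xel (v : V q) : star (xel v) = xel v := by
  rw [xel_eq, star_wickOp]
  rw [← List.map_reverse, base_palindrome]

lemma star_X0 : ∀ j : I q, star (X0 j) = X0 j
  | Sum.inl i => by
    show star ((cs q : ℂ) • a0 i) = _
    rw [star_smul, a0, isSelfAdjoint_sL, Complex.star_def, Complex.conj_ofReal]
    rfl
  | Sum.inr v => star_xel v

lemma star_Z (j : I q) : star (Z j) = Z j := by
  rw [Z, star_add, star_X0, star_smul, isSelfAdjoint_sL, Complex.star_def, Complex.conj_ofReal]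

lemma a0_mem (i : Fin 2) : a0 (q := q) i ∈ fockAlg (Lab q) := sL_mem_fockAlg _

lemma X0_mem : ∀ j : I q, X0 j ∈ fockAlg (Lab q)
  | Sum.inl i => (fockAlg (Lab q)).toStarSubalgebra.toSubalgebra.smul_mem (a0_mem i) _
  | Sum.inr v => wick_mem (fockAlg (Lab q)).toStarSubalgebra.toSubalgebra a0 a0_mem (base v)

lemma Z_mem (j : I q) : Z j ∈ fockAlg (Lab q) :=
  (fockAlg (Lab q)).toStarSubalgebra.toSubalgebra.add_mem (X0_mem j)
    ((fockAlg (Lab q)).toStarSubalgebra.toSubalgebra.smul_mem (sL_mem_fockAlg _) _)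

lemma S_mem (j : I q) : S j ∈ fockAlg (Lab q) := sL_mem_fockAlg _

/-- The classes used for freeness. -/
def cls : Lab q → Option (I q)
  | Sum.inl _ => none
  | Sum.inr j => some j

lemma Z_mem_classAlg (j : I q) : Z j ∈ classAlg (cls (q := q)) none := by
  have hg : ∀ l : Fin 2 ⊕ I q, sL (Sum.inl l : Lab q) ∈ classAlg (cls (q := q)) none :=
    fun l => Algebra.subset_adjoin ⟨Sum.inl l, rfl, rfl⟩
  refine add_mem ?_ (Subalgebra.smul_mem _ (hg _) _)
  cases j with
  | inl i => exact Subalgebra.smul_mem _ (hg _) _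
  | inr v => exact wick_mem _ a0 (fun i => hg _) (base v)

lemma isFree : IsFreeSemicircularFamily (vac (Lab q)) Z S := by
  refine ⟨fun j p => ?_, fun l hne hl hch => ?_⟩
  · have h := fockMoment_replicate (ht j) p
    simpa [fockMoment, wordEval, S] using h
  · refine alternating_state (cls (q := q)) l hne (fun a ha => ⟨?_, (hl a ha).2⟩) hch
    have h := (hl a ha).1
    obtain ⟨o, T⟩ := a
    cases o with
    | none =>
      refine (Algebra.adjoin_le ?_) h
      rintro _ ⟨j, rfl⟩
      exact Z_mem_classAlg j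
    | some j =>
      refine Algebra.adjoin_mono ?_ h
      rintro _ rfl
      exact ⟨ht j, rfl, rfl⟩

/-- The total variance at time `s`. -/
noncomputable def u (s : ℝ) (j : I q) : ℝ := eta j + s

/-- The normalised signal. -/
noncomputable def xi (s : ℝ) (j : I q) : Fock (Lab q) →L[ℂ] Fock (Lab q) :=
  ((Real.sqrt (u s j))⁻¹ : ℂ) • X0 j

/-- Normalised combination of the noise and the heat. -/
noncomputable def combo (s : ℝ) (j : I q) (f : Lab q → Fock (Lab q) →L[ℂ] Fock (Lab q)) :
    Fock (Lab q) →L[ℂ] Fock (Lab q) :=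
  ((Real.sqrt (u s j))⁻¹ : ℂ) •
    ((Real.sqrt (eta j) : ℂ) • f (nz j) + (Real.sqrt s : ℂ) • f (ht j))

/-- The normalised noise. -/
noncomputable def Rn (s : ℝ) (j : I q) : Fock (Lab q) →L[ℂ] Fock (Lab q) := combo s j sL

/-- The right creation operator of the normalised noise. -/
noncomputable def rn (s : ℝ) (j : I q) : Fock (Lab q) →L[ℂ] Fock (Lab q) := combo s j crR

lemma u_pos (hq : 1 ≤ q) {s : ℝ} (hs : 0 ≤ s) (j : I q) : 0 < u s j :=
  add_pos_of_pos_of_nonneg (eta_pos hq j) hs

lemma sqrt_u_ne (hq : 1 ≤ q) {s : ℝ} (hs : 0 ≤ s) (j : I q) :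
    (Real.sqrt (u s j) : ℂ) ≠ 0 :=
  Complex.ofReal_ne_zero.2 (Real.sqrt_pos.2 (u_pos hq hs j)).ne'

lemma heat_eq (hq : 1 ≤ q) {s : ℝ} (hs : 0 ≤ s) (j : I q) :
    heatFlow Z S s j = (Real.sqrt (u s j) : ℂ) • (xi s j + Rn s j) := by
  simp only [heatFlow, Z, S, xi, Rn, combo, ← smul_add]
  rw [smul_smul, mul_inv_cancel₀ (sqrt_u_ne hq hs j), one_smul]
  abel

lemma star_combo (s : ℝ) (j : I q) (f : Lab q → Fock (Lab q) →L[ℂ] Fock (Lab q)) :
    star (combo s j f) = combo s j (fun l => star (f l)) := by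
  simp only [combo, star_smul, star_add, Complex.star_def, ← Complex.ofReal_inv,
    Complex.conj_ofReal]

lemma star_Rn (s : ℝ) (j : I q) : star (Rn s j) = Rn s j := by
  rw [Rn, star_combo]
  simp only [isSelfAdjoint_sL]

lemma combo_orth (hq : 1 ≤ q) {s : ℝ} (hs : 0 ≤ s)
    (f g : Lab q → Fock (Lab q) →L[ℂ] Fock (Lab q)) (Q : Fock (Lab q) →L[ℂ] Fock (Lab q))
    (P : Lab q → Lab q → Fock (Lab q) →L[ℂ] Fock (Lab q))
    (hP : ∀ a b, P a b = if a = b then Q else 0) (i j : I q)
    (hbil : combo s i f * combo s j g - combo s j g * combo s i f =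
      ((Real.sqrt (u s i))⁻¹ : ℂ) • ((Real.sqrt (u s j))⁻¹ : ℂ) •
        ((Real.sqrt (eta i) : ℂ) • (Real.sqrt (eta j) : ℂ) • P (nz i) (nz j) +
          (Real.sqrt (eta i) : ℂ) • (Real.sqrt s : ℂ) • P (nz i) (ht j) +
          (Real.sqrt s : ℂ) • (Real.sqrt (eta j) : ℂ) • P (ht i) (nz j) +
          (Real.sqrt s : ℂ) • (Real.sqrt s : ℂ) • P (ht i) (ht j))) :
    combo s i f * combo s j g - combo s j g * combo s i f = if i = j then Q else 0 := by
  rw [hbil, hP, hP, hP, hP]
  by_cases h : i = j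
  · subst h
    simp only [if_true, nz, ht, reduceCtorEq, if_false, smul_zero, add_zero, smul_smul,
      ← add_smul, ← mul_assoc]
    have hu : ((Real.sqrt (u s i))⁻¹ : ℂ) * ((Real.sqrt (u s i))⁻¹ : ℂ) *
        ((Real.sqrt (eta i) : ℂ) * (Real.sqrt (eta i) : ℂ) +
          (Real.sqrt s : ℂ) * (Real.sqrt s : ℂ)) = 1 := by
      rw [← Complex.ofReal_mul, ← Complex.ofReal_mul, Real.mul_self_sqrt hs,
        Real.mul_self_sqrt (eta_pos hq i).le, ← mul_inv, ← Complex.ofReal_mul,
        Real.mul_self_sqrt (u_pos hq hs i).le, ← Complex.ofReal_add]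
      exact inv_mul_cancel₀ (Complex.ofReal_ne_zero.2 (u_pos hq hs i).ne')
    rw [hu, one_smul]
  · rw [if_neg h]
    simp [nz, ht, h]

lemma rn_Rn_comm (hq : 1 ≤ q) {s : ℝ} (hs : 0 ≤ s) (i j : I q) :
    star (rn s i) * Rn s j - Rn s j * star (rn s i) =
      if i = j then vacProj (vac (Lab q)) else 0 := by
  rw [rn, star_combo, Rn]
  refine combo_orth hq hs _ _ _ (fun a b => star (crR a) * sL b - sL b * star (crR a))
    (fun a b => comm_ann_sL b a) i j ?_
  simp only [combo, smul_add, mul_add, add_mul, smul_mul_assoc, mul_smul_comm, smul_sub,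
    smul_smul]
  module

lemma rn_orth (hq : 1 ≤ q) {s : ℝ} (hs : 0 ≤ s) (i j : I q) :
    star (rn s i) * rn s j = if i = j then 1 else 0 := by
  have h : combo s i (fun l => star (crR l)) * combo s j crR =
      ((Real.sqrt (u s i))⁻¹ : ℂ) • ((Real.sqrt (u s j))⁻¹ : ℂ) •
        ((Real.sqrt (eta i) : ℂ) • (Real.sqrt (eta j) : ℂ) • (star (crR (nz i)) * crR (nz j)) +
          (Real.sqrt (eta i) : ℂ) • (Real.sqrt s : ℂ) • (star (crR (nz i)) * crR (ht j)) +
          (Real.sqrt s : ℂ) • (Real.sqrt (eta j) : ℂ) • (star (crR (ht i)) * crR (nz j)) +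
          (Real.sqrt s : ℂ) • (Real.sqrt s : ℂ) • (star (crR (ht i)) * crR (ht j))) := by
    simp only [combo, smul_add, mul_add, add_mul, smul_mul_assoc, mul_smul_comm, smul_smul]
    module
  rw [rn, rn, star_combo, h]
  simp only [crR_orth]
  by_cases hij : i = j
  · subst hij
    simp only [if_true, nz, ht, reduceCtorEq, if_false, smul_zero, add_zero, smul_smul,
      ← add_smul]
    have hu : ((Real.sqrt (u s i))⁻¹ : ℂ) * ((Real.sqrt (u s i))⁻¹ : ℂ) *
        ((Real.sqrt (eta i) : ℂ) * (Real.sqrt (eta i) : ℂ) +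
          (Real.sqrt s : ℂ) * (Real.sqrt s : ℂ)) = 1 := by
      rw [← Complex.ofReal_mul, ← Complex.ofReal_mul, Real.mul_self_sqrt hs,
        Real.mul_self_sqrt (eta_pos hq i).le, ← mul_inv, ← Complex.ofReal_mul,
        Real.mul_self_sqrt (u_pos hq hs i).le, ← Complex.ofReal_add]
      exact inv_mul_cancel₀ (Complex.ofReal_ne_zero.2 (u_pos hq hs i).ne')
    simp only [← mul_assoc] at hu ⊢
    rw [hu, one_smul]
  · rw [if_neg hij]
    simp [nz, ht, hij]

lemma rn_ann_vac (s : ℝ) (j : I q) : star (rn s j) (vac (Lab q)) = 0 := by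
  rw [rn, star_combo]
  simp only [combo, smul_apply, add_apply, vac, star_crR_nil, smul_zero, add_zero]

lemma Rn_vac (s : ℝ) (j : I q) : Rn s j (vac (Lab q)) = rn s j (vac (Lab q)) := by
  simp only [Rn, rn, combo, smul_apply, add_apply, sL_vac, crR_vac]

/-- The classes used for the signal algebra. -/
def cls' : Lab q → Bool
  | Sum.inl (Sum.inl _) => true
  | _ => false

/-- The signal algebra. -/
noncomputable def sigAlg (q : ℕ) : Subalgebra ℂ (Fock (Lab q) →L[ℂ] Fock (Lab q)) :=
  classAlg (cls' (q := q)) true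

lemma X0_mem_sigAlg : ∀ j : I q, X0 j ∈ sigAlg q
  | Sum.inl i =>
    Subalgebra.smul_mem _ (show a0 i ∈ sigAlg q from Algebra.subset_adjoin ⟨al i, rfl, rfl⟩) _
  | Sum.inr v => wick_mem (sigAlg q) a0
    (fun i => show a0 i ∈ sigAlg q from Algebra.subset_adjoin ⟨al i, rfl, rfl⟩) (base v)

lemma rn_comm_sig (s : ℝ) (j : I q) {W : Fock (Lab q) →L[ℂ] Fock (Lab q)} (hW : W ∈ sigAlg q) :
    star (rn s j) * W = W * star (rn s j) := by
  rw [rn, star_combo]
  induction hW using Algebra.adjoin_induction with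
  | mem x hx =>
    obtain ⟨l, hl, rfl⟩ := hx
    obtain ⟨i, rfl⟩ : ∃ i, l = al i := by
      rcases l with (i | k) | k
      · exact ⟨i, rfl⟩
      · simp [cls'] at hl
      · simp [cls'] at hl
    have h : ∀ a : Lab q, a ≠ al i → star (crR a) * sL (al i) = sL (al i) * star (crR a) := by
      intro a ha
      have := comm_ann_sL (al i) a
      rw [if_neg ha] at this
      exact sub_eq_zero.1 this
    simp only [combo, smul_add, add_mul, mul_add, smul_mul_assoc, mul_smul_comm,
      h (nz j) (by simp [nz, al]), h (ht j) (by simp [ht, al])]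
  | algebraMap a => exact (Algebra.commutes a _).symm
  | add x y _ _ hx hy => rw [mul_add, add_mul, hx, hy]
  | mul x y _ _ hx hy => rw [← mul_assoc, hx, mul_assoc, hy, mul_assoc]

lemma sigAlg_le : sigAlg q ≤ (fockAlg (Lab q)).toStarSubalgebra.toSubalgebra := by
  refine Algebra.adjoin_le ?_
  rintro _ ⟨l, _, rfl⟩
  exact sL_mem_fockAlg l

lemma Rn_mem (s : ℝ) (j : I q) : Rn s j ∈ (fockAlg (Lab q)).toStarSubalgebra.toSubalgebra :=
  Subalgebra.smul_mem _ (add_mem (Subalgebra.smul_mem _ (sL_mem_fockAlg _) _)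
    (Subalgebra.smul_mem _ (sL_mem_fockAlg _) _)) _

lemma lprod_crL_bv {L : Type} [DecidableEq L] (u w : List L) :
    lprod crL u (bv w) = bv (u ++ w) := by
  induction u with
  | nil => rfl
  | cons a u ih =>
    rw [lprod_cons]
    show crL a (lprod crL u (bv w)) = _
    rw [ih, crL_bv]
    rfl

lemma star_lprod_vac {L : Type} {β : Type} [DecidableEq L] (l : β → Fock L →L[ℂ] Fock L)
    (hl : ∀ j, star (l j) (vac L) = 0) :
    ∀ u : List β, u ≠ [] → star (lprod l u.reverse) (vac L) = 0
  | [], h => absurd rfl h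
  | a :: u, _ => by
    rw [List.reverse_cons, lprod_append, star_mul, lprod_cons, lprod_nil, mul_one]
    show star (l a) (star (lprod l u.reverse) (vac L)) = 0
    cases u with
    | nil => simpa [lprod] using hl a
    | cons b u => rw [star_lprod_vac l hl (b :: u) (List.cons_ne_nil _ _), map_zero]

lemma wickOp_vac {L : Type} {β : Type} [DecidableEq L] (l : β → Fock L →L[ℂ] Fock L)
    (hl : ∀ j, star (l j) (vac L) = 0) (w : List β) :
    wickOp l w (vac L) = lprod l w (vac L) := by
  rw [wickOp, sum_apply, Finset.sum_eq_single w.length]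
  · simp
  · intro s hs hne
    rw [Finset.mem_range] at hs
    show lprod l (w.take s) (star (lprod l (w.drop s).reverse) (vac L)) = 0
    rw [star_lprod_vac l hl _ (fun h => hne (by rw [List.drop_eq_nil_iff] at h; omega)), map_zero]
  · simp

lemma xel_vac (v : V q) : xel v (vac (Lab q)) = bv ((base v).map al) := by
  rw [xel_eq, wickOp_vac crL (fun j => star_crL_nil j), vac, lprod_crL_bv, List.append_nil]

lemma xel_state (hq : 1 ≤ q) (v : V q) : vecState (vac (Lab q)) (xel v) = 0 := by
  show inner ℂ _ (xel v (vac (Lab q))) = _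
  rw [xel_vac, vac, inner_bv, bv_apply, if_neg]
  intro h
  have := congrArg List.length h
  simp [base_length] at this
  omega

lemma norm_xel_vac (v : V q) : ‖xel v (vac (Lab q))‖ = 1 := by rw [xel_vac, norm_bv]

lemma isRealOp_sL {L : Type} [DecidableEq L] (l : L) : IsRealOp (sL l) :=
  (isRealOp_shift _ _).add (isRealOp_star_shift _ _)

lemma isRealOp_xi (s : ℝ) (j : I q) : IsRealOp (xi s j) := by
  rw [xi, ← Complex.ofReal_inv]
  refine IsRealOp.ofReal_smul _ ?_
  cases j with
  | inl i => exact IsRealOp.ofReal_smul _ (isRealOp_sL _)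
  | inr v => exact IsRealOp.wick (fun i => isRealOp_sL _) _

lemma a0_eq (i : Fin 2) : a0 (q := q) i =
    ∑ b : Bool, bif b then lprod crL [al i] * star (lprod crL []) else
      lprod crL [] * star (lprod crL [al i]) := by
  simp [a0, sL, lprod]

lemma norm_pairMap_a0 (Zv : Fock (Lab q) ⊗[ℂ] Fock (Lab q)) :
    ‖∑ i : Fin 2, pairMap (a0 (q := q) i) (a0 i) Zv‖ ≤ 8 * ‖Zv‖ := by
  let P : Bool → Fin 2 → List (Lab q) := fun b i => bif b then [al i] else []
  have hP : ∀ b i, (P b i).length = bif b then 1 else 0 := by intro b i; cases b <;> rfl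
  have h : ∀ b b' : Bool, ‖∑ i : Fin 2, pairMap
      (lprod crL (P b i) * star (lprod crL (P (!b) i)))
      (lprod crL (P b' i) * star (lprod crL (P (!b') i))) Zv‖ ≤ 2 * ‖Zv‖ := by
    intro b b'
    refine (norm_sum_pairMap_le crL crL_orth (P b) (P b') (P (!b)) (P (!b')) (hP b) (hP b')
      (hP _) (hP _) (fun i k h1 _ h3 _ => ?_) Zv).trans ?_
    · cases b
      · exact al_inj (by simpa [P] using h3)
      · exact al_inj (by simpa [P] using h1)
    · refine mul_le_mul_of_nonneg_right ?_ (norm_nonneg _)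
      rw [Fintype.card_fin, Real.sqrt_le_iff]
      norm_num
  have hs : ∑ i : Fin 2, pairMap (a0 (q := q) i) (a0 i) Zv =
      ∑ b : Bool, ∑ b' : Bool, ∑ i : Fin 2, pairMap
        (lprod crL (P b i) * star (lprod crL (P (!b) i)))
        (lprod crL (P b' i) * star (lprod crL (P (!b') i))) Zv := by
    rw [Finset.sum_congr rfl (fun b (_ : b ∈ (Finset.univ : Finset Bool)) => Finset.sum_comm
      (s := (Finset.univ : Finset Bool)) (t := (Finset.univ : Finset (Fin 2)))), Finset.sum_comm]
    refine Finset.sum_congr rfl fun i _ => ?_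
    rw [a0_eq, pairMap_sum_sum]
    refine Finset.sum_congr rfl fun b _ => Finset.sum_congr rfl fun b' _ => ?_
    cases b <;> cases b' <;> rfl
  rw [hs]
  refine (norm_sum_le _ _).trans ?_
  refine (Finset.sum_le_sum fun b _ => (norm_sum_le _ _).trans
    (Finset.sum_le_sum fun b' _ => h b b')).trans (le_of_eq ?_)
  simp only [Fintype.sum_bool]
  ring

lemma norm_pairMap_xel (Zv : Fock (Lab q) ⊗[ℂ] Fock (Lab q)) :
    ‖∑ v : V q, pairMap (xel v) (xel v) Zv‖ ≤ (4 * q + 1) ^ 2 * 2 ^ q * ‖Zv‖ := by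
  have hterm : ∀ v : V q, xel v = ∑ s ∈ Finset.range (4 * q + 1),
      lprod crL (((base v).map al).take s) * star (lprod crL (((base v).map al).drop s).reverse) :=
    fun v => by rw [xel_eq, wickOp, List.length_map, base_length]
  simp only [hterm, pairMap_sum_sum]
  rw [Finset.sum_comm]
  refine (norm_sum_le _ _).trans ?_
  have h : ∀ s ∈ Finset.range (4 * q + 1), ‖∑ v : V q, ∑ s' ∈ Finset.range (4 * q + 1),
      pairMap (lprod crL (((base v).map al).take s) *
          star (lprod crL (((base v).map al).drop s).reverse))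
        (lprod crL (((base v).map al).take s') *
          star (lprod crL (((base v).map al).drop s').reverse)) Zv‖ ≤
      (4 * q + 1) * (2 ^ q * ‖Zv‖) := by
    intro s _
    rw [Finset.sum_comm]
    refine (norm_sum_le _ _).trans ?_
    refine (Finset.sum_le_card_nsmul _ _ (2 ^ q * ‖Zv‖) fun s' _ => ?_).trans (le_of_eq ?_)
    · refine (norm_sum_pairMap_le crL crL_orth _ _ _ _
        (a := min s (4 * q)) (a' := min s' (4 * q)) (b := 4 * q - s) (b' := 4 * q - s')
        (fun v => by simp [base_length]) (fun v => by simp [base_length])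
        (fun v => by simp [base_length]) (fun v => by simp [base_length])
        (fun i k h1 _ h3 _ => ?_) Zv).trans (le_of_eq ?_)
      · apply base_inj
        apply List.map_injective_iff.2 al_inj
        rw [← List.take_append_drop s ((base i).map al), ← List.take_append_drop s ((base k).map al),
          h1, List.reverse_injective h3]
      · congr 1
        rw [Fintype.card_fun, Fintype.card_fin, Fintype.card_fin]
        push_cast
        rw [show (2 : ℝ) ^ (2 * q) = (2 ^ q) ^ 2 by rw [← pow_mul, mul_comm q 2],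
          Real.sqrt_sq (by positivity)]
    · simp
  refine (Finset.sum_le_card_nsmul _ _ _ h).trans (le_of_eq ?_)
  simp
  ring

lemma noiseData (hq : 1 ≤ q) {s : ℝ} (hs : s0 < s) :
    NoiseData (vac (Lab q)) (xi s) (Rn s) (rn s) (sigAlg q) (1 / 32) := by
  have hs' : 0 ≤ s := le_trans (by unfold s0; norm_num) hs.le
  refine ⟨norm_vac, fun j => Subalgebra.smul_mem _ (X0_mem_sigAlg j) _, fun j => ?_, star_Rn s,
    rn_ann_vac s, fun j W hW => rn_comm_sig s j hW, rn_Rn_comm hq hs', Rn_vac s,
    rn_orth hq hs', ?_, by norm_num, le_rfl, ?_⟩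
  · rw [xi, star_smul, star_X0, Complex.star_def, map_inv₀, Complex.conj_ofReal]
  · intro W hW V hV
    refine fockAlg_tracial.2.1 W (sigAlg_le hW) V ?_
    refine (Algebra.adjoin_le ?_ hV : V ∈ (fockAlg (Lab q)).toStarSubalgebra.toSubalgebra)
    rintro T (hT | ⟨j, rfl⟩)
    · exact sigAlg_le hT
    · exact Rn_mem s j
  · intro α _ y
    rw [gauge_eq_norm, gauge_eq_norm]
    have h0 : gaugeVec (fun p : α × I q => xi s p.2 (y p.1)) =
        ∑ j : I q, pairMap (xi s j) (xi s j) (gaugeVec y) := by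
      simp only [gaugeVec, map_sum, pairMap_tmul, ← (isRealOp_xi s _) _]
      rw [Fintype.sum_prod_type, Finset.sum_comm]
    rw [h0, Fintype.sum_sum_type]
    set G := gaugeVec y
    simp only [xi, X0, pairMap_smul_smul, smul_smul]
    have hu1 : ∀ i : Fin 2, u s (Sum.inl i : I q) = eps q + s := fun i => rfl
    have hu2 : ∀ v : V q, u s (Sum.inr v : I q) = tn q + s := fun v => rfl
    simp only [hu1, hu2, ← Finset.smul_sum]
    refine (norm_add_le _ _).trans ?_
    rw [norm_smul, norm_smul]
    have e1 : ‖((Real.sqrt (eps q + s))⁻¹ : ℂ) * (cs q : ℂ) *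
        (((Real.sqrt (eps q + s))⁻¹ : ℂ) * (cs q : ℂ))‖ ≤ 1 / 2 ^ 14 := by
      rw [mul_mul_mul_comm, ← mul_inv, ← Complex.ofReal_mul, ← Complex.ofReal_mul, ← Complex.ofReal_inv,
        ← Complex.ofReal_mul, Complex.norm_real,
        Real.mul_self_sqrt (by linarith [eps_pos hq]), ← pow_two, cs_sq hq,
        Real.norm_of_nonneg (mul_nonneg (inv_nonneg.2 (by linarith [eps_pos hq]))
          (by linarith [eps_le hq])), inv_mul_eq_div]
      refine div_le_div₀ (by norm_num) (by linarith [eps_pos hq]) (by norm_num) ?_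
      have : (2 : ℝ) ^ 14 < s := hs
      linarith [eps_pos hq]
    have e2 : ‖((Real.sqrt (tn q + s))⁻¹ : ℂ) * ((Real.sqrt (tn q + s))⁻¹ : ℂ)‖ ≤ 1 / tn q := by
      rw [← mul_inv, ← Complex.ofReal_mul, ← Complex.ofReal_inv, Complex.norm_real,
        Real.mul_self_sqrt (by linarith [tn_pos q]),
        Real.norm_of_nonneg (inv_nonneg.2 (by linarith [tn_pos q])), one_div]
      exact inv_anti₀ (tn_pos q) (by linarith)
    calc _ ≤ (1 / 2 ^ 14 : ℝ) * (8 * ‖G‖) + (1 / tn q) * ((4 * q + 1) ^ 2 * 2 ^ q * ‖G‖) := by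
          refine add_le_add ?_ ?_
          · exact mul_le_mul e1 (norm_pairMap_a0 G) (norm_nonneg _) (by norm_num)
          · exact mul_le_mul e2 (norm_pairMap_xel G) (norm_nonneg _)
              (by have := tn_pos q; positivity)
      _ = (1 / 32 : ℝ) ^ 2 * ‖G‖ := by
          unfold tn
          field_simp
          ring

end Model

end Vale.Agent.P087
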