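import Mathlib

/-! Hilbert space `ℓ²(α)` and the isometries induced by injective maps. -/

open scoped InnerProductSpace

set_option linter.unusedSectionVars false

namespace Vale.Agent.P087

/-- `ℓ²(α)`. -/
abbrev L2 (α : Type) : Type := lp (fun _ : α => ℂ) 2

variable {α β γ : Type} [DecidableEq α] [DecidableEq β]

/-- The standard basis vector. -/
noncomputable def bv (a : α) : L2 α := lp.single 2 a (1 : ℂ)

omit [DecidableEq β] in
lemma inner_bv (a : α) (v : L2 α) : inner ℂ (bv a) v = v a := by
  rw [bv, lp.inner_single_left]; simp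

lemma bv_apply (a b : α) : (bv a : L2 α) b = if b = a then 1 else 0 := by
  rw [bv, lp.single_apply]
  by_cases h : b = a
  · subst h; simp
  · simp [h]

lemma orthonormal_bv : Orthonormal ℂ (bv (α := α)) := by
  rw [orthonormal_iff_ite]
  intro a b
  rw [inner_bv, bv_apply]

lemma norm_bv (a : α) : ‖(bv a : L2 α)‖ = 1 := orthonormal_bv.1 a

/-- The standard Hilbert basis. -/
noncomputable def stdBasis (α : Type) : HilbertBasis α ℂ (L2 α) :=
  ⟨LinearIsometryEquiv.refl ℂ _⟩

lemma stdBasis_apply (a : α) : stdBasis α a = bv a :=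
  (stdBasis α).repr.injective (by
    rw [HilbertBasis.repr_self]
    simp [stdBasis, bv])

lemma dense_span_bv : Dense ((Submodule.span ℂ (Set.range (bv (α := α)))) : Set (L2 α)) := by
  have h := (stdBasis α).dense_span
  rw [Submodule.dense_iff_topologicalClosure_eq_top]
  have : (bv (α := α)) = fun a => stdBasis α a := by funext a; rw [stdBasis_apply]
  rw [this]; exact h

lemma op_ext {S T : L2 α →L[ℂ] L2 β} (h : ∀ a, S (bv a) = T (bv a)) : S = T :=
  ContinuousLinearMap.ext_on dense_span_bv (by rintro _ ⟨a, rfl⟩; exact h a)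

lemma vec_ext {u v : L2 α} (h : ∀ a, inner ℂ (bv a) u = inner ℂ (bv a) v) : u = v := by
  apply lp.ext; funext a; simpa [inner_bv] using h a

omit [DecidableEq α] in
lemma orthonormal_bv_comp {f : α → β} (hf : Function.Injective f) :
    Orthonormal ℂ (fun a => (bv (f a) : L2 β)) :=
  orthonormal_bv.comp f hf

/-- The isometry sending `bv a` to `bv (f a)`. -/
noncomputable def shift (f : α → β) (hf : Function.Injective f) : L2 α →L[ℂ] L2 β :=
  (orthonormal_bv_comp hf).orthogonalFamily.linearIsometry.toContinuousLinearMap

lemma shift_bv (f : α → β) (hf : Function.Injective f) (a : α) :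
    shift f hf (bv a) = bv (f a) := by
  unfold shift
  rw [LinearIsometry.coe_toContinuousLinearMap, bv,
    OrthogonalFamily.linearIsometry_apply_single]
  simp [bv]

lemma norm_shift (f : α → β) (hf : Function.Injective f) (v : L2 α) :
    ‖shift f hf v‖ = ‖v‖ := by
  simp [shift]

lemma inner_shift (f : α → β) (hf : Function.Injective f) (u v : L2 α) :
    inner ℂ (shift f hf u) (shift f hf v) = inner ℂ u v := by
  simp [shift]

lemma adjoint_shift_apply (f : α → β) (hf : Function.Injective f) (v : L2 β) (a : α) :
    ((ContinuousLinearMap.adjoint (shift f hf)) v) a = v (f a) := by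
  rw [← inner_bv, ContinuousLinearMap.adjoint_inner_right, shift_bv, inner_bv]

lemma adjoint_shift_bv (f : α → β) (hf : Function.Injective f) (a : α) :
    (ContinuousLinearMap.adjoint (shift f hf)) (bv (f a)) = bv a := by
  apply lp.ext; funext c
  rw [adjoint_shift_apply, bv_apply, bv_apply]
  by_cases h : c = a
  · simp [h]
  · simp [h, hf.ne_iff]

lemma adjoint_shift_bv_of_notMem (f : α → β) (hf : Function.Injective f) {b : β}
    (hb : ∀ a, f a ≠ b) :
    (ContinuousLinearMap.adjoint (shift f hf)) (bv b) = 0 := by
  apply lp.ext; funext c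
  rw [adjoint_shift_apply, bv_apply]
  simp [hb c]

lemma shift_apply_image (f : α → β) (hf : Function.Injective f) (v : L2 α) (a : α) :
    (shift f hf v) (f a) = v a := by
  rw [← inner_bv, ← shift_bv f hf, inner_shift, inner_bv]

lemma shift_apply_of_notMem (f : α → β) (hf : Function.Injective f) (v : L2 α) {b : β}
    (hb : ∀ a, f a ≠ b) : (shift f hf v) b = 0 := by
  rw [← inner_bv, ← ContinuousLinearMap.adjoint_inner_left, adjoint_shift_bv_of_notMem f hf hb,
    inner_zero_left]

end Vale.Agent.P087
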