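import Vale.Agent.P087.Model
import Vale.Agent.P087.Chart

/-! The upper bound for the microstates entropy of the tuple. -/

open scoped InnerProductSpace ENNReal
open MeasureTheory

namespace Vale.Agent.P087

set_option linter.unusedSectionVars false

section poly

variable {ι : Type} {H : Type} [NormedAddCommGroup H] [InnerProductSpace ℂ H]

/-- Noncommutative polynomials. -/
abbrev NCPoly (ι : Type) : Type := MonoidAlgebra ℂ (FreeMonoid ι)

/-- Evaluation of a polynomial. -/
noncomputable def evalP {A : Type*} [Semiring A] [Algebra ℂ A] (X : ι → A) :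
    NCPoly ι →ₐ[ℂ] A :=
  MonoidAlgebra.lift ℂ A (FreeMonoid ι) (FreeMonoid.lift X)

/-- A variable. -/
noncomputable def varP (i : ι) : NCPoly ι := MonoidAlgebra.of ℂ _ (FreeMonoid.of i)

@[simp] lemma evalP_varP {A : Type*} [Semiring A] [Algebra ℂ A] (X : ι → A) (i : ι) :
    evalP X (varP i) = X i := by simp [evalP, varP]

lemma lift_eq_prod {M : Type*} [Monoid M] (X : ι → M) (w : FreeMonoid ι) :
    FreeMonoid.lift X w = (w.toList.map X).prod := FreeMonoid.lift_apply X w

/-- Microstates approximate the trace of every polynomial. -/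
lemma exists_trace_bound (Ω : H) (hΩ : ‖Ω‖ = 1) (X : ι → H →L[ℂ] H) (P : NCPoly ι) :
    ∃ (m : ℕ) (C : ℝ), 0 ≤ C ∧ ∀ (R : ℝ) (m' : ℕ), m ≤ m' → ∀ (δ : ℝ) (k : ℕ), 0 < δ → 0 < k →
      ∀ A ∈ microstates Ω X R m' δ k,
        ‖(evalP (fun j => hermMatrix (A j)) P).trace / (k : ℂ) - vecState Ω (evalP X P)‖ ≤
          C * δ := by
  induction P using MonoidAlgebra.induction_linear with
  | zero => exact ⟨0, 0, le_rfl, fun R m' _ δ k _ _ A _ => by simp [vecState]⟩
  | add P Q hP hQ =>
    obtain ⟨m₁, C₁, h₁, hP⟩ := hP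
    obtain ⟨m₂, C₂, h₂, hQ⟩ := hQ
    refine ⟨max m₁ m₂, C₁ + C₂, by positivity, fun R m' hm δ k hδ hk A hA => ?_⟩
    have a1 := hP R m' (le_trans (le_max_left _ _) hm) δ k hδ hk A hA
    have a2 := hQ R m' (le_trans (le_max_right _ _) hm) δ k hδ hk A hA
    rw [map_add, map_add, Matrix.trace_add, vecState_add, add_div, add_sub_add_comm, add_mul]
    exact (norm_add_le _ _).trans (add_le_add a1 a2)
  | single w c =>
    refine ⟨w.toList.length, ‖c‖, norm_nonneg _, fun R m' hm δ k hδ hk A hA => ?_⟩
    simp only [evalP, MonoidAlgebra.lift_single, Matrix.trace_smul, vecState_smul, smul_eq_mul,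
      mul_div_assoc, ← mul_sub, norm_mul]
    refine mul_le_mul_of_nonneg_left ?_ (norm_nonneg _)
    by_cases hw : w.toList = []
    · have hw' : w = 1 := FreeMonoid.toList.injective (by rw [hw]; rfl)
      subst hw'
      have hk' : (k : ℂ) ≠ 0 := by exact_mod_cast hk.ne'
      simp [Matrix.trace_one, hk', vecState_one hΩ, hδ.le]
    · have hl : 1 ≤ w.toList.length := List.length_pos_of_ne_nil hw
      rw [lift_eq_prod, lift_eq_prod]
      exact (hA.2 w.toList hl hm).le

/-- The adjoint of a Wick polynomial. -/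
def wickAdj {α : Type} [DecidableEq α] {A : Type*} [Ring A] (X : α → A) : List α → A
  | [] => 1
  | [j] => X j
  | j :: a :: t => wickAdj X (a :: t) * X j - if a = j then wickAdj X t else 0

lemma star_wick {α : Type} [DecidableEq α] {A : Type*} [Ring A] [StarRing A] (X : α → A)
    (hX : ∀ j, star (X j) = X j) : ∀ w : List α, star (wick X w) = wickAdj X w
  | [] => star_one A
  | [j] => hX j
  | j :: a :: t => by
    simp only [wick, wickAdj, star_sub, star_mul]
    rw [hX, star_wick X hX (a :: t)]
    by_cases h : a = j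
    · simp only [if_pos h, star_wick X hX t]
    · simp only [if_neg h, star_zero]

lemma map_wickAdj {α : Type} [DecidableEq α] {A B : Type*} [Ring A] [Ring B] {F : Type*}
    [FunLike F A B] [RingHomClass F A B] (φ : F) (X : α → A) :
    ∀ w : List α, φ (wickAdj X w) = wickAdj (fun j => φ (X j)) w
  | [] => map_one φ
  | [j] => rfl
  | j :: a :: t => by
    simp only [wickAdj, map_sub, map_mul]
    rw [map_wickAdj φ X (a :: t)]
    by_cases h : a = j
    · simp only [if_pos h, map_wickAdj φ X t]
    · simp only [if_neg h, map_zero]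

lemma continuous_wick {α : Type} [DecidableEq α] {A : Type*} [Ring A] [TopologicalSpace A]
    [IsTopologicalRing A] {T : Type*} [TopologicalSpace T] (X : α → T → A)
    (hX : ∀ j, Continuous (X j)) : ∀ w : List α, Continuous fun t => wick (fun j => X j t) w
  | [] => continuous_const
  | [j] => hX j
  | j :: a :: t => by
    simp only [wick]
    refine ((hX j).mul (continuous_wick X hX (a :: t))).sub ?_
    by_cases h : a = j
    · simp only [if_pos h]; exact continuous_wick X hX t
    · simp only [if_neg h]; exact continuous_const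

end poly

namespace Model

variable {q : ℕ}

/-- The creators of the rotated signal. -/
noncomputable def rc (i : Fin 2) : Fock (Lab q) →L[ℂ] Fock (Lab q) :=
  (cs q : ℂ) • crL (al i) + (Real.sqrt (eps q) : ℂ) • crL (nz (Sum.inl i))

lemma Z_inl (i : Fin 2) : Z (Sum.inl i : I q) = rc i + star (rc i) := by
  simp only [Z, X0, eta, a0, sL, rc, star_add, star_smul, Complex.star_def, Complex.conj_ofReal,
    smul_add]
  abel

lemma rc_orth (hq : 1 ≤ q) (i j : Fin 2) :
    star (rc (q := q) i) * rc j = if i = j then 1 else 0 := by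
  simp only [rc, star_add, star_smul, Complex.star_def, Complex.conj_ofReal, add_mul, mul_add,
    smul_mul_assoc, mul_smul_comm, crL_orth, al, nz, reduceCtorEq, if_false, Sum.inl.injEq,
    Sum.inr.injEq, smul_zero, add_zero, zero_add, smul_smul]
  by_cases h : i = j
  · subst h
    simp only [if_true, ← add_smul]
    rw [← Complex.ofReal_mul, ← Complex.ofReal_mul, Real.mul_self_sqrt (eps_pos hq).le,
      ← Complex.ofReal_add, ← pow_two, cs_sq hq, sub_add_cancel, Complex.ofReal_one, one_smul]
  · simp [h]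

lemma star_rc_vac (i : Fin 2) : star (rc (q := q) i) (vac (Lab q)) = 0 := by
  simp only [rc, star_add, star_smul, add_apply, smul_apply, vac, star_crL_nil, smul_zero,
    add_zero]

lemma wick_a_vac (hq : 1 ≤ q) (w : List (Fin 2)) :
    wick (fun i => Z (Sum.inl i : I q)) w (vac (Lab q)) = lprod rc w (vac (Lab q)) := by
  have : (fun i => Z (Sum.inl i : I q)) = fun i => rc i + star (rc i) := funext Z_inl
  rw [this, wick_eq_wickOp rc (rc_orth hq), wickOp_vac rc star_rc_vac]

lemma inner_bv_lprod_rc (hq : 1 ≤ q) : ∀ u : List (Fin 2),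
    inner ℂ (bv (u.map al) : Fock (Lab q)) (lprod rc u (vac (Lab q))) = ((cs q ^ u.length : ℝ) : ℂ)
  | [] => by simp [vac, norm_bv]
  | a :: u => by
    rw [List.map_cons, lprod_cons, ← crL_bv, mul_apply_eq_comp,
      ← ContinuousLinearMap.adjoint_inner_right, ← ContinuousLinearMap.star_eq_adjoint,
      ← mul_apply_eq_comp (star (crL (al a : Lab q))) (rc a)]
    simp only [rc, mul_add, mul_smul_comm, crL_orth, al, nz, reduceCtorEq, if_true, if_false,
      Sum.inl.injEq, smul_zero, add_zero, smul_apply, one_apply_eq_self, inner_smul_right]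
    rw [inner_bv_lprod_rc hq u]
    push_cast
    rw [List.length_cons, pow_succ]
    ring

lemma norm_lprod_rc (hq : 1 ≤ q) (u : List (Fin 2)) :
    ‖lprod rc u (vac (Lab q))‖ = 1 := by
  have h : inner ℂ (lprod rc u (vac (Lab q))) (lprod rc u (vac (Lab q))) = (1 : ℂ) := by
    rw [← ContinuousLinearMap.adjoint_inner_right, ← ContinuousLinearMap.star_eq_adjoint]
    rw [← mul_apply_eq_comp (star (lprod rc u)) (lprod rc u)]
    rw [star_lprod_mul_lprod rc (rc_orth hq) u u rfl, if_pos rfl]
    exact vecState_one norm_vac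
  have h2 := inner_self_eq_norm_sq (𝕜 := ℂ) (lprod rc u (vac (Lab q)))
  rw [h] at h2
  simp only [RCLike.one_re] at h2
  exact (pow_eq_one_iff_of_nonneg (norm_nonneg _) two_ne_zero).1 h2.symm

lemma inner_nz_lprod_rc (v : V q) : ∀ u : List (Fin 2),
    inner ℂ (bv [nz (Sum.inr v)] : Fock (Lab q)) (lprod rc u (vac (Lab q))) = 0
  | [] => by simp [vac, inner_bv, bv_apply]
  | a :: u => by
    rw [lprod_cons, mul_apply_eq_comp,
      ← ContinuousLinearMap.adjoint_inner_left, ← ContinuousLinearMap.star_eq_adjoint]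
    have : star (rc a) (bv [nz (Sum.inr v)] : Fock (Lab q)) = 0 := by
      simp only [rc, star_add, star_smul, add_apply, smul_apply, star_crL_cons]
      simp [nz, al]
    rw [this, inner_zero_left]

lemma norm_Z_inl_vac (hq : 1 ≤ q) (i : Fin 2) : ‖Z (Sum.inl i : I q) (vac (Lab q))‖ = 1 := by
  have h := norm_lprod_rc hq [i]
  rwa [lprod_cons, lprod_nil, mul_one, show rc i (vac (Lab q)) = Z (Sum.inl i : I q) (vac (Lab q))
    by rw [Z_inl, add_apply, star_rc_vac, add_zero]] at h

/-- The distance of the high degree variables from the polynomial in the first two. -/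
lemma dist_sq_le (hq : 1 ≤ q) (v : V q) :
    ‖(Z (Sum.inr v : I q) - wick (fun i => Z (Sum.inl i : I q)) (base v)) (vac (Lab q))‖ ^ 2 ≤
      tn q + 1 / 8 := by
  rw [sub_apply, wick_a_vac hq, show Z (Sum.inr v : I q) (vac (Lab q)) =
      bv ((base v).map al) + (Real.sqrt (tn q) : ℂ) • bv [nz (Sum.inr v)] by
    simp only [Z, X0, eta, add_apply, smul_apply, sL_vac, xel_vac]]
  set p : Fock (Lab q) := bv ((base v).map al)
  set e : Fock (Lab q) := bv [nz (Sum.inr v)]
  set f : Fock (Lab q) := lprod rc (base v) (vac (Lab q))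
  have hpe : inner ℂ p e = (0 : ℂ) := by
    simp only [p, e, inner_bv, bv_apply]
    rw [if_neg]
    intro h
    have := congrArg List.length h
    simp [base_length] at this
  have hef : inner ℂ e f = (0 : ℂ) := inner_nz_lprod_rc v _
  rw [show p + (Real.sqrt (tn q) : ℂ) • e - f = (p - f) + (Real.sqrt (tn q) : ℂ) • e by abel,
    @norm_add_sq ℂ, inner_smul_right, inner_sub_left, hpe, ← inner_conj_symm f e, hef,
    norm_smul, Complex.norm_real, Real.norm_of_nonneg (Real.sqrt_nonneg _), mul_pow,
    Real.sq_sqrt (tn_pos q).le, @norm_sub_sq ℂ, inner_bv_lprod_rc hq, base_length]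
  simp only [p, e, f, norm_bv, norm_lprod_rc hq, map_zero, sub_zero, mul_zero]
  have h1 : (15 / 16 : ℝ) ≤ cs q ^ (4 * q) := by
    rw [show 4 * q = 2 * (2 * q) by ring, pow_mul, cs_sq hq]
    have hb := one_add_mul_le_pow (a := -eps q) (by linarith [eps_le hq]) (2 * q)
    rw [← sub_eq_add_neg] at hb
    refine le_trans ?_ hb
    have : (1 : ℝ) ≤ q := by exact_mod_cast hq
    unfold eps
    push_cast
    rw [mul_neg, ← sub_eq_add_neg, le_sub_comm]
    field_simp
    norm_num
  have h2 : RCLike.re ((cs q ^ (4 * q) : ℝ) : ℂ) = cs q ^ (4 * q) := Complex.ofReal_re _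
  rw [h2]
  linarith

/-- The polynomial whose trace is the squared distance. -/
noncomputable def distPoly (v : V q) : NCPoly (I q) :=
  (varP (Sum.inr v) - wickAdj (fun i => varP (Sum.inl i)) (base v)) *
    (varP (Sum.inr v) - wick (fun i => varP (Sum.inl i)) (base v))

lemma evalP_distPoly {A : Type*} [Ring A] [Algebra ℂ A] [StarRing A] (X : I q → A)
    (hX : ∀ j, star (X j) = X j) (v : V q) :
    evalP X (distPoly v) =
      star (X (Sum.inr v) - wick (fun i => X (Sum.inl i)) (base v)) *
        (X (Sum.inr v) - wick (fun i => X (Sum.inl i)) (base v)) := by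
  rw [distPoly, map_mul, map_sub, map_sub, map_wick, map_wickAdj, star_sub, hX,
    star_wick _ (fun i => hX _)]
  simp only [evalP_varP]

lemma state_star_mul_self {L : Type} [DecidableEq L] (D : Fock L →L[ℂ] Fock L) :
    vecState (vac L) (star D * D) = ((‖D (vac L)‖ ^ 2 : ℝ) : ℂ) := by
  show inner ℂ (vac L) (star D (D (vac L))) = _
  rw [ContinuousLinearMap.star_eq_adjoint, ContinuousLinearMap.adjoint_inner_right,
    inner_self_eq_norm_sq_to_K]
  norm_cast

/-- The centres of the balls containing the high degree coordinates of microstates. -/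
noncomputable def centre {k : ℕ} (a : Fin 2 → EuclideanSpace ℝ (Fin k × Fin k)) (v : V q) :
    EuclideanSpace ℝ (Fin k × Fin k) :=
  vecHerm (wick (fun i => hermMatrix (a i)) (base v))

lemma continuous_centre {k : ℕ} (v : V q) :
    Continuous fun a : Fin 2 → EuclideanSpace ℝ (Fin k × Fin k) => centre a v :=
  continuous_vecHerm.comp (continuous_wick
    (fun i (a : Fin 2 → EuclideanSpace ℝ (Fin k × Fin k)) => hermMatrix (a i))
    (fun i => continuous_hermMatrix.comp (continuous_apply i)) (base v))

lemma exists_volume_bound (hq : 1 ≤ q) :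
    ∃ (m : ℕ) (δ : ℝ), 0 < δ ∧ ∀ (R : ℝ) (k : ℕ), 0 < k →
      volume (microstates (vac (Lab q)) Z R m δ k) ≤
        ENNReal.ofReal (((2 * Real.pi * Real.exp 1 * 2 / k) ^ (((k : ℝ) ^ 2) / 2)) ^ 2 *
          ((2 * Real.pi * Real.exp 1 * (tn q + 1 / 4) / k) ^ (((k : ℝ) ^ 2) / 2)) ^
            Fintype.card (V q)) := by
  choose mV CV hCV hbV using fun v : V q =>
    exists_trace_bound (vac (Lab q)) norm_vac Z (distPoly v)
  choose mA CA hCA hbA using fun i : Fin 2 =>
    exists_trace_bound (vac (Lab q)) norm_vac Z (varP (Sum.inl i) * varP (Sum.inl i))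
  set m := (Finset.univ.sup mV) + (Finset.univ.sup mA)
  set C := (∑ v, CV v) + (∑ i, CA i) + 1
  have hC : 1 ≤ C := by
    have h1 : (0 : ℝ) ≤ ∑ v, CV v := Finset.sum_nonneg fun v _ => hCV v
    have h2 : (0 : ℝ) ≤ ∑ i, CA i := Finset.sum_nonneg fun i _ => hCA i
    simp only [C]; linarith
  set δ := 1 / (8 * C)
  have hδ : 0 < δ := by positivity
  have hCδ : C * δ = 1 / 8 := by simp only [δ]; field_simp
  refine ⟨m, δ, hδ, fun R k hk => ?_⟩
  set E := EuclideanSpace ℝ (Fin k × Fin k)
  set ra := Real.sqrt ((k : ℝ) * 2)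
  set rb := Real.sqrt ((k : ℝ) * (tn q + 1 / 4))
  set T : Set ((Fin 2 → E) × (V q → E)) :=
    {p | (∀ i, ‖p.1 i‖ ≤ ra) ∧ ∀ v, ‖p.2 v - centre p.1 v‖ ≤ rb}
  have hTm : MeasurableSet T := by
    refine IsClosed.measurableSet ?_
    simp only [T, Set.ofPred_and, Set.ofPred_forall]
    refine (isClosed_iInter fun i => isClosed_le ?_ continuous_const).inter
      (isClosed_iInter fun v => isClosed_le ?_ continuous_const)
    · exact ((continuous_apply i).comp continuous_fst).norm
    · exact (((continuous_apply v).comp continuous_snd).sub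
        ((continuous_centre v).comp continuous_fst)).norm
  have hkC : (0 : ℝ) < k := Nat.cast_pos.2 hk
  have hsub : microstates (vac (Lab q)) Z R m δ k ⊆
      (MeasurableEquiv.sumPiEquivProdPi fun _ : I q => E) ⁻¹' T := by
    intro A hA
    have hstar : ∀ j, star (hermMatrix (A j)) = hermMatrix (A j) := fun j => star_hermMatrix _
    refine ⟨fun i => ?_, fun v => ?_⟩
    · have h := hbA i R m (le_trans (Finset.le_sup (Finset.mem_univ i)) (Nat.le_add_left _ _))
        δ k hδ hk A hA
      simp only [map_mul, evalP_varP] at h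
      conv at h => arg 1; arg 1; arg 2; arg 2; arg 1; rw [← star_Z]
      rw [state_star_mul_self, norm_Z_inl_vac hq, one_pow, Complex.ofReal_one] at h
      have hle : CA i * δ ≤ 1 := by
        have : CA i ≤ C := by
          have h1 : (0 : ℝ) ≤ ∑ v, CV v := Finset.sum_nonneg fun v _ => hCV v
          have h2 := Finset.single_le_sum (fun j _ => hCA j) (Finset.mem_univ i)
          simp only [C]; linarith
        nlinarith
      have hre := (Complex.abs_re_le_norm _).trans (h.trans hle)
      rw [Complex.sub_re, Complex.one_re, Complex.div_natCast_re] at hre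
      have htr : ((hermMatrix (A (Sum.inl i)) * hermMatrix (A (Sum.inl i))).trace).re =
          ‖A (Sum.inl i)‖ ^ 2 := by
        rw [← sum_norm_sq_hermMatrix, sum_norm_sq_eq_trace, hermMatrix_isHermitian]
      rw [htr] at hre
      show ‖A (Sum.inl i)‖ ≤ ra
      refine Real.le_sqrt_of_sq_le ?_
      have := (abs_le.1 hre).2
      rw [sub_le_iff_le_add, div_le_iff₀ hkC] at this
      linarith
    · have h := hbV v R m (le_trans (Finset.le_sup (Finset.mem_univ v)) (Nat.le_add_right _ _))
        δ k hδ hk A hA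
      rw [evalP_distPoly _ hstar, evalP_distPoly _ star_Z, state_star_mul_self] at h
      have hle : CV v * δ ≤ 1 / 8 := by
        have : CV v ≤ C := by
          have h1 : (0 : ℝ) ≤ ∑ i, CA i := Finset.sum_nonneg fun i _ => hCA i
          have h2 := Finset.single_le_sum (fun j _ => hCV j) (Finset.mem_univ v)
          simp only [C]; linarith
        nlinarith
      have hre := (Complex.abs_re_le_norm _).trans (h.trans hle)
      rw [Complex.sub_re, Complex.div_natCast_re, Complex.ofReal_re, Matrix.star_eq_conjTranspose,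
        ← sum_norm_sq_eq_trace] at hre
      show ‖A (Sum.inr v) - centre (fun i => A (Sum.inl i)) v‖ ≤ rb
      refine Real.le_sqrt_of_sq_le (le_trans (norm_sub_vecHerm_sq_le _ _) ?_)
      have h3 := (abs_le.1 hre).2
      have h4 := dist_sq_le hq v
      rw [sub_le_iff_le_add, div_le_iff₀ hkC] at h3
      simp only [Matrix.sub_apply] at h3
      nlinarith
  have : Nonempty (Fin k × Fin k) := ⟨(⟨0, hk⟩, ⟨0, hk⟩)⟩
  have hball : ∀ (c : E) {ρ : ℝ}, 0 < ρ → volume (Metric.closedBall c (Real.sqrt ((k : ℝ) * ρ))) ≤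
      ENNReal.ofReal ((2 * Real.pi * Real.exp 1 * ρ / k) ^ (((k : ℝ) ^ 2) / 2)) := by
    intro c ρ hρ
    refine (volume_closedBall_le c (Real.sqrt_pos.2 (by positivity))).trans (le_of_eq ?_)
    rw [Real.sq_sqrt (by positivity), Fintype.card_prod, Fintype.card_fin, Nat.cast_mul, ← pow_two]
    congr 2
    field_simp
  calc volume (microstates (vac (Lab q)) Z R m δ k)
      ≤ volume ((MeasurableEquiv.sumPiEquivProdPi fun _ : I q => E) ⁻¹' T) := measure_mono hsub
    _ = (volume.prod volume) T :=
        (volume_measurePreserving_sumPiEquivProdPi fun _ : I q => E).measure_preimage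
          hTm.nullMeasurableSet
    _ = ∫⁻ a, volume (Prod.mk a ⁻¹' T) := Measure.prod_apply hTm
    _ ≤ ∫⁻ a, (Set.univ.pi fun _ : Fin 2 => Metric.closedBall (0 : E) ra).indicator
          (fun _ => ENNReal.ofReal ((2 * Real.pi * Real.exp 1 * (tn q + 1 / 4) / k) ^
            (((k : ℝ) ^ 2) / 2)) ^ Fintype.card (V q)) a := by
        refine lintegral_mono fun a => ?_
        by_cases ha : a ∈ Set.univ.pi fun _ : Fin 2 => Metric.closedBall (0 : E) ra
        · rw [Set.indicator_of_mem ha]
          refine (measure_mono (t := Set.univ.pi fun v => Metric.closedBall (centre a v) rb)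
            (fun b hb v _ => by simpa [Metric.mem_closedBall, dist_eq_norm] using hb.2 v)).trans ?_
          rw [volume_pi_pi, ← Finset.card_univ, ← Finset.prod_const]
          exact Finset.prod_le_prod' fun v _ => hball _ (by linarith [tn_pos q])
        · rw [Set.indicator_of_notMem ha]
          refine le_of_eq (measure_mono_null (fun b hb => ?_) (measure_empty (μ := volume)))
          exact ha fun i _ => by simpa [Metric.mem_closedBall] using hb.1 i
    _ ≤ ENNReal.ofReal ((2 * Real.pi * Real.exp 1 * (tn q + 1 / 4) / k) ^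
            (((k : ℝ) ^ 2) / 2)) ^ Fintype.card (V q) *
          ENNReal.ofReal ((2 * Real.pi * Real.exp 1 * 2 / k) ^ (((k : ℝ) ^ 2) / 2)) ^ 2 := by
        refine (lintegral_indicator_const_le _ _).trans (mul_le_mul' le_rfl ?_)
        rw [volume_pi_pi, Fin.prod_univ_two, sq]
        exact mul_le_mul' (hball _ two_pos) (hball _ two_pos)
    _ = _ := by
        have : (0 : ℝ) < tn q + 1 / 4 := by linarith [tn_pos q]
        rw [← ENNReal.ofReal_pow (by positivity), ← ENNReal.ofReal_pow (by positivity), mul_comm,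
          ← ENNReal.ofReal_mul (by positivity)]

/-- **Upper bound on `χ`.** -/
theorem chi_upper (hq : 1 ≤ q) :
    chi (vac (Lab q)) Z ≤
      (((Fintype.card (I q) : ℝ) / 2 * Real.log (2 * Real.pi * Real.exp 1) + Real.log 2 +
        (Fintype.card (V q) : ℝ) / 2 * Real.log (tn q + 1 / 4) : ℝ) : EReal) := by
  obtain ⟨m, δ, hδ, hb⟩ := exists_volume_bound hq
  refine iSup₂_le fun R _ => (iInf_le _ m).trans ((iInf₂_le δ hδ).trans ?_)
  refine Filter.limsup_le_of_le ?_ ?_
  · exact Filter.isCobounded_le_of_bot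
  filter_upwards [Filter.eventually_gt_atTop 0] with k hk
  have hkR : (0 : ℝ) < k := Nat.cast_pos.2 hk
  have ht : (0 : ℝ) < tn q + 1 / 4 := by linarith [tn_pos q]
  set A : ℝ := (2 * Real.pi * Real.exp 1 * 2 / k) ^ (((k : ℝ) ^ 2) / 2)
  set B : ℝ := (2 * Real.pi * Real.exp 1 * (tn q + 1 / 4) / k) ^ (((k : ℝ) ^ 2) / 2)
  have hA : 0 < A := by positivity
  have hB : 0 < B := by positivity
  unfold microstatesLogVol
  refine le_trans (add_le_add (mul_le_mul_of_nonneg_left
    (ENNReal.log_monotone (hb R k hk)) (EReal.coe_nonneg.2 (by positivity))) le_rfl) ?_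
  rw [ENNReal.log_ofReal_of_pos (by positivity), ← EReal.coe_mul, ← EReal.coe_add,
    EReal.coe_le_coe_iff]
  rw [Real.log_mul (by positivity) (by positivity), Real.log_pow, Real.log_pow]
  rw [Real.log_rpow (by positivity), Real.log_rpow (by positivity),
    Real.log_div (by positivity) hkR.ne', Real.log_div (by positivity) hkR.ne',
    Real.log_mul (x := 2 * Real.pi * Real.exp 1) (by positivity) two_ne_zero,
    Real.log_mul (x := 2 * Real.pi * Real.exp 1) (by positivity) ht.ne',
    show (Fintype.card (I q) : ℝ) = 2 + (Fintype.card (V q) : ℝ) by simp [Fintype.card_sum]]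
  apply le_of_eq
  field_simp
  push_cast
  ring

end Model

end Vale.Agent.P087
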